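import Vale.Agent.P113.Defs

open MeasureTheory Set Filter Topology

namespace Vale.Agent.P113

lemma shift_add (j : Fin 3) (s r : ℝ) : shift j (s + r) = shift j s + shift j r := by
  unfold shift
  rw [← Pi.single_add]
  norm_num

lemma shift_zero (j : Fin 3) : shift j 0 = 0 := by simp [shift]

lemma HasSpatialDeriv.at_shift {g g' : Torus → ℝ} {j : Fin 3}
    (h : ∀ X, HasSpatialDeriv g j (g' X) X) (X : Torus) (s : ℝ) :
    HasDerivAt (fun r : ℝ => g (X + shift j r)) (g' (X + shift j s)) s := by
  have h1 := h (X + shift j s)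
  unfold HasSpatialDeriv at h1
  have h2 : HasDerivAt (fun r : ℝ => g (X + shift j s + shift j (r - s)))
      (g' (X + shift j s)) s := by
    apply HasDerivAt.comp_sub_const (f := fun r : ℝ => g (X + shift j s + shift j r)) s s
    simpa using h1
  have h3 : (fun r : ℝ => g (X + shift j s + shift j (r - s))) =
      fun r : ℝ => g (X + shift j r) := by
    funext r
    rw [add_assoc, ← shift_add]
    congr 3
    ring
  rwa [h3] at h2

lemma exists_bound_of_continuous {g : Torus → ℝ} (hg : Continuous g) :
    ∃ C : ℝ, ∀ X, ‖g X‖ ≤ C := by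
  obtain ⟨C, hC⟩ := isCompact_univ.exists_bound_of_continuousOn (f := g) hg.continuousOn
  exact ⟨C, fun X => hC X (mem_univ X)⟩

lemma integrable_of_continuous {g : Torus → ℝ} (hg : Continuous g) :
    Integrable g (volume : Measure Torus) :=
  hg.integrable_of_hasCompactSupport (HasCompactSupport.of_compactSpace g)

/-- The integral over the torus of a spatial derivative vanishes. -/
lemma integral_spatialDeriv {g g' : Torus → ℝ} {j : Fin 3} (hg : Continuous g)
    (hg' : Continuous g') (h : ∀ X, HasSpatialDeriv g j (g' X) X) : ∫ X, g' X = 0 := by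
  obtain ⟨C, hC⟩ := exists_bound_of_continuous hg'
  have hshift : ∀ s : ℝ, Continuous fun X : Torus => X + shift j s :=
    fun s => continuous_id.add continuous_const
  have key := hasDerivAt_integral_of_dominated_loc_of_deriv_le
    (μ := (volume : Measure Torus)) (F := fun (s : ℝ) (X : Torus) => g (X + shift j s))
    (F' := fun (s : ℝ) (X : Torus) => g' (X + shift j s)) (x₀ := (0 : ℝ)) (s := univ)
    (bound := fun _ => C) univ_mem
    (Eventually.of_forall fun s => (hg.comp (hshift s)).aestronglyMeasurable)
    (integrable_of_continuous (hg.comp (hshift 0)))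
    ((hg'.comp (hshift 0)).aestronglyMeasurable)
    (Eventually.of_forall fun X s _ => hC _)
    (integrable_const C)
    (Eventually.of_forall fun X s _ => HasSpatialDeriv.at_shift h X s)
  have h2 := key.2
  have h3 : (fun s : ℝ => ∫ X, g (X + shift j s)) = fun _ => ∫ X, g X := by
    funext s
    exact integral_add_right_eq_self g (shift j s)
  rw [h3] at h2
  have h4 := h2.unique (hasDerivAt_const (0 : ℝ) (∫ X, g X))
  simpa [shift_zero] using h4

lemma HasSpatialDeriv.mul {g h : Torus → ℝ} {j : Fin 3} {g' h' : ℝ} {X : Torus}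
    (hg : HasSpatialDeriv g j g' X) (hh : HasSpatialDeriv h j h' X) :
    HasSpatialDeriv (fun Y => g Y * h Y) j (g' * h X + g X * h') X := by
  unfold HasSpatialDeriv at *
  have := HasDerivAt.fun_mul hg hh
  simpa [shift_zero] using this

lemma HasSpatialDeriv.sub {g h : Torus → ℝ} {j : Fin 3} {g' h' : ℝ} {X : Torus}
    (hg : HasSpatialDeriv g j g' X) (hh : HasSpatialDeriv h j h' X) :
    HasSpatialDeriv (fun Y => g Y - h Y) j (g' - h') X := by
  unfold HasSpatialDeriv at *
  exact HasDerivAt.sub hg hh

lemma exists_rep (X : Torus) : ∃ x : Vec, X = proj x := by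
  have : ∀ i, ∃ r : ℝ, (r : AddCircle (1 : ℝ)) = X i := fun i => QuotientAddGroup.mk_surjective (X i)
  choose x hx using this
  exact ⟨x, funext fun i => (hx i).symm⟩

/-- A function all of whose spatial derivatives vanish is constant. -/
lemma const_of_spatialDeriv_zero {g : Torus → ℝ} (h : ∀ X j, HasSpatialDeriv g j 0 X) (X : Torus) :
    g X = g 0 := by
  have step : ∀ (j : Fin 3) (Y : Torus) (s : ℝ), g (Y + shift j s) = g Y := by
    intro j Y s
    have hd : ∀ r : ℝ, HasDerivAt (fun r : ℝ => g (Y + shift j r)) 0 r := fun r =>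
      HasSpatialDeriv.at_shift (g' := fun _ => 0) (fun X => h X j) Y r
    have := is_const_of_deriv_eq_zero (f := fun r : ℝ => g (Y + shift j r))
      (fun r => (hd r).differentiableAt) (fun r => (hd r).deriv) s 0
    simpa [shift_zero] using this
  obtain ⟨x, rfl⟩ := exists_rep X
  have hx : proj x = 0 + shift 0 (x 0) + shift 1 (x 1) + shift 2 (x 2) := by
    funext i
    fin_cases i <;> simp [proj, shift]
  rw [hx, step, step, step]

end Vale.Agent.P113
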