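import Vale.Agent.P113.Defs

namespace Vale.Agent.P113

/-! ### Rational arithmetic on triples of naturals -/

abbrev Q3 : Type := ℕ × ℕ × ℕ

def qadd (p q : Q3) : Q3 :=
  (p.1 * (q.2.2 + 1) + q.1 * (p.2.2 + 1), p.2.1 * (q.2.2 + 1) + q.2.1 * (p.2.2 + 1),
    (p.2.2 + 1) * (q.2.2 + 1) - 1)

def qneg (p : Q3) : Q3 := (p.2.1, p.1, p.2.2)

def qmul (p q : Q3) : Q3 :=
  (p.1 * q.1 + p.2.1 * q.2.1, p.1 * q.2.1 + p.2.1 * q.1, (p.2.2 + 1) * (q.2.2 + 1) - 1)

def qinv (p : Q3) : Q3 :=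
  if p.2.1 < p.1 then (p.2.2 + 1, 0, p.1 - p.2.1 - 1)
  else if p.1 < p.2.1 then (0, p.2.2 + 1, p.2.1 - p.1 - 1) else (0, 0, 0)

lemma den_cast (a b : ℕ) : (((a + 1) * (b + 1) - 1 : ℕ) : ℚ) + 1 = ((a : ℚ) + 1) * ((b : ℚ) + 1) := by
  have h : 1 ≤ (a + 1) * (b + 1) := Nat.one_le_iff_ne_zero.mpr (by positivity)
  rw [Nat.cast_sub h]
  push_cast
  ring

lemma ratOf_qadd (p q : Q3) : ratOf (qadd p q) = ratOf p + ratOf q := by
  have hp : ((p.2.2 : ℚ) + 1) ≠ 0 := by positivity
  have hq : ((q.2.2 : ℚ) + 1) ≠ 0 := by positivity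
  unfold ratOf qadd
  simp only
  rw [den_cast]
  push_cast
  field_simp
  ring

lemma ratOf_qneg (p : Q3) : ratOf (qneg p) = - ratOf p := by
  unfold ratOf qneg
  simp only
  ring

lemma ratOf_qmul (p q : Q3) : ratOf (qmul p q) = ratOf p * ratOf q := by
  have hp : ((p.2.2 : ℚ) + 1) ≠ 0 := by positivity
  have hq : ((q.2.2 : ℚ) + 1) ≠ 0 := by positivity
  unfold ratOf qmul
  simp only
  rw [den_cast]
  push_cast
  field_simp
  ring

lemma ratOf_qinv (p : Q3) : ratOf (qinv p) = (ratOf p)⁻¹ := by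
  have hp : ((p.2.2 : ℚ) + 1) ≠ 0 := by positivity
  unfold ratOf qinv
  split_ifs with h1 h2
  · simp only
    have h3 : 1 ≤ p.1 - p.2.1 := by omega
    rw [Nat.cast_sub h3, Nat.cast_sub h1.le]
    push_cast
    have h4 : (p.1 : ℚ) - p.2.1 ≠ 0 := by
      have : (p.2.1 : ℚ) < p.1 := by exact_mod_cast h1
      intro h
      linarith
    have h5 : (p.1 : ℚ) - p.2.1 - 1 + 1 ≠ 0 := by simpa using h4
    field_simp
    ring
  · simp only
    have h3 : 1 ≤ p.2.1 - p.1 := by omega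
    rw [Nat.cast_sub h3, Nat.cast_sub h2.le]
    push_cast
    have h4 : (p.2.1 : ℚ) - p.1 ≠ 0 := by
      have : (p.1 : ℚ) < p.2.1 := by exact_mod_cast h2
      intro h
      linarith
    have h5 : (p.2.1 : ℚ) - p.1 - 1 + 1 ≠ 0 := by simpa using h4
    have h6 : (p.1 : ℚ) - p.2.1 ≠ 0 := by
      intro h
      apply h4
      linarith
    field_simp
    ring
  · have h3 : p.1 = p.2.1 := by omega
    simp [h3]

lemma exists_triple (r : ℚ) : ∃ q : Q3, ratOf q = r := by
  refine ⟨(r.num.toNat, (-r.num).toNat, r.den - 1), ?_⟩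
  unfold ratOf
  simp only
  have h1 : ((r.den - 1 : ℕ) : ℚ) + 1 = r.den := by
    have : 1 ≤ r.den := r.pos
    rw [Nat.cast_sub this]
    push_cast
    ring
  have h2 : ((r.num.toNat : ℕ) : ℚ) - (((-r.num).toNat : ℕ) : ℚ) = r.num := by
    have : ((r.num.toNat : ℕ) : ℤ) - (((-r.num).toNat : ℕ) : ℤ) = r.num := by omega
    exact_mod_cast congrArg (Int.cast : ℤ → ℚ) this
  rw [h1, h2]
  exact Rat.num_div_den r

lemma abs_ratOf_le (p : Q3) : |ratOf p| ≤ ((p.1 + p.2.1 : ℕ) : ℚ) := by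
  unfold ratOf
  rw [abs_div, abs_of_pos (show (0 : ℚ) < (p.2.2 : ℚ) + 1 by positivity)]
  rw [div_le_iff₀ (by positivity)]
  have h1 : |(p.1 : ℚ) - p.2.1| ≤ p.1 + p.2.1 := by
    rw [abs_le]
    constructor <;> linarith [Nat.cast_nonneg (α := ℚ) p.1, Nat.cast_nonneg (α := ℚ) p.2.1]
  have h2 : (0 : ℚ) ≤ p.1 + p.2.1 := by positivity
  have h3 : (0 : ℚ) ≤ p.2.2 := by positivity
  push_cast
  nlinarith

section primrec

variable {α : Type*} [Primcodable α]

lemma primrec_qadd {f g : α → Q3} (hf : Primrec f) (hg : Primrec g) :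
    Primrec fun a => qadd (f a) (g a) := by
  have f1 := Primrec.fst.comp hf
  have f2 := Primrec.fst.comp (Primrec.snd.comp hf)
  have f3 := Primrec.succ.comp (Primrec.snd.comp (Primrec.snd.comp hf))
  have g1 := Primrec.fst.comp hg
  have g2 := Primrec.fst.comp (Primrec.snd.comp hg)
  have g3 := Primrec.succ.comp (Primrec.snd.comp (Primrec.snd.comp hg))
  exact Primrec.pair (Primrec.nat_add.comp (Primrec.nat_mul.comp f1 g3)
    (Primrec.nat_mul.comp g1 f3)) (Primrec.pair (Primrec.nat_add.comp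
      (Primrec.nat_mul.comp f2 g3) (Primrec.nat_mul.comp g2 f3))
      (Primrec.nat_sub.comp (Primrec.nat_mul.comp f3 g3) (Primrec.const 1)))

lemma primrec_qneg {f : α → Q3} (hf : Primrec f) : Primrec fun a => qneg (f a) := by
  have f1 := Primrec.fst.comp hf
  have f2 := Primrec.fst.comp (Primrec.snd.comp hf)
  have f3 := (Primrec.snd.comp (Primrec.snd.comp hf))
  exact Primrec.pair f2 (Primrec.pair f1 f3)

lemma primrec_qmul {f g : α → Q3} (hf : Primrec f) (hg : Primrec g) :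
    Primrec fun a => qmul (f a) (g a) := by
  have f1 := Primrec.fst.comp hf
  have f2 := Primrec.fst.comp (Primrec.snd.comp hf)
  have f3 := Primrec.succ.comp (Primrec.snd.comp (Primrec.snd.comp hf))
  have g1 := Primrec.fst.comp hg
  have g2 := Primrec.fst.comp (Primrec.snd.comp hg)
  have g3 := Primrec.succ.comp (Primrec.snd.comp (Primrec.snd.comp hg))
  exact Primrec.pair (Primrec.nat_add.comp (Primrec.nat_mul.comp f1 g1)
    (Primrec.nat_mul.comp f2 g2)) (Primrec.pair (Primrec.nat_add.comp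
      (Primrec.nat_mul.comp f1 g2) (Primrec.nat_mul.comp f2 g1))
      (Primrec.nat_sub.comp (Primrec.nat_mul.comp f3 g3) (Primrec.const 1)))

lemma primrec_qinv {f : α → Q3} (hf : Primrec f) : Primrec fun a => qinv (f a) := by
  have f1 := Primrec.fst.comp hf
  have f2 := Primrec.fst.comp (Primrec.snd.comp hf)
  have f3 := Primrec.succ.comp (Primrec.snd.comp (Primrec.snd.comp hf))
  unfold qinv
  refine Primrec.ite (Primrec.nat_lt.comp f2 f1) ?_ (Primrec.ite (Primrec.nat_lt.comp f1 f2) ?_ ?_)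
  · exact Primrec.pair f3 (Primrec.pair (Primrec.const 0) (Primrec.nat_sub.comp
      (Primrec.nat_sub.comp f1 f2) (Primrec.const 1)))
  · exact Primrec.pair (Primrec.const 0) (Primrec.pair f3 (Primrec.nat_sub.comp
      (Primrec.nat_sub.comp f2 f1) (Primrec.const 1)))
  · exact Primrec.const _

end primrec

/-! ### Computable rational-valued functions -/

/-- `h : α → ℚ` is computable. -/
def CRat {α : Type*} [Primcodable α] (h : α → ℚ) : Prop :=
  ∃ q : α → Q3, Computable q ∧ ∀ a, ratOf (q a) = h a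

section crat

variable {α β : Type*} [Primcodable α] [Primcodable β]

lemma CRat.const (r : ℚ) : CRat fun _ : α => r := by
  obtain ⟨q, hq⟩ := exists_triple r
  exact ⟨fun _ => q, Computable.const q, fun _ => hq⟩

lemma CRat.ratOf {f : α → Q3} (hf : Computable f) : CRat fun a => ratOf (f a) :=
  ⟨f, hf, fun _ => rfl⟩

lemma CRat.natCast {f : α → ℕ} (hf : Computable f) : CRat fun a => (f a : ℚ) :=
  ⟨fun a => (f a, 0, 0), Computable.pair hf (Computable.const (0, 0)), fun a => by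
    simp [P113.ratOf]⟩

lemma CRat.comp {h : β → ℚ} (hh : CRat h) {f : α → β} (hf : Computable f) :
    CRat fun a => h (f a) := by
  obtain ⟨q, hq, hq'⟩ := hh
  exact ⟨fun a => q (f a), hq.comp hf, fun a => hq' (f a)⟩

lemma CRat.congr {h g : α → ℚ} (hh : CRat h) (e : ∀ a, h a = g a) : CRat g := by
  obtain ⟨q, hq, hq'⟩ := hh
  exact ⟨q, hq, fun a => (hq' a).trans (e a)⟩

lemma CRat.add {g h : α → ℚ} (hg : CRat g) (hh : CRat h) : CRat fun a => g a + h a := by
  obtain ⟨p, hp, hp'⟩ := hg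
  obtain ⟨q, hq, hq'⟩ := hh
  refine ⟨fun a => qadd (p a) (q a), ?_, fun a => by rw [ratOf_qadd, hp', hq']⟩
  exact (primrec_qadd Primrec.fst Primrec.snd).to_comp.comp (hp.pair hq)

lemma CRat.mul {g h : α → ℚ} (hg : CRat g) (hh : CRat h) : CRat fun a => g a * h a := by
  obtain ⟨p, hp, hp'⟩ := hg
  obtain ⟨q, hq, hq'⟩ := hh
  refine ⟨fun a => qmul (p a) (q a), ?_, fun a => by rw [ratOf_qmul, hp', hq']⟩
  exact (primrec_qmul Primrec.fst Primrec.snd).to_comp.comp (hp.pair hq)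

lemma CRat.neg {g : α → ℚ} (hg : CRat g) : CRat fun a => - g a := by
  obtain ⟨p, hp, hp'⟩ := hg
  refine ⟨fun a => qneg (p a), ?_, fun a => by rw [ratOf_qneg, hp']⟩
  exact (primrec_qneg Primrec.id).to_comp.comp hp

lemma CRat.inv {g : α → ℚ} (hg : CRat g) : CRat fun a => (g a)⁻¹ := by
  obtain ⟨p, hp, hp'⟩ := hg
  refine ⟨fun a => qinv (p a), ?_, fun a => by rw [ratOf_qinv, hp']⟩
  exact (primrec_qinv Primrec.id).to_comp.comp hp

lemma CRat.sub {g h : α → ℚ} (hg : CRat g) (hh : CRat h) : CRat fun a => g a - h a :=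
  (hg.add hh.neg).congr fun a => by ring

lemma CRat.div {g h : α → ℚ} (hg : CRat g) (hh : CRat h) : CRat fun a => g a / h a :=
  (hg.mul hh.inv).congr fun a => by rw [div_eq_mul_inv]

lemma CRat.cond {c : α → Bool} (hc : Computable c) {g h : α → ℚ} (hg : CRat g) (hh : CRat h) :
    CRat fun a => bif c a then g a else h a := by
  obtain ⟨p, hp, hp'⟩ := hg
  obtain ⟨q, hq, hq'⟩ := hh
  refine ⟨fun a => bif c a then p a else q a, Computable.cond hc hp hq, fun a => ?_⟩
  beta_reduce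
  cases c a
  · exact hq' a
  · exact hp' a

/-- Primitive recursion with rational values. -/
lemma CRat.nat_rec {f : α → ℕ} (hf : Computable f) {g : α → ℚ} (hg : CRat g)
    {s : α → ℕ → ℚ → ℚ} (hs : CRat fun x : α × ℕ × Q3 => s x.1 x.2.1 (P113.ratOf x.2.2)) :
    CRat fun a => (Nat.rec (g a) (fun n r => s a n r) (f a) : ℚ) := by
  obtain ⟨p, hp, hp'⟩ := hg
  obtain ⟨q, hq, hq'⟩ := hs
  refine ⟨fun a => Nat.rec (p a) (fun n r => q (a, n, r)) (f a), ?_, fun a => ?_⟩
  · exact Computable.nat_rec hf hp (h := fun a x => q (a, x.1, x.2)) hq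
  · beta_reduce
    induction f a with
    | zero => exact hp' a
    | succ n ih =>
      simp only at ih ⊢
      rw [hq']
      simp only
      rw [ih]

/-- Primitive recursion with values pairs of rationals. -/
lemma CRat.nat_rec_pair {f : α → ℕ} (hf : Computable f) {g₁ g₂ : α → ℚ} (hg₁ : CRat g₁)
    (hg₂ : CRat g₂) {s₁ s₂ : α → ℕ → ℚ → ℚ → ℚ}
    (hs₁ : CRat fun x : α × ℕ × Q3 × Q3 =>
      s₁ x.1 x.2.1 (P113.ratOf x.2.2.1) (P113.ratOf x.2.2.2))
    (hs₂ : CRat fun x : α × ℕ × Q3 × Q3 =>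
      s₂ x.1 x.2.1 (P113.ratOf x.2.2.1) (P113.ratOf x.2.2.2)) :
    CRat (fun a => (Nat.rec (g₁ a, g₂ a)
      (fun n r => (s₁ a n r.1 r.2, s₂ a n r.1 r.2)) (f a) : ℚ × ℚ).1) ∧
    CRat (fun a => (Nat.rec (g₁ a, g₂ a)
      (fun n r => (s₁ a n r.1 r.2, s₂ a n r.1 r.2)) (f a) : ℚ × ℚ).2) := by
  obtain ⟨p₁, hp₁, hp₁'⟩ := hg₁
  obtain ⟨p₂, hp₂, hp₂'⟩ := hg₂
  obtain ⟨q₁, hq₁, hq₁'⟩ := hs₁
  obtain ⟨q₂, hq₂, hq₂'⟩ := hs₂
  have hc : Computable (fun a => (Nat.rec (p₁ a, p₂ a)
      (fun n r => (q₁ (a, n, r), q₂ (a, n, r))) (f a) : Q3 × Q3)) :=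
    Computable.nat_rec hf (hp₁.pair hp₂) (h := fun a x => (q₁ (a, x.1, x.2), q₂ (a, x.1, x.2)))
      (hq₁.pair hq₂)
  have key : ∀ (a : α) (n : ℕ),
      P113.ratOf (Nat.rec (p₁ a, p₂ a)
        (fun n r => (q₁ (a, n, r), q₂ (a, n, r))) n : Q3 × Q3).1 =
      (Nat.rec (g₁ a, g₂ a)
        (fun n r => (s₁ a n r.1 r.2, s₂ a n r.1 r.2)) n : ℚ × ℚ).1 ∧
      P113.ratOf (Nat.rec (p₁ a, p₂ a)
        (fun n r => (q₁ (a, n, r), q₂ (a, n, r))) n : Q3 × Q3).2 =
      (Nat.rec (g₁ a, g₂ a)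
        (fun n r => (s₁ a n r.1 r.2, s₂ a n r.1 r.2)) n : ℚ × ℚ).2 := by
    intro a n
    induction n with
    | zero => exact ⟨hp₁' a, hp₂' a⟩
    | succ n ih =>
      simp only at ih ⊢
      rw [hq₁', hq₂']
      simp only
      rw [ih.1, ih.2]
      exact ⟨rfl, rfl⟩
  exact ⟨⟨_, Computable.fst.comp hc, fun a => (key a (f a)).1⟩,
    ⟨_, Computable.snd.comp hc, fun a => (key a (f a)).2⟩⟩

lemma computable_nat_add {f g : α → ℕ} (hf : Computable f) (hg : Computable g) :
    Computable fun a => f a + g a := Primrec.nat_add.to_comp.comp hf hg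

lemma computable_nat_mul {f g : α → ℕ} (hf : Computable f) (hg : Computable g) :
    Computable fun a => f a * g a := Primrec.nat_mul.to_comp.comp hf hg

/-- Finite sums of rationals. -/
lemma CRat.sum {f : α → ℕ} (hf : Computable f) {h : α × ℕ → ℚ} (hh : CRat h) :
    CRat fun a => ∑ i ∈ Finset.range (f a), h (a, i) := by
  have h1 := CRat.nat_rec hf (CRat.const (0 : ℚ)) (s := fun a n r => r + h (a, n)) (by
    refine CRat.add ?_ ?_
    · exact CRat.ratOf (Computable.snd.comp Computable.snd)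
    · exact hh.comp (Computable.pair Computable.fst (Computable.fst.comp Computable.snd)))
  refine h1.congr fun a => ?_
  induction f a with
  | zero => simp
  | succ n ih =>
    rw [Finset.sum_range_succ, ← ih]

/-- Powers with variable exponent. -/
lemma CRat.pow {f : α → ℕ} (hf : Computable f) {g : α → ℚ} (hg : CRat g) :
    CRat fun a => g a ^ f a := by
  have h1 := CRat.nat_rec hf (CRat.const (1 : ℚ)) (s := fun a _ r => r * g a) (by
    refine CRat.mul ?_ ?_
    · exact CRat.ratOf (Computable.snd.comp Computable.snd)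
    · exact hg.comp Computable.fst)
  refine h1.congr fun a => ?_
  induction f a with
  | zero => simp
  | succ n ih =>
    rw [pow_succ, ← ih]

lemma CRat.factorial {f : α → ℕ} (hf : Computable f) :
    CRat fun a => ((f a).factorial : ℚ) := by
  have h1 := CRat.nat_rec hf (CRat.const (1 : ℚ)) (s := fun _ n r => ((n : ℚ) + 1) * r) (by
    refine CRat.mul ?_ ?_
    · exact (CRat.natCast (Computable.fst.comp Computable.snd)).add (CRat.const 1)
    · exact CRat.ratOf (Computable.snd.comp Computable.snd))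
  refine h1.congr fun a => ?_
  induction f a with
  | zero => simp
  | succ n ih =>
    rw [Nat.factorial_succ]
    push_cast
    rw [← ih]

/-- Comparison of computable rationals is decidable. -/
lemma CRat.exists_lt {g h : α → ℚ} (hg : CRat g) (hh : CRat h) :
    Computable fun a => decide (g a < h a) := by
  obtain ⟨p, hp, hp'⟩ := hg
  obtain ⟨q, hq, hq'⟩ := hh
  have e : (fun a => decide (g a < h a)) = fun a =>
      decide ((p a).1 * ((q a).2.2 + 1) + (q a).2.1 * ((p a).2.2 + 1) <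
        (q a).1 * ((p a).2.2 + 1) + (p a).2.1 * ((q a).2.2 + 1)) := by
    funext a
    rw [← hp' a, ← hq' a]
    unfold P113.ratOf
    rw [decide_eq_decide, div_lt_div_iff₀ (by positivity) (by positivity)]
    have : ((p a).1 * ((q a).2.2 + 1) + (q a).2.1 * ((p a).2.2 + 1) <
        (q a).1 * ((p a).2.2 + 1) + (p a).2.1 * ((q a).2.2 + 1)) ↔
        (((p a).1 : ℚ) * ((q a).2.2 + 1) + (q a).2.1 * ((p a).2.2 + 1) <
        (q a).1 * ((p a).2.2 + 1) + (p a).2.1 * ((q a).2.2 + 1)) := by exact_mod_cast Iff.rfl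
    rw [this]
    constructor <;> intro h <;> linarith
  rw [e]
  have p1 := Computable.fst.comp hp
  have p2 := Computable.fst.comp (Computable.snd.comp hp)
  have p3 := Computable.succ.comp (Computable.snd.comp (Computable.snd.comp hp))
  have q1 := Computable.fst.comp hq
  have q2 := Computable.fst.comp (Computable.snd.comp hq)
  have q3 := Computable.succ.comp (Computable.snd.comp (Computable.snd.comp hq))
  have hdec : Primrec₂ fun a b : ℕ => decide (a < b) := by
    have := Primrec.nat_lt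
    exact (PrimrecRel.decide this)
  exact hdec.to_comp.comp (computable_nat_add (computable_nat_mul p1 q3) (computable_nat_mul q2 p3))
    (computable_nat_add (computable_nat_mul q1 p3) (computable_nat_mul p2 q3))

end crat

end Vale.Agent.P113
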