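import Mathlib

/-!
# P113: the time profile `g t = expNegInvGlue (1 - t)` and its derivatives
-/

namespace Vale.Agent.P113

open Polynomial

/-- The polynomials with `d^k/dx^k expNegInvGlue x = (P k).eval x⁻¹ * expNegInvGlue x`. -/
noncomputable def profPoly : ℕ → ℝ[X]
  | 0 => 1
  | k + 1 => X ^ 2 * (profPoly k - derivative (profPoly k))

/-- The `k`-th derivative of the profile `t ↦ expNegInvGlue (1 - t)`. -/
noncomputable def prof (k : ℕ) (t : ℝ) : ℝ :=
  (-1) ^ k * ((profPoly k).eval (1 - t)⁻¹ * expNegInvGlue (1 - t))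

theorem prof_zero (t : ℝ) : prof 0 t = expNegInvGlue (1 - t) := by
  simp [prof, profPoly]

theorem hasDerivAt_prof (k : ℕ) (t : ℝ) : HasDerivAt (prof k) (prof (k + 1) t) t := by
  have h1 := expNegInvGlue.hasDerivAt_polynomial_eval_inv_mul (profPoly k) (1 - t)
  have h2 : HasDerivAt (fun t : ℝ => 1 - t) (-1) t := by
    simpa using (hasDerivAt_id t).const_sub 1
  have h3 := (h1.comp t h2).const_mul ((-1 : ℝ) ^ k)
  have e : prof (k + 1) t = (-1 : ℝ) ^ k *
      ((X ^ 2 * (profPoly k - derivative (R := ℝ) (profPoly k))).eval (1 - t)⁻¹ *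
        expNegInvGlue (1 - t) * (-1)) := by
    simp only [prof, profPoly, pow_succ]
    ring
  rw [e]
  exact h3

theorem iteratedDeriv_prof (k : ℕ) : iteratedDeriv k (prof 0) = prof k := by
  induction k with
  | zero => simp
  | succ k ih =>
    rw [iteratedDeriv_succ, ih]
    funext t
    exact (hasDerivAt_prof k t).deriv

theorem prof_of_one_le (k : ℕ) {t : ℝ} (ht : 1 ≤ t) : prof k t = 0 := by
  have : expNegInvGlue (1 - t) = 0 := expNegInvGlue.zero_of_nonpos (by linarith)
  simp [prof, this]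

theorem prof_of_lt_one (k : ℕ) {t : ℝ} (ht : t < 1) :
    prof k t = (-1) ^ k * ((profPoly k).eval (1 - t)⁻¹ * Real.exp (-(1 - t)⁻¹)) := by
  have : ¬ (1 - t ≤ 0) := by linarith
  simp [prof, expNegInvGlue, this]

theorem contDiff_prof (k : ℕ) {n : ℕ∞} : ContDiff ℝ n (prof k) := by
  unfold prof
  exact contDiff_const.mul
    ((expNegInvGlue.contDiff_polynomial_eval_inv_mul (profPoly k)).comp
      (contDiff_const.sub contDiff_id))

/-- The exponential error bound: for `0 ≤ s ≤ m`, `|exp(-s) - (1 - s/m)^m| ≤ s^2/m`. -/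
theorem exp_neg_approx {s : ℝ} (hs : 0 ≤ s) (m : ℕ) (hm : 0 < m) (hsm : s ≤ m) :
    |Real.exp (-s) - (1 - s / m) ^ m| ≤ s ^ 2 / m := by
  have hm' : (0 : ℝ) < m := by exact_mod_cast hm
  set y : ℝ := s / m with hy
  have hy0 : 0 ≤ y := div_nonneg hs hm'.le
  have hy1 : y ≤ 1 := by rw [hy, div_le_one hm']; exact hsm
  have hsy : s = m * y := by rw [hy]; field_simp
  -- upper bound
  have hup : (1 - y) ^ m ≤ Real.exp (-s) := by
    have h1 : 1 - y ≤ Real.exp (-y) := by
      have := Real.add_one_le_exp (-y)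
      linarith
    calc (1 - y) ^ m ≤ (Real.exp (-y)) ^ m := pow_le_pow_left₀ (by linarith) h1 m
      _ = Real.exp (-s) := by rw [← Real.exp_nat_mul, hsy]; ring_nf
  -- lower bound
  have hlow : Real.exp (-s) * (1 - m * y ^ 2) ≤ (1 - y) ^ m := by
    have h1 : 1 - y ^ 2 ≤ (1 - y) * Real.exp y := by
      have h2 := Real.add_one_le_exp y
      nlinarith [mul_le_mul_of_nonneg_left h2 (by linarith : (0:ℝ) ≤ 1 - y)]
    have h3 : 1 - m * y ^ 2 ≤ (1 - y ^ 2) ^ m := by
      have := one_add_mul_le_pow (a := -(y ^ 2)) (by nlinarith) m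
      simpa [sub_eq_add_neg] using this
    have h4 : (1 - y ^ 2) ^ m ≤ ((1 - y) * Real.exp y) ^ m :=
      pow_le_pow_left₀ (by nlinarith) h1 m
    have h5 : Real.exp (-s) * Real.exp y ^ m = 1 := by
      rw [← Real.exp_nat_mul, ← Real.exp_add, hsy]; simp
    calc Real.exp (-s) * (1 - m * y ^ 2) ≤ Real.exp (-s) * ((1 - y) * Real.exp y) ^ m :=
          mul_le_mul_of_nonneg_left (h3.trans h4) (Real.exp_pos _).le
      _ = (1 - y) ^ m * (Real.exp (-s) * Real.exp y ^ m) := by rw [mul_pow]; ring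
      _ = (1 - y) ^ m := by rw [h5, mul_one]
  have he1 : Real.exp (-s) ≤ 1 := by
    rw [Real.exp_le_one_iff]; linarith
  have hkey : s ^ 2 / m = m * y ^ 2 := by rw [hsy]; field_simp
  rw [abs_of_nonneg (by linarith), hkey]
  have : 0 ≤ m * y ^ 2 := by positivity
  nlinarith [Real.exp_pos (-s)]

end Vale.Agent.P113
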