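import Mathlib
import Vale.Agent.P113.Profile

/-!
# P113: primitive recursive arithmetic on rationals coded by triples of naturals
-/

namespace Vale.Agent.P113

/-- A triple `(a, b, d)` stands for the rational number `(a - b) / (d + 1)`. -/
abbrev Q3 : Type := ℕ × ℕ × ℕ

namespace Q3

/-- The real value of a coded rational. -/
noncomputable def val (q : Q3) : ℝ := ((q.1 : ℝ) - (q.2.1 : ℝ)) / ((q.2.2 : ℝ) + 1)

def add (x y : Q3) : Q3 :=
  (x.1 * (y.2.2 + 1) + y.1 * (x.2.2 + 1), x.2.1 * (y.2.2 + 1) + y.2.1 * (x.2.2 + 1),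
    x.2.2 * y.2.2 + x.2.2 + y.2.2)

def mul (x y : Q3) : Q3 :=
  (x.1 * y.1 + x.2.1 * y.2.1, x.1 * y.2.1 + x.2.1 * y.1, x.2.2 * y.2.2 + x.2.2 + y.2.2)

def neg (x : Q3) : Q3 := (x.2.1, x.1, x.2.2)

def ofNat (n : ℕ) : Q3 := (n, 0, 0)

theorem val_add (x y : Q3) : val (add x y) = val x + val y := by
  obtain ⟨a, b, d⟩ := x
  obtain ⟨a', b', d'⟩ := y
  simp only [val, add]
  have h1 : ((d : ℝ) + 1) ≠ 0 := by positivity
  have h2 : ((d' : ℝ) + 1) ≠ 0 := by positivity
  have h3 : ((d : ℝ) * d' + d + d' + 1) ≠ 0 := by positivity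
  push_cast
  rw [div_add_div _ _ h1 h2, div_eq_div_iff h3 (mul_ne_zero h1 h2)]
  ring

theorem val_mul (x y : Q3) : val (mul x y) = val x * val y := by
  obtain ⟨a, b, d⟩ := x
  obtain ⟨a', b', d'⟩ := y
  simp only [val, mul]
  have h1 : ((d : ℝ) + 1) ≠ 0 := by positivity
  have h2 : ((d' : ℝ) + 1) ≠ 0 := by positivity
  have h3 : ((d : ℝ) * d' + d + d' + 1) ≠ 0 := by positivity
  push_cast
  rw [div_mul_div_comm, div_eq_div_iff h3 (mul_ne_zero h1 h2)]
  ring

theorem val_neg (x : Q3) : val (neg x) = - val x := by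
  obtain ⟨a, b, d⟩ := x
  simp only [val, neg]
  ring

theorem val_ofNat (n : ℕ) : val (ofNat n) = n := by
  simp [val, ofNat]

theorem abs_val_le (x : Q3) : |val x| ≤ ((x.1 + x.2.1 : ℕ) : ℝ) := by
  obtain ⟨a, b, d⟩ := x
  simp only [val]
  have h1 : (1 : ℝ) ≤ (d : ℝ) + 1 := by
    have : (0 : ℝ) ≤ d := by positivity
    linarith
  rw [abs_div, abs_of_pos (by linarith : (0 : ℝ) < (d : ℝ) + 1)]
  have h2 : |(a : ℝ) - b| ≤ a + b := by
    rw [abs_le]
    constructor <;> [skip; skip] <;>
    · have : (0 : ℝ) ≤ a := by positivity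
      have : (0 : ℝ) ≤ b := by positivity
      linarith
  push_cast
  calc |(a : ℝ) - b| / ((d : ℝ) + 1) ≤ |(a : ℝ) - b| / 1 := by
        apply div_le_div_of_nonneg_left (abs_nonneg _) one_pos h1
    _ ≤ a + b := by simpa using h2

def pow (x : Q3) : ℕ → Q3
  | 0 => ofNat 1
  | n + 1 => mul x (pow x n)

theorem val_pow (x : Q3) (n : ℕ) : val (pow x n) = val x ^ n := by
  induction n with
  | zero => simp [pow, val_ofNat]
  | succ n ih => rw [pow, val_mul, ih, pow_succ]; ring

section Prim

variable {α : Type*} [Primcodable α]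

theorem prim_mk {f g h : α → ℕ} (hf : Primrec f) (hg : Primrec g) (hh : Primrec h) :
    Primrec fun a => ((f a, g a, h a) : Q3) := hf.pair (hg.pair hh)

theorem prim_add {f g : α → Q3} (hf : Primrec f) (hg : Primrec g) :
    Primrec fun a => add (f a) (g a) := by
  have f1 := Primrec.fst.comp hf
  have f2 := Primrec.fst.comp (Primrec.snd.comp hf)
  have f3 := Primrec.snd.comp (Primrec.snd.comp hf)
  have g1 := Primrec.fst.comp hg
  have g2 := Primrec.fst.comp (Primrec.snd.comp hg)
  have g3 := Primrec.snd.comp (Primrec.snd.comp hg)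
  exact prim_mk
    (Primrec.nat_add.comp (Primrec.nat_mul.comp f1 (Primrec.succ.comp g3))
      (Primrec.nat_mul.comp g1 (Primrec.succ.comp f3)))
    (Primrec.nat_add.comp (Primrec.nat_mul.comp f2 (Primrec.succ.comp g3))
      (Primrec.nat_mul.comp g2 (Primrec.succ.comp f3)))
    (Primrec.nat_add.comp (Primrec.nat_add.comp (Primrec.nat_mul.comp f3 g3) f3) g3)

theorem prim_mul {f g : α → Q3} (hf : Primrec f) (hg : Primrec g) :
    Primrec fun a => mul (f a) (g a) := by
  have f1 := Primrec.fst.comp hf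
  have f2 := Primrec.fst.comp (Primrec.snd.comp hf)
  have f3 := Primrec.snd.comp (Primrec.snd.comp hf)
  have g1 := Primrec.fst.comp hg
  have g2 := Primrec.fst.comp (Primrec.snd.comp hg)
  have g3 := Primrec.snd.comp (Primrec.snd.comp hg)
  exact prim_mk
    (Primrec.nat_add.comp (Primrec.nat_mul.comp f1 g1) (Primrec.nat_mul.comp f2 g2))
    (Primrec.nat_add.comp (Primrec.nat_mul.comp f1 g2) (Primrec.nat_mul.comp f2 g1))
    (Primrec.nat_add.comp (Primrec.nat_add.comp (Primrec.nat_mul.comp f3 g3) f3) g3)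

theorem prim_neg {f : α → Q3} (hf : Primrec f) : Primrec fun a => neg (f a) := by
  have f1 := Primrec.fst.comp hf
  have f2 := Primrec.fst.comp (Primrec.snd.comp hf)
  have f3 := Primrec.snd.comp (Primrec.snd.comp hf)
  exact prim_mk f2 f1 f3

theorem prim_ofNat {f : α → ℕ} (hf : Primrec f) : Primrec fun a => ofNat (f a) :=
  prim_mk hf (Primrec.const 0) (Primrec.const 0)

theorem pow_eq_rec (x : Q3) (n : ℕ) :
    pow x n = Nat.rec (ofNat 1) (fun _ y => mul x y) n := by
  induction n with
  | zero => rfl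
  | succ n ih => rw [pow, ih]

theorem prim_pow {f : α → Q3} {g : α → ℕ} (hf : Primrec f) (hg : Primrec g) :
    Primrec fun a => pow (f a) (g a) := by
  have h : Primrec₂ fun (a : α) (p : ℕ × Q3) => mul (f a) p.2 :=
    prim_mul (hf.comp Primrec.fst) (Primrec.snd.comp Primrec.snd)
  refine (Primrec.nat_rec' hg (Primrec.const (ofNat 1)) h).of_eq fun a => ?_
  rw [pow_eq_rec]

end Prim

end Q3

open Polynomial

/-- Horner evaluation of a list of coefficients. -/
def horner (l : List Q3) (s : Q3) : Q3 :=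
  l.foldr (fun c acc => Q3.add c (Q3.mul s acc)) (0, 0, 0)

/-- The real polynomial with the given coded coefficients. -/
noncomputable def toPoly (l : List Q3) : ℝ[X] :=
  l.foldr (fun c p => C (Q3.val c) + X * p) 0

theorem toPoly_cons (c : Q3) (l : List Q3) : toPoly (c :: l) = C (Q3.val c) + X * toPoly l := rfl

theorem val_zero : Q3.val (0, 0, 0) = 0 := by simp [Q3.val]

theorem val_horner (l : List Q3) (s : Q3) :
    Q3.val (horner l s) = (toPoly l).eval (Q3.val s) := by
  induction l with
  | nil => simp [horner, toPoly, val_zero]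
  | cons c l ih =>
    rw [toPoly_cons]
    simp only [horner, List.foldr_cons] at *
    rw [Q3.val_add, Q3.val_mul, ih]
    simp

theorem coeff_toPoly (l : List Q3) (j : ℕ) :
    (toPoly l).coeff j = Q3.val (l.getD j (0, 0, 0)) := by
  induction l generalizing j with
  | nil => simp [toPoly, val_zero]
  | cons c l ih =>
    rw [toPoly_cons]
    cases j with
    | zero => simp
    | succ j => simp [ih, coeff_C]

/-- Coefficient lists of the polynomials `profPoly k`. -/
def row : ℕ → List Q3
  | 0 => [Q3.ofNat 1]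
  | k + 1 => (List.range (2 * k + 3)).map fun j =>
      if j < 2 then (0, 0, 0)
      else Q3.add ((row k).getD (j - 2) (0, 0, 0))
        (Q3.neg (Q3.mul (Q3.ofNat (j - 1)) ((row k).getD (j - 1) (0, 0, 0))))

theorem row_length (k : ℕ) : (row k).length = 2 * k + 1 := by
  cases k with
  | zero => simp [row]
  | succ k => simp [row]; ring

theorem row_getD_of_le (k j : ℕ) (h : 2 * k + 1 ≤ j) : (row k).getD j (0, 0, 0) = (0, 0, 0) := by
  rw [List.getD_eq_default]
  rw [row_length]; exact h

theorem toPoly_row (k : ℕ) : toPoly (row k) = profPoly k := by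
  induction k with
  | zero =>
    simp [row, toPoly, profPoly, Q3.val_ofNat]
  | succ k ih =>
    rw [profPoly, ← ih]
    ext j
    rw [coeff_toPoly, coeff_X_pow_mul']
    by_cases hj : j < 2 * k + 3
    · have h1 : (row (k + 1)).getD j (0, 0, 0) =
        (if j < 2 then (0, 0, 0)
          else Q3.add ((row k).getD (j - 2) (0, 0, 0))
            (Q3.neg (Q3.mul (Q3.ofNat (j - 1)) ((row k).getD (j - 1) (0, 0, 0))))) := by
        simp only [row]
        rw [List.getD_eq_getElem _ _ (by simpa using hj)]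
        simp
      rw [h1]
      by_cases h2 : j < 2
      · simp [h2, val_zero]
      · have h3 : 2 ≤ j := by omega
        simp only [h2, if_false, h3, if_true]
        obtain ⟨i, rfl⟩ : ∃ i, j = i + 2 := ⟨j - 2, by omega⟩
        simp only [Nat.add_sub_cancel, show i + 2 - 1 = i + 1 from rfl]
        rw [Q3.val_add, Q3.val_neg, Q3.val_mul, Q3.val_ofNat, coeff_sub, coeff_derivative,
          coeff_toPoly, coeff_toPoly]
        push_cast
        ring
    · have h1 : (row (k + 1)).getD j (0, 0, 0) = (0, 0, 0) := row_getD_of_le _ _ (by omega)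
      rw [h1, val_zero]
      have h3 : 2 ≤ j := by omega
      simp only [h3, if_true]
      obtain ⟨i, rfl⟩ : ∃ i, j = i + 2 := ⟨j - 2, by omega⟩
      simp only [Nat.add_sub_cancel]
      rw [coeff_sub, coeff_derivative, coeff_toPoly, coeff_toPoly,
        row_getD_of_le _ _ (by omega), row_getD_of_le _ _ (by omega), val_zero]
      simp

theorem prim_row : Primrec row := by
  have hstep : Primrec₂ fun (k : ℕ) (l : List Q3) =>
      (List.range (2 * k + 3)).map fun j =>
      if j < 2 then ((0, 0, 0) : Q3)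
      else Q3.add (l.getD (j - 2) (0, 0, 0))
        (Q3.neg (Q3.mul (Q3.ofNat (j - 1)) (l.getD (j - 1) (0, 0, 0)))) := by
    have hr : Primrec fun p : ℕ × List Q3 => List.range (2 * p.1 + 3) :=
      Primrec.list_range.comp
        (Primrec.nat_add.comp (Primrec.nat_mul.comp (Primrec.const 2) Primrec.fst)
          (Primrec.const 3))
    refine Primrec.list_map hr ?_
    have hj : Primrec fun q : (ℕ × List Q3) × ℕ => q.2 := Primrec.snd
    have hl : Primrec fun q : (ℕ × List Q3) × ℕ => q.1.2 := Primrec.snd.comp Primrec.fst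
    have hj1 : Primrec fun q : (ℕ × List Q3) × ℕ => q.2 - 1 :=
      Primrec.nat_sub.comp hj (Primrec.const 1)
    have hj2 : Primrec fun q : (ℕ × List Q3) × ℕ => q.2 - 2 :=
      Primrec.nat_sub.comp hj (Primrec.const 2)
    refine Primrec.ite (Primrec.nat_lt.comp hj (Primrec.const 2)) (Primrec.const _) ?_
    exact Q3.prim_add ((Primrec.list_getD _).comp hl hj2)
      (Q3.prim_neg (Q3.prim_mul (Q3.prim_ofNat hj1) ((Primrec.list_getD _).comp hl hj1)))
  refine (Primrec.nat_rec₁ ([Q3.ofNat 1] : List Q3) hstep).of_eq fun k => ?_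
  induction k with
  | zero => rfl
  | succ k ih => rw [row]; simp only [ih]

theorem prim_horner {α : Type*} [Primcodable α] {l : α → List Q3} {s : α → Q3}
    (hl : Primrec l) (hs : Primrec s) : Primrec fun a => horner (l a) (s a) := by
  have h : Primrec₂ fun (a : α) (p : Q3 × Q3) => Q3.add p.1 (Q3.mul (s a) p.2) :=
    Q3.prim_add (Primrec.fst.comp Primrec.snd)
      (Q3.prim_mul (hs.comp Primrec.fst) (Primrec.snd.comp Primrec.snd))
  exact Primrec.list_foldr hl (Primrec.const ((0, 0, 0) : Q3)) h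

end Vale.Agent.P113
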