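import Mathlib
import Vale.Agent.P113.CompArith

/-!
# P113: primitive recursive approximation of `c * prof k t`
-/

namespace Vale.Agent.P113

open Polynomial

/-- `s = 1/(1-t)` for `t = (a-b)/(d+1) < 1`. -/
def invOneSub (q : Q3) : Q3 := (q.2.2 + 1, 0, q.2.1 + q.2.2 + 1 - q.1 - 1)

/-- `P_k(s)` as a coded rational. -/
def polyVal (k : ℕ) (q : Q3) : Q3 := horner (row k) (invOneSub q)

/-- a natural bound of `|prof k t|` (for `t < 1`). -/
def profBound (k : ℕ) (q : Q3) : ℕ := (polyVal k q).1 + (polyVal k q).2.1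

/-- number of factors used in the approximation of the exponential. -/
def profM (k : ℕ) (q : Q3) (n : ℕ) : ℕ :=
  ((q.2.2 + 1) * (q.2.2 + 1) * profBound k q + 1) * (n + 1) + (q.2.2 + 1)

/-- coded rational approximating `prof k (val q)` up to `1/(n+1)`. -/
def profApprox (k : ℕ) (q : Q3) (n : ℕ) : Q3 :=
  if q.2.1 + q.2.2 + 1 ≤ q.1 then (0, 0, 0)
  else Q3.mul (Q3.pow (0, 1, 0) k) (Q3.mul (polyVal k q)
    (Q3.pow ((q.2.1 + q.2.2 + 1 - q.1) * profM k q n, q.2.2 + 1,
      (q.2.1 + q.2.2 + 1 - q.1) * profM k q n - 1) (profM k q n)))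

theorem one_le_val_iff (q : Q3) : q.2.1 + q.2.2 + 1 ≤ q.1 ↔ 1 ≤ Q3.val q := by
  obtain ⟨a, b, d⟩ := q
  simp only [Q3.val]
  rw [le_div_iff₀ (by positivity)]
  constructor
  · intro h
    have : ((b + d + 1 : ℕ) : ℝ) ≤ a := by exact_mod_cast h
    push_cast at this
    linarith
  · intro h
    have : ((b + d + 1 : ℕ) : ℝ) ≤ a := by push_cast; linarith
    exact_mod_cast this

theorem val_invOneSub (q : Q3) (h : ¬ (q.2.1 + q.2.2 + 1 ≤ q.1)) :
    Q3.val (invOneSub q) = (1 - Q3.val q)⁻¹ := by
  obtain ⟨a, b, d⟩ := q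
  simp only [Q3.val, invOneSub] at *
  obtain ⟨e, he⟩ : ∃ e, b + d + 1 = a + e + 1 := ⟨b + d + 1 - a - 1, by omega⟩
  have h1 : b + d + 1 - a - 1 = e := by omega
  rw [h1]
  have h2 : (b : ℝ) + d + 1 = a + e + 1 := by exact_mod_cast he
  have hd : ((d : ℝ) + 1) ≠ 0 := by positivity
  have he' : ((e : ℝ) + 1) ≠ 0 := by positivity
  have h3 : 1 - ((a : ℝ) - b) / ((d : ℝ) + 1) = ((e : ℝ) + 1) / ((d : ℝ) + 1) := by
    field_simp
    linarith
  rw [h3, inv_div]
  push_cast
  ring

theorem abs_prof_le (k : ℕ) (q : Q3) (h : ¬ (q.2.1 + q.2.2 + 1 ≤ q.1)) :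
    |prof k (Q3.val q)| ≤ profBound k q := by
  have ht : Q3.val q < 1 := by
    rw [one_le_val_iff] at h; linarith
  rw [prof_of_lt_one k ht, ← val_invOneSub q h, ← toPoly_row, ← val_horner]
  rw [abs_mul, abs_mul, abs_pow, abs_neg, abs_one, one_pow, one_mul]
  have h1 : |Real.exp (-Q3.val (invOneSub q))| ≤ 1 := by
    rw [abs_of_pos (Real.exp_pos _), Real.exp_le_one_iff]
    rw [val_invOneSub q h]
    have : 0 ≤ (1 - Q3.val q)⁻¹ := inv_nonneg.2 (by linarith)
    linarith
  have h2 := Q3.abs_val_le (horner (row k) (invOneSub q))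
  calc _ ≤ |Q3.val (horner (row k) (invOneSub q))| * 1 :=
        mul_le_mul_of_nonneg_left h1 (abs_nonneg _)
    _ ≤ _ := by rw [mul_one]; exact h2

theorem profApprox_spec (k : ℕ) (q : Q3) (n : ℕ) :
    |Q3.val (profApprox k q n) - prof k (Q3.val q)| ≤ 1 / ((n : ℝ) + 1) := by
  unfold profApprox
  split_ifs with h
  · rw [val_zero, prof_of_one_le k ((one_le_val_iff q).1 h)]
    simp
    positivity
  · have ht : Q3.val q < 1 := by
      rw [one_le_val_iff] at h; linarith
    have hs := val_invOneSub q h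
    set s : ℝ := (1 - Q3.val q)⁻¹ with hsdef
    have hs0 : 0 ≤ s := inv_nonneg.2 (by linarith)
    have hP : Q3.val (polyVal k q) = (profPoly k).eval s := by
      rw [polyVal, val_horner, toPoly_row, hs]
    set m := profM k q n with hm
    have hmpos : 0 < m := by rw [hm, profM]; positivity
    have hm' : (0 : ℝ) < m := by exact_mod_cast hmpos
    obtain ⟨e, he⟩ : ∃ e, q.2.1 + q.2.2 + 1 - q.1 = e + 1 :=
      ⟨q.2.1 + q.2.2 + 1 - q.1 - 1, by omega⟩
    have hse : s = ((q.2.2 : ℝ) + 1) / ((e : ℝ) + 1) := by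
      rw [← hs]
      simp only [invOneSub, Q3.val, he]
      push_cast
      simp
    have hsle : s ≤ (q.2.2 : ℝ) + 1 := by
      rw [hse]
      apply div_le_self (by positivity)
      have : (0 : ℝ) ≤ e := by positivity
      linarith
    have hsm : s ≤ m := by
      refine hsle.trans ?_
      rw [hm, profM]
      push_cast
      have : (0 : ℝ) ≤ (((q.2.2 : ℝ) + 1) * ((q.2.2 : ℝ) + 1) * (profBound k q : ℝ) + 1) *
        ((n : ℝ) + 1) := by positivity
      linarith
    -- the base of the power
    have hbase : Q3.val ((q.2.1 + q.2.2 + 1 - q.1) * m, q.2.2 + 1,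
        (q.2.1 + q.2.2 + 1 - q.1) * m - 1) = 1 - s / m := by
      rw [he]
      simp only [Q3.val]
      have h1 : 1 ≤ (e + 1) * m := Nat.one_le_iff_ne_zero.2 (by positivity)
      have h2 : (((e + 1) * m - 1 : ℕ) : ℝ) + 1 = ((e : ℝ) + 1) * m := by
        have : ((e + 1) * m - 1 + 1 : ℕ) = (e + 1) * m := by omega
        have := congrArg (fun z : ℕ => (z : ℝ)) this
        push_cast at this
        exact this
      rw [h2, hse]
      have he' : ((e : ℝ) + 1) ≠ 0 := by positivity
      push_cast
      field_simp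
    rw [Q3.val_mul, Q3.val_mul, Q3.val_pow, Q3.val_pow, hbase, hP, prof_of_lt_one k ht]
    have hm1 : Q3.val (0, 1, 0) = -1 := by simp [Q3.val]
    rw [hm1]
    have hfac : (-1 : ℝ) ^ k * (eval s (profPoly k) * (1 - s / ↑m) ^ m) -
        (-1) ^ k * (eval s (profPoly k) * Real.exp (-s)) =
        (-1) ^ k * (eval s (profPoly k) * -(Real.exp (-s) - (1 - s / m) ^ m)) := by ring
    rw [hfac, abs_mul, abs_mul, abs_pow, abs_neg, abs_one, one_pow, one_mul, abs_neg]
    have hexp := exp_neg_approx hs0 m hmpos hsm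
    have hK : |eval s (profPoly k)| ≤ profBound k q := by
      rw [← hP]; exact Q3.abs_val_le _
    calc |eval s (profPoly k)| * |Real.exp (-s) - (1 - s / m) ^ m|
        ≤ profBound k q * (s ^ 2 / m) :=
          mul_le_mul hK hexp (abs_nonneg _) (by positivity)
      _ ≤ profBound k q * (((q.2.2 : ℝ) + 1) ^ 2 / m) := by
          apply mul_le_mul_of_nonneg_left _ (by positivity)
          apply div_le_div_of_nonneg_right _ hm'.le
          exact pow_le_pow_left₀ hs0 hsle 2
      _ ≤ 1 / ((n : ℝ) + 1) := by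
          rw [← mul_div_assoc, div_le_div_iff₀ hm' (by positivity), one_mul, hm, profM]
          push_cast
          have h1 : (0 : ℝ) ≤ (n : ℝ) := by positivity
          have h2 : (0 : ℝ) ≤ (q.2.2 : ℝ) := by positivity
          nlinarith

section HaltReal

open Classical in
/-- `2^{-H}` if `H` is the least `n` with `p n`, and `0` if there is none. -/
noncomputable def haltReal (p : ℕ → Prop) : ℝ :=
  if h : ∃ n, p n then (1 / 2 : ℝ) ^ (Nat.find h) else 0

open Classical in
theorem haltReal_eq {p : ℕ → Prop} {H : ℕ} (h1 : p H) (h2 : ∀ j < H, ¬ p j) :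
    haltReal p = (1 / 2 : ℝ) ^ H := by
  have hex : ∃ n, p n := ⟨_, h1⟩
  unfold haltReal
  rw [dif_pos hex]
  congr 1
  rw [Nat.find_eq_iff]
  exact ⟨h1, h2⟩

open Classical in
theorem haltReal_le_of {p : ℕ → Prop} {N : ℕ} (h : ∀ j < N, ¬ p j) :
    haltReal p ≤ (1 / 2 : ℝ) ^ N := by
  unfold haltReal
  split_ifs with hex
  · apply pow_le_pow_of_le_one (by norm_num) (by norm_num)
    rw [Nat.le_find_iff]
    exact h
  · positivity

theorem haltReal_pos_iff (p : ℕ → Prop) : 0 < haltReal p ↔ ∃ n, p n := by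
  unfold haltReal
  split_ifs with h
  · simp [h]
  · simp [h]

theorem haltReal_nonneg (p : ℕ → Prop) : 0 ≤ haltReal p := by
  unfold haltReal
  split_ifs with h
  · positivity
  · exact le_rfl

theorem haltReal_le_one (p : ℕ → Prop) : haltReal p ≤ 1 := by
  unfold haltReal
  split_ifs with h
  · exact pow_le_one₀ (by norm_num) (by norm_num)
  · norm_num

/-- approximation of `haltReal` by looking at the first `N` times only. -/
def haltApprox (p : ℕ → Bool) (N : ℕ) : Q3 :=
  if (List.range N).findIdx p < N then Q3.pow (1, 0, 1) ((List.range N).findIdx p)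
  else (0, 0, 0)

theorem haltApprox_spec (p : ℕ → Bool) (N : ℕ) :
    |Q3.val (haltApprox p N) - haltReal (fun n => p n = true)| ≤ (1 / 2 : ℝ) ^ N ∧
    |Q3.val (haltApprox p N)| ≤ 1 := by
  have hhalf : Q3.val (1, 0, 1) = 1 / 2 := by simp [Q3.val]; norm_num
  unfold haltApprox
  split_ifs with h
  · have hlen : (List.range N).findIdx p < (List.range N).length := by simpa using h
    have h1 : p ((List.range N).findIdx p) = true := by
      have := List.findIdx_getElem (w := hlen)
      simpa using this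
    have h2 : ∀ j < (List.range N).findIdx p, p j = false := by
      intro j hj
      have := List.not_of_lt_findIdx hj
      simpa using this
    have hfind : haltReal (fun n => p n = true) =
        (1 / 2 : ℝ) ^ ((List.range N).findIdx p) :=
      haltReal_eq h1 (fun j hj => by simp [h2 j hj])
    rw [Q3.val_pow, hhalf, hfind, sub_self, abs_zero]
    refine ⟨by positivity, ?_⟩
    rw [abs_of_nonneg (by positivity)]
    exact pow_le_one₀ (by norm_num) (by norm_num)
  · have hnone : ∀ j < N, p j = false := by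
      intro j hj
      have h3 : (List.range N).findIdx p = (List.range N).length := by
        have := List.findIdx_le_length (xs := List.range N) (p := p)
        simp at this ⊢
        omega
      have := List.findIdx_eq_length.1 h3 j (by simpa using hj)
      simpa using this
    rw [val_zero]
    refine ⟨?_, by simp⟩
    rw [zero_sub, abs_neg, abs_of_nonneg (haltReal_nonneg _)]
    exact haltReal_le_of (fun j hj => by simp [hnone j hj])

end HaltReal

/-- the coded approximation of `haltReal p * prof k (val q)` up to `1/(n+1)`. -/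
def forceApprox (p : ℕ → Bool) (k : ℕ) (q : Q3) (n : ℕ) : Q3 :=
  Q3.mul (haltApprox p (profBound k q * (2 * n + 2))) (profApprox k q (2 * n + 1))

theorem half_pow_le (N : ℕ) : (1 / 2 : ℝ) ^ N ≤ 1 / ((N : ℝ) + 1) := by
  have h : ((N : ℝ) + 1) ≤ 2 ^ N := by
    have : N + 1 ≤ 2 ^ N := Nat.lt_two_pow_self
    exact_mod_cast this
  rw [one_div_pow]
  exact one_div_le_one_div_of_le (by positivity) h

theorem forceApprox_spec (p : ℕ → Bool) (k : ℕ) (q : Q3) (n : ℕ) :
    |Q3.val (forceApprox p k q n) - haltReal (fun n => p n = true) * prof k (Q3.val q)|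
      ≤ 1 / ((n : ℝ) + 1) := by
  unfold forceApprox
  rw [Q3.val_mul]
  set N := profBound k q * (2 * n + 2) with hN
  obtain ⟨h1, h2⟩ := haltApprox_spec p N
  have h3 := profApprox_spec k q (2 * n + 1)
  set c := haltReal (fun n => p n = true)
  set c' := Q3.val (haltApprox p N)
  set g := prof k (Q3.val q) with hg
  set g' := Q3.val (profApprox k q (2 * n + 1))
  have e : c' * g' - c * g = c' * (g' - g) + (c' - c) * g := by ring
  have hn : (0 : ℝ) ≤ n := by positivity
  have hA : |c' * (g' - g)| ≤ 1 / (2 * (n : ℝ) + 2) := by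
    rw [abs_mul]
    calc |c'| * |g' - g| ≤ 1 * (1 / (((2 * n + 1 : ℕ) : ℝ) + 1)) :=
          mul_le_mul h2 h3 (abs_nonneg _) zero_le_one
      _ = 1 / (2 * (n : ℝ) + 2) := by push_cast; ring
  have hB : |(c' - c) * g| ≤ 1 / (2 * (n : ℝ) + 2) := by
    by_cases h : q.2.1 + q.2.2 + 1 ≤ q.1
    · have : g = 0 := by rw [hg]; exact prof_of_one_le k ((one_le_val_iff q).1 h)
      rw [this, mul_zero, abs_zero]
      positivity
    · have hb := abs_prof_le k q h
      rw [← hg] at hb
      rw [abs_mul]
      have h4 : |c' - c| ≤ 1 / ((N : ℝ) + 1) := h1.trans (half_pow_le N)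
      calc |c' - c| * |g| ≤ (1 / ((N : ℝ) + 1)) * profBound k q :=
            mul_le_mul h4 hb (abs_nonneg _) (by positivity)
        _ ≤ 1 / (2 * (n : ℝ) + 2) := by
            rw [one_div, inv_mul_eq_div, div_le_div_iff₀ (by positivity) (by positivity), one_mul,
              hN]
            push_cast
            have : (0 : ℝ) ≤ (profBound k q : ℝ) := by positivity
            nlinarith
  calc |c' * g' - c * g| ≤ |c' * (g' - g)| + |(c' - c) * g| := by rw [e]; exact abs_add_le _ _
    _ ≤ 1 / (2 * (n : ℝ) + 2) + 1 / (2 * (n : ℝ) + 2) := add_le_add hA hB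
    _ = 1 / ((n : ℝ) + 1) := by field_simp; ring

section Prim

variable {α : Type*} [Primcodable α]

theorem prim_invOneSub {q : α → Q3} (hq : Primrec q) : Primrec fun a => invOneSub (q a) := by
  have h1 := Primrec.fst.comp hq
  have h2 := Primrec.fst.comp (Primrec.snd.comp hq)
  have h3 := Primrec.snd.comp (Primrec.snd.comp hq)
  exact Q3.prim_mk (Primrec.succ.comp h3) (Primrec.const 0)
    (Primrec.nat_sub.comp (Primrec.nat_sub.comp
      (Primrec.succ.comp (Primrec.nat_add.comp h2 h3)) h1) (Primrec.const 1))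

theorem prim_polyVal {k : α → ℕ} {q : α → Q3} (hk : Primrec k) (hq : Primrec q) :
    Primrec fun a => polyVal (k a) (q a) :=
  prim_horner (prim_row.comp hk) (prim_invOneSub hq)

theorem prim_profBound {k : α → ℕ} {q : α → Q3} (hk : Primrec k) (hq : Primrec q) :
    Primrec fun a => profBound (k a) (q a) :=
  Primrec.nat_add.comp (Primrec.fst.comp (prim_polyVal hk hq))
    (Primrec.fst.comp (Primrec.snd.comp (prim_polyVal hk hq)))

theorem prim_profM {k n : α → ℕ} {q : α → Q3} (hk : Primrec k) (hq : Primrec q)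
    (hn : Primrec n) : Primrec fun a => profM (k a) (q a) (n a) := by
  have h3 : Primrec fun a => (q a).2.2 + 1 :=
    Primrec.succ.comp (Primrec.snd.comp (Primrec.snd.comp hq))
  exact Primrec.nat_add.comp (Primrec.nat_mul.comp (Primrec.succ.comp
    (Primrec.nat_mul.comp (Primrec.nat_mul.comp h3 h3) (prim_profBound hk hq)))
    (Primrec.succ.comp hn)) h3

theorem prim_profApprox {k n : α → ℕ} {q : α → Q3} (hk : Primrec k) (hq : Primrec q)
    (hn : Primrec n) : Primrec fun a => profApprox (k a) (q a) (n a) := by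
  have h1 := Primrec.fst.comp hq
  have h2 := Primrec.fst.comp (Primrec.snd.comp hq)
  have h3 : Primrec fun a => (q a).2.2 := Primrec.snd.comp (Primrec.snd.comp hq)
  have hs : Primrec fun a => (q a).2.1 + (q a).2.2 + 1 :=
    Primrec.succ.comp (Primrec.nat_add.comp h2 h3)
  have hM := prim_profM hk hq hn
  have hem : Primrec fun a => ((q a).2.1 + (q a).2.2 + 1 - (q a).1) * profM (k a) (q a) (n a) :=
    Primrec.nat_mul.comp (Primrec.nat_sub.comp hs h1) hM
  refine Primrec.ite (Primrec.nat_le.comp hs h1) (Primrec.const _) ?_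
  exact Q3.prim_mul (Q3.prim_pow (Primrec.const _) hk) (Q3.prim_mul (prim_polyVal hk hq)
    (Q3.prim_pow (Q3.prim_mk hem (Primrec.succ.comp h3)
      (Primrec.nat_sub.comp hem (Primrec.const 1))) hM))

theorem prim_haltApprox {p : α → ℕ → Bool} {N : α → ℕ} (hp : Primrec₂ p) (hN : Primrec N) :
    Primrec fun a => haltApprox (p a) (N a) := by
  have hf : Primrec fun a => (List.range (N a)).findIdx (p a) :=
    Primrec.list_findIdx (Primrec.list_range.comp hN) hp
  exact Primrec.ite (Primrec.nat_lt.comp hf hN) (Q3.prim_pow (Primrec.const _) hf)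
    (Primrec.const _)

theorem prim_forceApprox {p : α → ℕ → Bool} {k n : α → ℕ} {q : α → Q3} (hp : Primrec₂ p)
    (hk : Primrec k) (hq : Primrec q) (hn : Primrec n) :
    Primrec fun a => forceApprox (p a) (k a) (q a) (n a) := by
  have h2n : Primrec fun a => 2 * n a := Primrec.nat_mul.comp (Primrec.const 2) hn
  exact Q3.prim_mul
    (prim_haltApprox hp (Primrec.nat_mul.comp (prim_profBound hk hq)
      (Primrec.succ.comp (Primrec.succ.comp h2n))))
    (prim_profApprox hk hq (Primrec.succ.comp h2n))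

end Prim

end Vale.Agent.P113
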