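import Vale.Agent.P113.Defs

namespace Vale.Agent.P113

/-! ### Simulation of a machine from its finite description -/

abbrev Raw : Type := ℕ × List ℕ × List ℕ

/-- Is the state `q` halting, according to the description `D`? -/
def rawHalt (D : Descr) (q : ℕ) : Bool := decide (D.2.2.2.1.getD q 0 = 1)

/-- The entry of the transition table. -/
def rawNext (D : Descr) (q a : ℕ) : ℕ × ℕ × ℕ := (D.2.2.2.2.getD q []).getD a (0, 0, 0)

/-- One move of the simulation, given the table entry `r`. -/
def rawMove (r : ℕ × ℕ × ℕ) (c : Raw) : Raw :=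
  if r.2.2 = 0 then (r.1, c.2.1.tail, c.2.1.headI :: r.2.1 :: c.2.2.tail)
  else if r.2.2 = 1 then (r.1, c.2.1, r.2.1 :: c.2.2.tail)
  else (r.1, r.2.1 :: c.2.1, c.2.2.tail)

def rawStep (D : Descr) (c : Raw) : Raw :=
  if rawHalt D c.1 = true then c else rawMove (rawNext D c.1 c.2.2.headI) c

def rawInit (D : Descr) (w : List ℕ) : Raw := (D.2.2.1, [], w)

/-- Has the machine described by `D` halted on `w` after `n` steps? -/
def rawHalted (D : Descr) (w : List ℕ) (n : ℕ) : Bool :=
  rawHalt D ((rawStep D)^[n] (rawInit D w)).1

/-- The simulation relation. -/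
structure Sim (M : Machine) (c : Config M) (r : Raw) : Prop where
  state : r.1 = (c.state : ℕ)
  right : ∀ i : ℕ, r.2.2.getD i 0 = (c.tape (c.head + i) : ℕ)
  left : ∀ i : ℕ, r.2.1.getD i 0 = (c.tape (c.head - 1 - i) : ℕ)

lemma getD_headI (l : List ℕ) : l.headI = l.getD 0 0 := by
  cases l <;> rfl

lemma getD_tail (l : List ℕ) (i : ℕ) : l.tail.getD i 0 = l.getD (i + 1) 0 := by
  cases l with
  | nil => simp
  | cons a l => simp

lemma getD_map_finRange {β : Type*} (n : ℕ) (f : Fin n → β) (d : β) (q : Fin n) :
    ((List.finRange n).map f).getD (q : ℕ) d = f q := by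
  rw [List.getD_eq_getElem?_getD, List.getElem?_map, List.getElem?_eq_getElem (by simp)]
  simp

lemma rawHalt_descr (M : Machine) (q : Fin (M.states + 1)) :
    rawHalt M.descr q = M.halting q := by
  unfold rawHalt Machine.descr
  simp only
  rw [getD_map_finRange]
  cases M.halting q <;> simp

lemma rawNext_descr (M : Machine) (q : Fin (M.states + 1)) (a : Fin (M.symbols + 1)) :
    rawNext M.descr q a = (((M.next q a).1 : ℕ), ((M.next q a).2.1 : ℕ), ((M.next q a).2.2 : ℕ)) := by
  unfold rawNext Machine.descr
  simp only
  rw [getD_map_finRange, getD_map_finRange]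

lemma sim_init (M : Machine) (w : M.Word) : Sim M (M.init w) (rawInit M.descr (w.map Fin.val)) := by
  refine ⟨rfl, fun i => ?_, fun i => ?_⟩
  · simp only [rawInit, Machine.init]
    have h : (0 : ℤ) ≤ 0 + (i : ℤ) := by omega
    rw [if_pos h]
    have h2 : (0 + (i : ℤ)).toNat = i := by omega
    rw [h2, List.getD_eq_getElem?_getD, List.getD_eq_getElem?_getD, List.getElem?_map]
    cases w[i]? <;> simp
  · simp only [rawInit, Machine.init]
    have h : ¬ (0 : ℤ) ≤ 0 - 1 - (i : ℤ) := by omega
    rw [if_neg h]
    simp

lemma sim_step (M : Machine) (c : Config M) (r : Raw) (h : Sim M c r) :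
    Sim M (M.step c) (rawStep M.descr r) := by
  obtain ⟨q, L, R⟩ := r
  obtain ⟨hs, hr, hl⟩ := h
  simp only at hs hr hl
  unfold rawStep Machine.step
  simp only
  rw [hs, rawHalt_descr]
  split_ifs with hh
  · exact ⟨hs ▸ rfl, hr, hl⟩
  · have hhead : R.headI = (c.tape c.head : ℕ) := by
      rw [getD_headI, hr 0]
      simp
    rw [hhead, rawNext_descr]
    set nx := M.next c.state (c.tape c.head) with hnx
    unfold rawMove
    simp only
    have hm : (nx.2.2 : ℕ) = 0 ∨ (nx.2.2 : ℕ) = 1 ∨ (nx.2.2 : ℕ) = 2 := by
      have := nx.2.2.is_lt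
      omega
    rcases hm with hm | hm | hm
    · -- left
      rw [if_pos hm, hm]
      refine ⟨rfl, fun i => ?_, fun i => ?_⟩
      · simp only
        rcases i with _ | _ | i
        · simp only [List.getD_cons_zero]
          rw [getD_headI, hl 0, Function.update_of_ne (by push_cast; omega)]
          congr 2
          push_cast
          ring
        · simp only [zero_add, List.getD_cons_succ, List.getD_cons_zero]
          have e : c.head + ((0 : ℕ) : ℤ) - 1 + ((1 : ℕ) : ℤ) = c.head := by push_cast; ring
          rw [e, Function.update_self]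
        · simp only [List.getD_cons_succ]
          rw [getD_tail, hr, Function.update_of_ne (by push_cast; omega)]
          congr 2
          push_cast
          ring
      · simp only
        rw [getD_tail, hl, Function.update_of_ne (by push_cast; omega)]
        congr 2
        push_cast
        ring
    · -- stay
      rw [if_neg (by omega), if_pos hm, hm]
      refine ⟨rfl, fun i => ?_, fun i => ?_⟩
      · simp only
        rcases i with _ | i
        · simp only [List.getD_cons_zero]
          have e : c.head + ((1 : ℕ) : ℤ) - 1 + ((0 : ℕ) : ℤ) = c.head := by push_cast; ring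
          rw [e, Function.update_self]
        · simp only [List.getD_cons_succ]
          rw [getD_tail, hr, Function.update_of_ne (by push_cast; omega)]
          congr 2
          push_cast
          ring
      · simp only
        rw [hl, Function.update_of_ne (by push_cast; omega)]
        congr 2
        push_cast
        ring
    · -- right
      rw [if_neg (by omega), if_neg (by omega), hm]
      refine ⟨rfl, fun i => ?_, fun i => ?_⟩
      · simp only
        rw [getD_tail, hr, Function.update_of_ne (by push_cast; omega)]
        congr 2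
        push_cast
        ring
      · simp only
        rcases i with _ | i
        · simp only [List.getD_cons_zero]
          have e : c.head + ((2 : ℕ) : ℤ) - 1 - 1 - ((0 : ℕ) : ℤ) = c.head := by push_cast; ring
          rw [e, Function.update_self]
        · simp only [List.getD_cons_succ]
          rw [hl, Function.update_of_ne (by push_cast; omega)]
          congr 2
          push_cast
          ring

lemma sim_iterate (M : Machine) (w : M.Word) (n : ℕ) :
    Sim M (M.step^[n] (M.init w))
      ((rawStep M.descr)^[n] (rawInit M.descr (w.map Fin.val))) := by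
  induction n with
  | zero => exact sim_init M w
  | succ n ih =>
    rw [Function.iterate_succ_apply', Function.iterate_succ_apply']
    exact sim_step M _ _ ih

lemma rawHalted_iff (M : Machine) (w : M.Word) (n : ℕ) :
    rawHalted M.descr (w.map Fin.val) n = M.halting ((M.step^[n] (M.init w)).state) := by
  unfold rawHalted
  rw [(sim_iterate M w n).state, rawHalt_descr]

lemma haltsOn_iff (M : Machine) (w : M.Word) :
    M.HaltsOn w ↔ ∃ n, rawHalted M.descr (w.map Fin.val) n = true := by
  unfold Machine.HaltsOn
  simp only [rawHalted_iff]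

/-! ### Computability of the simulation -/

section primrec

variable {α : Type*} [Primcodable α]

lemma primrec_rawHalt {f : α → Descr} {g : α → ℕ} (hf : Primrec f) (hg : Primrec g) :
    Primrec fun a => rawHalt (f a) (g a) := by
  unfold rawHalt
  have h1 : Primrec fun a => (f a).2.2.2.1 :=
    Primrec.fst.comp (Primrec.snd.comp (Primrec.snd.comp (Primrec.snd.comp hf)))
  have h2 : Primrec fun a => (f a).2.2.2.1.getD (g a) 0 := (Primrec.list_getD 0).comp h1 hg
  have h3 : PrimrecPred fun a => (f a).2.2.2.1.getD (g a) 0 = 1 :=
    Primrec.eq.comp h2 (Primrec.const 1)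
  exact h3.decide

lemma primrec_rawNext {f : α → Descr} {g h : α → ℕ} (hf : Primrec f) (hg : Primrec g)
    (hh : Primrec h) : Primrec fun a => rawNext (f a) (g a) (h a) := by
  unfold rawNext
  have h1 : Primrec fun a => (f a).2.2.2.2 :=
    Primrec.snd.comp (Primrec.snd.comp (Primrec.snd.comp (Primrec.snd.comp hf)))
  exact (Primrec.list_getD (0, 0, 0)).comp ((Primrec.list_getD []).comp h1 hg) hh

lemma primrec_rawMove {f : α → ℕ × ℕ × ℕ} {g : α → Raw} (hf : Primrec f) (hg : Primrec g) :
    Primrec fun a => rawMove (f a) (g a) := by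
  unfold rawMove
  have f1 : Primrec fun a => (f a).1 := Primrec.fst.comp hf
  have f2 : Primrec fun a => (f a).2.1 := Primrec.fst.comp (Primrec.snd.comp hf)
  have f3 : Primrec fun a => (f a).2.2 := Primrec.snd.comp (Primrec.snd.comp hf)
  have g2 : Primrec fun a => (g a).2.1 := Primrec.fst.comp (Primrec.snd.comp hg)
  have g3 : Primrec fun a => (g a).2.2 := Primrec.snd.comp (Primrec.snd.comp hg)
  refine Primrec.ite (Primrec.eq.comp f3 (Primrec.const 0)) ?_
    (Primrec.ite (Primrec.eq.comp f3 (Primrec.const 1)) ?_ ?_)
  · exact f1.pair ((Primrec.list_tail.comp g2).pair (Primrec.list_cons.comp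
      (Primrec.list_headI.comp g2) (Primrec.list_cons.comp f2 (Primrec.list_tail.comp g3))))
  · exact f1.pair (g2.pair (Primrec.list_cons.comp f2 (Primrec.list_tail.comp g3)))
  · exact f1.pair ((Primrec.list_cons.comp f2 g2).pair (Primrec.list_tail.comp g3))

lemma primrec_rawStep {f : α → Descr} {g : α → Raw} (hf : Primrec f) (hg : Primrec g) :
    Primrec fun a => rawStep (f a) (g a) := by
  unfold rawStep
  have g1 : Primrec fun a => (g a).1 := Primrec.fst.comp hg
  have g3 : Primrec fun a => (g a).2.2 := Primrec.snd.comp (Primrec.snd.comp hg)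
  refine Primrec.ite (Primrec.eq.comp (primrec_rawHalt hf g1) (Primrec.const true)) hg ?_
  exact primrec_rawMove (primrec_rawNext hf g1 (Primrec.list_headI.comp g3)) hg

lemma primrec_rawHalted :
    Primrec fun x : (Descr × List ℕ) × ℕ => rawHalted x.1.1 x.1.2 x.2 := by
  unfold rawHalted
  have hinit : Primrec fun x : (Descr × List ℕ) × ℕ => rawInit x.1.1 x.1.2 := by
    unfold rawInit
    exact (Primrec.fst.comp (Primrec.snd.comp (Primrec.snd.comp
      (Primrec.fst.comp Primrec.fst)))).pair ((Primrec.const []).pair
        (Primrec.snd.comp Primrec.fst))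
  have hiter : Primrec fun x : (Descr × List ℕ) × ℕ =>
      (rawStep x.1.1)^[x.2] (rawInit x.1.1 x.1.2) :=
    Primrec.nat_iterate Primrec.snd hinit
      (h := fun (x : (Descr × List ℕ) × ℕ) (c : Raw) => rawStep x.1.1 c)
      (primrec_rawStep (Primrec.fst.comp (Primrec.fst.comp Primrec.fst)) Primrec.snd)
  exact primrec_rawHalt (Primrec.fst.comp Primrec.fst) (Primrec.fst.comp hiter)

end primrec

end Vale.Agent.P113
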