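import Mathlib

open Set Filter Topology
open scoped ContDiff

namespace Vale.Agent.P113

/-- The derivatives of `exp (-1/s)` (extended by `0`). -/
noncomputable def Ed (n : ℕ) (s : ℝ) : ℝ := iteratedDeriv n expNegInvGlue s

lemma Ed_hasDerivAt (n : ℕ) (s : ℝ) : HasDerivAt (Ed n) (Ed (n + 1) s) s := by
  have h : ContDiff ℝ (n + 1 : ℕ) expNegInvGlue := expNegInvGlue.contDiff
  have h1 : Differentiable ℝ (iteratedDeriv n expNegInvGlue) :=
    h.differentiable_iteratedDeriv n (by exact_mod_cast Nat.lt_succ_self n)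
  have h2 := (h1 s).hasDerivAt
  rw [← iteratedDeriv_succ] at h2
  exact h2

lemma Ed_continuous (n : ℕ) : Continuous (Ed n) :=
  continuous_iff_continuousAt.2 fun s => (Ed_hasDerivAt n s).continuousAt

lemma Ed_zero_eq {s : ℝ} (hs : 0 < s) : Ed 0 s = Real.exp (-s⁻¹) := by
  simp [Ed, expNegInvGlue, not_le.2 hs]

lemma Ed_of_neg (n : ℕ) {s : ℝ} (hs : s < 0) : Ed n s = 0 := by
  have h : expNegInvGlue =ᶠ[𝓝 s] fun _ => (0 : ℝ) := by
    filter_upwards [Iio_mem_nhds hs] with x hx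
    exact expNegInvGlue.zero_of_nonpos (le_of_lt hx)
  have h2 := h.iteratedDeriv_eq n
  unfold Ed
  rw [h2]
  simp

lemma Ed_of_nonpos (n : ℕ) {s : ℝ} (hs : s ≤ 0) : Ed n s = 0 := by
  have hcl : IsClosed {x | Ed n x = 0} := isClosed_eq (Ed_continuous n) continuous_const
  have hsub : Iio (0 : ℝ) ⊆ {x | Ed n x = 0} := fun x hx => Ed_of_neg n hx
  have : Iic (0 : ℝ) ⊆ {x | Ed n x = 0} := by
    rw [← closure_Iio]
    exact hcl.closure_subset_iff.2 hsub
  exact this hs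

lemma Ed_one {s : ℝ} (hs : 0 < s) : s ^ 2 * Ed 1 s = Ed 0 s := by
  have h1 : HasDerivAt (fun x : ℝ => Real.exp (-x⁻¹)) (Real.exp (-s⁻¹) * (-(-(s ^ 2)⁻¹))) s :=
    ((hasDerivAt_inv hs.ne').neg).exp
  have h2 : (Ed 0) =ᶠ[𝓝 s] fun x : ℝ => Real.exp (-x⁻¹) := by
    filter_upwards [Ioi_mem_nhds hs] with x hx
    exact Ed_zero_eq hx
  have h3 := (Ed_hasDerivAt 0 s).unique (h1.congr_of_eventuallyEq h2)
  rw [h3, Ed_zero_eq hs]
  field_simp

/-- The linear recurrence satisfied by the derivatives of `exp (-1/s)`. -/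
lemma Ed_rec (n : ℕ) : ∀ s : ℝ, 0 < s →
    s ^ 2 * Ed (n + 2) s + 2 * ((n : ℝ) + 1) * s * Ed (n + 1) s + ((n : ℝ) + 1) * n * Ed n s
      = Ed (n + 1) s := by
  induction n with
  | zero =>
    intro s hs
    have h1 : HasDerivAt (fun x : ℝ => x ^ 2 * Ed 1 x)
        (((2 : ℕ) : ℝ) * s ^ (2 - 1) * 1 * Ed 1 s + s ^ 2 * Ed 2 s) s :=
      ((hasDerivAt_id' s).fun_pow 2).fun_mul (Ed_hasDerivAt 1 s)
    have h2 : (Ed 0) =ᶠ[𝓝 s] fun x : ℝ => x ^ 2 * Ed 1 x := by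
      filter_upwards [Ioi_mem_nhds hs] with x hx
      exact (Ed_one hx).symm
    have h3 := (Ed_hasDerivAt 0 s).unique (h1.congr_of_eventuallyEq h2)
    rw [zero_add] at h3
    have e : (2 : ℕ) - 1 = 1 := rfl
    rw [e, pow_one] at h3
    push_cast at h3 ⊢
    linear_combination -h3
  | succ n ih =>
    intro s hs
    have h1 : HasDerivAt (fun x : ℝ => x ^ 2 * Ed (n + 2) x
          + 2 * ((n : ℝ) + 1) * x * Ed (n + 1) x + ((n : ℝ) + 1) * n * Ed n x)
        ((((2 : ℕ) : ℝ) * s ^ (2 - 1) * 1 * Ed (n + 2) s + s ^ 2 * Ed (n + 3) s)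
          + (2 * ((n : ℝ) + 1) * 1 * Ed (n + 1) s + 2 * ((n : ℝ) + 1) * s * Ed (n + 2) s)
          + ((n : ℝ) + 1) * n * Ed (n + 1) s) s :=
      ((((hasDerivAt_id' s).fun_pow 2).fun_mul (Ed_hasDerivAt (n + 2) s)).fun_add
        (((hasDerivAt_id' s).const_mul (2 * ((n : ℝ) + 1))).fun_mul
          (Ed_hasDerivAt (n + 1) s))).fun_add
        ((Ed_hasDerivAt n s).const_mul (((n : ℝ) + 1) * n))
    have h2 : (Ed (n + 1)) =ᶠ[𝓝 s] fun x : ℝ => x ^ 2 * Ed (n + 2) x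
          + 2 * ((n : ℝ) + 1) * x * Ed (n + 1) x + ((n : ℝ) + 1) * n * Ed n x := by
      filter_upwards [Ioi_mem_nhds hs] with x hx
      exact (ih x hx).symm
    have h3 := (Ed_hasDerivAt (n + 1) s).unique (h1.congr_of_eventuallyEq h2)
    have h4 : n + 1 + 2 = n + 3 := by ring
    have h5 : n + 1 + 1 = n + 2 := by ring
    have e : (2 : ℕ) - 1 = 1 := rfl
    rw [h5, e, pow_one] at h3
    rw [h4, h5]
    push_cast at h3 ⊢
    linear_combination -h3

/-- The rational factors in the derivatives of `exp (-1/s)`. -/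
def rfac {K : Type*} [Field K] (s : K) : ℕ → K × K
  | 0 => (1, 1 / s ^ 2)
  | (n + 1) => ((rfac s n).2,
      ((1 - 2 * ((n : K) + 1) * s) * (rfac s n).2 - ((n : K) + 1) * n * (rfac s n).1) / s ^ 2)

lemma Ed_eq_rfac {s : ℝ} (hs : 0 < s) (n : ℕ) :
    Ed n s = (rfac s n).1 * Real.exp (-s⁻¹) ∧ Ed (n + 1) s = (rfac s n).2 * Real.exp (-s⁻¹) := by
  have hs2 : s ^ 2 ≠ 0 := by positivity
  induction n with
  | zero =>
    refine ⟨?_, ?_⟩
    · rw [Ed_zero_eq hs]; simp [rfac]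
    · have := Ed_one hs
      rw [Ed_zero_eq hs] at this
      simp only [rfac, zero_add]
      rw [← this]
      field_simp
  | succ n ih =>
    refine ⟨ih.2, ?_⟩
    have h := Ed_rec n s hs
    rw [ih.1, ih.2] at h
    have h2 : Ed (n + 1 + 1) s = Ed (n + 2) s := rfl
    rw [h2]
    simp only [rfac]
    rw [div_mul_eq_mul_div, eq_div_iff hs2]
    linear_combination h

lemma rfac_cast (s : ℚ) (n : ℕ) :
    (((rfac s n).1 : ℚ) : ℝ) = (rfac (s : ℝ) n).1 ∧
    (((rfac s n).2 : ℚ) : ℝ) = (rfac (s : ℝ) n).2 := by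
  induction n with
  | zero => simp [rfac]
  | succ n ih =>
    refine ⟨ih.2, ?_⟩
    simp only [rfac]
    push_cast
    rw [ih.1, ih.2]

/-! ### The time profile `a(t) = t e^{-1/(1-t)}` for `t < 1`, `a(t) = 0` for `t ≥ 1` -/

/-- The derivatives of the time profile. -/
noncomputable def Ad (n : ℕ) (t : ℝ) : ℝ :=
  t * ((-1) ^ n * Ed n (1 - t)) + n * ((-1) ^ (n - 1) * Ed (n - 1) (1 - t))

lemma Ed_comp_hasDerivAt (n : ℕ) (t : ℝ) :
    HasDerivAt (fun t => (-1) ^ n * Ed n (1 - t)) ((-1) ^ (n + 1) * Ed (n + 1) (1 - t)) t := by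
  have h1 : HasDerivAt (fun t : ℝ => 1 - t) (-1) t := by
    simpa using (hasDerivAt_id' t).const_sub 1
  have h2 := ((Ed_hasDerivAt n (1 - t)).comp t h1).const_mul ((-1 : ℝ) ^ n)
  refine h2.congr_deriv ?_
  rw [pow_succ]
  ring

lemma Ad_hasDerivAt (n : ℕ) (t : ℝ) : HasDerivAt (Ad n) (Ad (n + 1) t) t := by
  cases n with
  | zero =>
    have h := (hasDerivAt_id' t).fun_mul (Ed_comp_hasDerivAt 0 t)
    have e : Ad 0 = fun t => t * ((-1) ^ 0 * Ed 0 (1 - t)) := by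
      funext t
      simp [Ad]
    rw [e]
    refine h.congr_deriv ?_
    simp only [Ad]
    norm_num
    ring
  | succ n =>
    have h := ((hasDerivAt_id' t).fun_mul (Ed_comp_hasDerivAt (n + 1) t)).fun_add
      ((Ed_comp_hasDerivAt n t).const_mul (((n + 1 : ℕ) : ℝ)))
    have e : Ad (n + 1) = fun t => t * ((-1) ^ (n + 1) * Ed (n + 1) (1 - t))
        + ((n + 1 : ℕ) : ℝ) * ((-1) ^ n * Ed n (1 - t)) := by
      funext t
      simp [Ad]
    rw [e]
    refine h.congr_deriv ?_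
    simp only [Ad]
    have e2 : n + 1 + 1 - 1 = n + 1 := rfl
    rw [e2]
    push_cast
    ring

lemma Ad_iteratedDeriv (n m : ℕ) : iteratedDeriv n (Ad m) = Ad (m + n) := by
  induction n with
  | zero => simp
  | succ n ih =>
    rw [iteratedDeriv_succ, ih]
    funext t
    exact (Ad_hasDerivAt (m + n) t).deriv

lemma Ad_differentiable (n : ℕ) : Differentiable ℝ (Ad n) := fun t =>
  (Ad_hasDerivAt n t).differentiableAt

lemma Ad_contDiff (n : ℕ) : ContDiff ℝ ∞ (Ad n) := by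
  rw [contDiff_infty]
  intro k
  rw [contDiff_nat_iff_iteratedDeriv]
  constructor
  · intro m _
    rw [Ad_iteratedDeriv]
    exact (Ad_differentiable _).continuous
  · intro m _
    rw [Ad_iteratedDeriv]
    exact Ad_differentiable _

lemma Ad_of_one_le (n : ℕ) {t : ℝ} (ht : 1 ≤ t) : Ad n t = 0 := by
  unfold Ad
  rw [Ed_of_nonpos _ (by linarith), Ed_of_nonpos _ (by linarith)]
  simp

lemma Ad_zero_zero : Ad 0 0 = 0 := by simp [Ad]

lemma Ad_zero_eq {t : ℝ} (ht : t < 1) : Ad 0 t = t * Real.exp (-(1 - t)⁻¹) := by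
  unfold Ad
  rw [Ed_zero_eq (by linarith)]
  simp

end Vale.Agent.P113
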