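import Vale.Agent.P113.CompReal
import Vale.Agent.P113.TimeFn
import Vale.Agent.P113.Sim

namespace Vale.Agent.P113

lemma exp_approx (x : ℝ) (B n : ℕ) (hx : |x| ≤ B) :
    |Real.exp x - ∑ i ∈ Finset.range (2 * (2 * (B * B) + B + n + 1)), x ^ i / (i.factorial : ℝ)|
      ≤ (1 / 2) ^ n := by
  set M := 2 * (B * B) + B + n + 1 with hM
  have hB0 : (0 : ℝ) ≤ B := by positivity
  have hMpos : (0 : ℝ) < M := by
    have : 0 < M := by omega
    exact_mod_cast this
  have hBM : (B : ℝ) ≤ M := by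
    have : B ≤ M := by omega
    exact_mod_cast this
  have h1 := Complex.exp_bound' (x := (x : ℂ)) (n := 2 * M) (by
    rw [div_le_iff₀ (by positivity), Complex.norm_real, Real.norm_eq_abs]
    push_cast
    linarith)
  have h2 : ‖Complex.exp (x : ℂ) - ∑ m ∈ Finset.range (2 * M), (x : ℂ) ^ m / (m.factorial : ℂ)‖
      = |Real.exp x - ∑ i ∈ Finset.range (2 * M), x ^ i / (i.factorial : ℝ)| := by
    rw [← Real.norm_eq_abs, ← Complex.norm_real]
    push_cast
    rfl
  rw [h2, Complex.norm_real, Real.norm_eq_abs] at h1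
  refine h1.trans ?_
  -- `|x|^(2M)/(2M)! * 2 ≤ (B^2/M)^M * 2 ≤ 2^{-n}`
  have h3 : ((M : ℝ)) ^ M ≤ ((2 * M).factorial : ℝ) := by
    have h4 := Nat.factorial_mul_pow_le_factorial (m := M) (n := M)
    have h5 : M ^ M ≤ (2 * M).factorial := by
      calc M ^ M ≤ (M + 1) ^ M := Nat.pow_le_pow_left (Nat.le_succ M) M
        _ ≤ M.factorial * (M + 1) ^ M := Nat.le_mul_of_pos_left _ (Nat.factorial_pos M)
        _ ≤ (M + M).factorial := h4
        _ = (2 * M).factorial := by rw [two_mul]
    exact_mod_cast h5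
  have h6 : |x| ^ (2 * M) ≤ ((B : ℝ) * B) ^ M := by
    rw [pow_mul, sq]
    exact pow_le_pow_left₀ (by positivity) (mul_le_mul hx hx (abs_nonneg _) hB0) M
  have h7 : ((B : ℝ) * B) / M ≤ 1 / 2 := by
    rw [div_le_iff₀ hMpos]
    have : 2 * (B * B) ≤ M := by omega
    have : (2 : ℝ) * (B * B) ≤ M := by exact_mod_cast this
    linarith
  have h8 : |x| ^ (2 * M) / ((2 * M).factorial : ℝ) ≤ (1 / 2) ^ M := by
    calc |x| ^ (2 * M) / ((2 * M).factorial : ℝ) ≤ ((B : ℝ) * B) ^ M / (M : ℝ) ^ M :=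
          div_le_div₀ (by positivity) h6 (by positivity) h3
      _ = (((B : ℝ) * B) / M) ^ M := by rw [div_pow]
      _ ≤ (1 / 2) ^ M := pow_le_pow_left₀ (by positivity) h7 M
  have h9 : ((1 : ℝ) / 2) ^ M ≤ (1 / 2) ^ (n + 1) :=
    pow_le_pow_of_le_one (by norm_num) (by norm_num) (by omega)
  calc |x| ^ (2 * M) / ((2 * M).factorial : ℝ) * 2 ≤ (1 / 2) ^ (n + 1) * 2 := by linarith
    _ = (1 / 2) ^ n := by rw [pow_succ]; ring

section

variable {α : Type*} [Primcodable α]

/-- The exponential of a computable rational is computable. -/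
lemma CReal.expRat {h : α → ℚ} (hh : CRat h) : CReal fun a => Real.exp (h a) := by
  obtain ⟨B, hB, hB'⟩ := (CReal.ofRat hh).exists_bound
  have hterm : CRat fun x : (α × ℕ) × ℕ => h x.1.1 ^ x.2 / (x.2.factorial : ℚ) :=
    CRat.div (CRat.pow Computable.snd (hh.comp (Computable.fst.comp Computable.fst)))
      (CRat.factorial Computable.snd)
  have hsum : CRat fun x : α × ℕ => ∑ i ∈ Finset.range x.2, h x.1 ^ i / (i.factorial : ℚ) :=
    CRat.sum (h := fun y : (α × ℕ) × ℕ => h y.1.1 ^ y.2 / (y.2.factorial : ℚ))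
      Computable.snd hterm
  have hBf : Computable fun x : α × ℕ => B x.1 := hB.comp Computable.fst
  refine CReal.of_approx hsum
    (m := fun x => 2 * (2 * (B x.1 * B x.1) + B x.1 + x.2 + 1)) ?_ fun a n => ?_
  · exact computable_nat_mul (Computable.const 2) (Computable.succ.comp
      (computable_nat_add (computable_nat_add (computable_nat_mul (Computable.const 2)
        (computable_nat_mul hBf hBf)) hBf) Computable.snd))
  · have := exp_approx (h a) (B a) n (hB' a)
    push_cast
    exact this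

end

/-! ### The halting number -/

/-- `θ = ∑ₙ [the machine has halted after n steps] 2^{-n-3}`. -/
noncomputable def theta (x : Descr × List ℕ) : ℝ :=
  ∑' n : ℕ, if rawHalted x.1 x.2 n = true then ((1 : ℝ) / 2) ^ (n + 3) else 0

lemma theta_summable (x : Descr × List ℕ) :
    Summable fun n : ℕ => if rawHalted x.1 x.2 n = true then ((1 : ℝ) / 2) ^ (n + 3) else 0 := by
  refine Summable.of_nonneg_of_le (fun n => ?_) (fun n => ?_)
    ((summable_nat_add_iff 3).2 summable_geometric_two)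
  · split_ifs <;> positivity
  · split_ifs
    · exact le_refl _
    · positivity

lemma geom_tail (N : ℕ) : ∑' n : ℕ, ((1 : ℝ) / 2) ^ (n + N) = 2 * (1 / 2) ^ N := by
  simp_rw [pow_add]
  rw [tsum_mul_right, tsum_geometric_two]

lemma theta_nonneg (x : Descr × List ℕ) : 0 ≤ theta x :=
  tsum_nonneg fun n => by split_ifs <;> positivity

lemma theta_le (x : Descr × List ℕ) : theta x ≤ 1 / 4 := by
  have h : theta x ≤ ∑' n : ℕ, ((1 : ℝ) / 2) ^ (n + 3) := by
    refine (theta_summable x).tsum_le_tsum (fun n => ?_)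
      ((summable_nat_add_iff 3).2 summable_geometric_two)
    split_ifs
    · exact le_refl _
    · positivity
  rw [geom_tail] at h
  norm_num at h ⊢
  exact h

lemma theta_pos_iff (x : Descr × List ℕ) :
    0 < theta x ↔ ∃ n, rawHalted x.1 x.2 n = true := by
  constructor
  · intro h
    by_contra hcon
    push Not at hcon
    have : theta x = 0 := by
      unfold theta
      have e : (fun n : ℕ => if rawHalted x.1 x.2 n = true then ((1 : ℝ) / 2) ^ (n + 3) else 0)
          = fun _ => 0 := by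
        funext n
        rw [if_neg (hcon n)]
      rw [e, tsum_zero]
    linarith
  · rintro ⟨n, hn⟩
    refine (theta_summable x).tsum_pos (fun n => ?_) n ?_
    · split_ifs <;> positivity
    · rw [if_pos hn]
      positivity

lemma cast_bif (b : Bool) (i : ℕ) : (((bif b then ((1 : ℚ) / 2) ^ (i + 3) else 0) : ℚ) : ℝ)
    = if b = true then ((1 : ℝ) / 2) ^ (i + 3) else 0 := by
  cases b <;> simp

lemma theta_creal : CReal theta := by
  have hb : Computable fun y : (((Descr × List ℕ) × ℕ) × ℕ) =>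
      rawHalted y.1.1.1 y.1.1.2 y.2 :=
    Computable.comp (f := fun x : (Descr × List ℕ) × ℕ => rawHalted x.1.1 x.1.2 x.2)
      (g := fun y : (((Descr × List ℕ) × ℕ) × ℕ) => (y.1.1, y.2)) primrec_rawHalted.to_comp
      ((Computable.fst.comp Computable.fst).pair Computable.snd)
  have hterm : CRat fun y : (((Descr × List ℕ) × ℕ) × ℕ) =>
      bif rawHalted y.1.1.1 y.1.1.2 y.2 then ((1 : ℚ) / 2) ^ (y.2 + 3) else 0 := by
    refine CRat.cond hb (CRat.pow ?_ (CRat.const _)) (CRat.const 0)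
    exact computable_nat_add Computable.snd (Computable.const 3)
  have hsum : CRat fun x : (Descr × List ℕ) × ℕ => ∑ i ∈ Finset.range x.2,
      (bif rawHalted x.1.1 x.1.2 i then ((1 : ℚ) / 2) ^ (i + 3) else 0) :=
    CRat.sum (h := fun y : (((Descr × List ℕ) × ℕ) × ℕ) =>
      bif rawHalted y.1.1.1 y.1.1.2 y.2 then ((1 : ℚ) / 2) ^ (y.2 + 3) else 0)
      Computable.snd hterm
  refine CReal.of_approx hsum (m := fun x => x.2) Computable.snd fun x n => ?_
  have h1 := (theta_summable x).sum_add_tsum_nat_add n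
  have h2 : ((∑ i ∈ Finset.range n,
      (bif rawHalted x.1 x.2 i then ((1 : ℚ) / 2) ^ (i + 3) else 0) : ℚ) : ℝ)
      = ∑ i ∈ Finset.range n,
        (if rawHalted x.1 x.2 i = true then ((1 : ℝ) / 2) ^ (i + 3) else 0) := by
    rw [Rat.cast_sum]
    exact Finset.sum_congr rfl fun i _ => cast_bif _ i
  rw [h2]
  have h3 : theta x - ∑ i ∈ Finset.range n,
        (if rawHalted x.1 x.2 i = true then ((1 : ℝ) / 2) ^ (i + 3) else 0)
      = ∑' i : ℕ, (if rawHalted x.1 x.2 (i + n) = true then ((1 : ℝ) / 2) ^ (i + n + 3) else 0) := by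
    unfold theta
    rw [← h1]
    ring
  rw [h3, abs_of_nonneg (tsum_nonneg fun i => by split_ifs <;> positivity)]
  have h4 : ∑' i : ℕ, (if rawHalted x.1 x.2 (i + n) = true then ((1 : ℝ) / 2) ^ (i + n + 3) else 0)
      ≤ ∑' i : ℕ, ((1 : ℝ) / 2) ^ (i + (n + 3)) := by
    refine Summable.tsum_le_tsum (fun i => ?_)
      ((summable_nat_add_iff (f := fun n : ℕ => if rawHalted x.1 x.2 n = true then
        ((1 : ℝ) / 2) ^ (n + 3) else 0) n).2 (theta_summable x))
      ((summable_nat_add_iff (n + 3)).2 summable_geometric_two)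
    split_ifs
    · exact le_of_eq (by ring)
    · positivity
  refine h4.trans ?_
  rw [geom_tail, pow_add]
  have : (0 : ℝ) ≤ (1 / 2) ^ n := by positivity
  nlinarith

/-! ### Computability of the derivatives of the time profile -/

/-- The rational factor of the `k`-th derivative. -/
lemma rfac_eq_rec (s : ℚ) (n : ℕ) : rfac s n = (Nat.rec (1, 1 / s ^ 2)
      (fun n r => (r.2, ((1 - 2 * ((n : ℚ) + 1) * s) * r.2 - ((n : ℚ) + 1) * n * r.1) / s ^ 2)) n :
      ℚ × ℚ) := by
  induction n with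
  | zero => rfl
  | succ n ih =>
    rw [rfac, ih]

section

variable {α : Type*} [Primcodable α]

lemma rfac_crat {f : α → ℕ} (hf : Computable f) {s : α → ℚ} (hs : CRat s) :
    CRat (fun a => (rfac (s a) (f a)).1) ∧ CRat (fun a => (rfac (s a) (f a)).2) := by
  have hsq : CRat fun a => s a ^ 2 := CRat.pow (Computable.const 2) hs
  have c0 : Computable fun x : α × ℕ × Q3 × Q3 => x.1 := Computable.fst
  have c1 : Computable fun x : α × ℕ × Q3 × Q3 => x.2.1 := Computable.fst.comp Computable.snd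
  have c2 : Computable fun x : α × ℕ × Q3 × Q3 => x.2.2.1 :=
    Computable.fst.comp (Computable.snd.comp Computable.snd)
  have c3 : Computable fun x : α × ℕ × Q3 × Q3 => x.2.2.2 :=
    Computable.snd.comp (Computable.snd.comp Computable.snd)
  have h := CRat.nat_rec_pair hf (CRat.const (1 : ℚ)) ((CRat.const (1 : ℚ)).div hsq)
    (s₁ := fun _ _ _ r2 => r2)
    (s₂ := fun a n r1 r2 =>
      ((1 - 2 * ((n : ℚ) + 1) * s a) * r2 - ((n : ℚ) + 1) * n * r1) / s a ^ 2)
    (CRat.ratOf c3) (by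
      refine CRat.div (CRat.sub (CRat.mul (CRat.sub (CRat.const 1) (CRat.mul (CRat.mul
        (CRat.const 2) ((CRat.natCast c1).add (CRat.const 1))) (hs.comp c0)))
        (CRat.ratOf c3)) (CRat.mul (CRat.mul ((CRat.natCast c1).add (CRat.const 1))
          (CRat.natCast c1)) (CRat.ratOf c2))) (hsq.comp c0))
  refine ⟨h.1.congr fun a => ?_, h.2.congr fun a => ?_⟩
  · rw [rfac_eq_rec]
  · rw [rfac_eq_rec]

lemma Ed_creal {f : α → ℕ} (hf : Computable f) {s : α → ℚ} (hs : CRat s) :
    CReal fun a => Ed (f a) (s a) := by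
  have h1 : CReal fun a => ((rfac (s a) (f a)).1 : ℝ) * Real.exp ((-(s a)⁻¹ : ℚ)) :=
    (CReal.ofRat (rfac_crat hf hs).1).mul (CReal.expRat hs.inv.neg)
  have h2 := CReal.ite (c := fun a => 0 < s a) (CRat.exists_lt (CRat.const 0) hs) h1
    (CReal.ofRat (CRat.const (0 : ℚ)))
  refine h2.congr fun a => ?_
  split_ifs with h
  · have h3 : (0 : ℝ) < s a := by exact_mod_cast h
    rw [(Ed_eq_rfac h3 (f a)).1, (rfac_cast (s a) (f a)).1]
    push_cast
    rfl
  · have h3 : (s a : ℝ) ≤ 0 := by exact_mod_cast not_lt.1 h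
    rw [Ed_of_nonpos _ h3]
    simp

lemma Ad_creal {f : α → ℕ} (hf : Computable f) {t : α → ℚ} (ht : CRat t) :
    CReal fun a => Ad (f a) (t a) := by
  have h1 : CReal fun a => Ed (f a) ((1 - t a : ℚ)) := Ed_creal hf ((CRat.const 1).sub ht)
  have hpred : Computable fun a => f a - 1 :=
    Primrec.nat_sub.to_comp.comp hf (Computable.const 1)
  have h2 : CReal fun a => Ed (f a - 1) ((1 - t a : ℚ)) :=
    Ed_creal hpred ((CRat.const 1).sub ht)
  have h3 : CReal fun a => (((-1) ^ (f a) : ℚ) : ℝ) := CReal.ofRat (CRat.pow hf (CRat.const (-1)))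
  have h4 : CReal fun a => (((-1) ^ (f a - 1) : ℚ) : ℝ) :=
    CReal.ofRat (CRat.pow hpred (CRat.const (-1)))
  have h5 : CReal fun a => (((f a : ℕ) : ℚ) : ℝ) := CReal.ofRat (CRat.natCast hf)
  refine (((CReal.ofRat ht).mul (h3.mul h1)).add (h5.mul (h4.mul h2))).congr fun a => ?_
  unfold Ad
  push_cast
  rfl

end

end Vale.Agent.P113
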