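import Vale.Agent.P113.Comp

namespace Vale.Agent.P113

/-- `h : α → ℝ` is a computable family of real numbers. -/
def CReal {α : Type*} [Primcodable α] (h : α → ℝ) : Prop :=
  ∃ q : α × ℕ → ℚ, CRat q ∧ ∀ a n, |h a - (q (a, n) : ℝ)| ≤ (1 / 2) ^ n

section creal

variable {α β : Type*} [Primcodable α] [Primcodable β]

lemma CReal.congr {h g : α → ℝ} (hh : CReal h) (e : ∀ a, h a = g a) : CReal g := by
  obtain rfl : h = g := funext e
  exact hh

lemma CReal.ofRat {h : α → ℚ} (hh : CRat h) : CReal fun a => (h a : ℝ) :=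
  ⟨fun x => h x.1, hh.comp Computable.fst, fun a n => by simp⟩

lemma CReal.comp {h : β → ℝ} (hh : CReal h) {f : α → β} (hf : Computable f) :
    CReal fun a => h (f a) := by
  obtain ⟨q, hq, hq'⟩ := hh
  exact ⟨fun x => q (f x.1, x.2), hq.comp ((hf.comp Computable.fst).pair Computable.snd),
    fun a n => hq' (f a) n⟩

lemma CReal.const {x : ℝ} (hx : IsComputableReal x) : CReal fun _ : α => x := by
  obtain ⟨q, hq, hq'⟩ := hx
  exact ⟨fun y => P113.ratOf (q y.2), CRat.ratOf (hq.comp Computable.snd), fun a n => hq' n⟩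

lemma CReal.exists_bound {h : α → ℝ} (hh : CReal h) :
    ∃ B : α → ℕ, Computable B ∧ ∀ a, |h a| ≤ B a := by
  obtain ⟨q, ⟨p, hp, hp'⟩, hq'⟩ := hh
  have hc : Computable fun a : α => p (a, 0) :=
    hp.comp (Computable.pair Computable.id (Computable.const 0))
  refine ⟨fun a => ((p (a, 0)).1 + (p (a, 0)).2.1) + 1, ?_, fun a => ?_⟩
  · exact Computable.succ.comp (computable_nat_add (Computable.fst.comp hc)
      (Computable.fst.comp (Computable.snd.comp hc)))
  · have h1 := hq' a 0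
    have h2 := abs_ratOf_le (p (a, 0))
    rw [hp'] at h2
    have h3 : |(q (a, 0) : ℝ)| ≤ (((p (a, 0)).1 + (p (a, 0)).2.1 : ℕ) : ℝ) := by
      exact_mod_cast h2
    have h4 : |h a| ≤ |h a - (q (a, 0) : ℝ)| + |(q (a, 0) : ℝ)| := by
      have := abs_add_le (h a - (q (a, 0) : ℝ)) (q (a, 0) : ℝ)
      simpa using this
    push_cast at h3 ⊢
    norm_num at h1
    linarith

/-- Effective limits. -/
lemma CReal.lim {h : α → ℝ} {g : α × ℕ → ℝ} (hg : CReal g)
    (e : ∀ a n, |h a - g (a, n)| ≤ (1 / 2) ^ n) : CReal h := by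
  obtain ⟨q, hq, hq'⟩ := hg
  refine ⟨fun x => q ((x.1, x.2 + 1), x.2 + 1), hq.comp ?_, fun a n => ?_⟩
  · exact ((Computable.fst.pair (Computable.succ.comp Computable.snd)).pair
      (Computable.succ.comp Computable.snd))
  · have h1 := e a (n + 1)
    have h2 := hq' (a, n + 1) (n + 1)
    have h3 : |h a - (q ((a, n + 1), n + 1) : ℝ)| ≤
        |h a - g (a, n + 1)| + |g (a, n + 1) - (q ((a, n + 1), n + 1) : ℝ)| := by
      have := abs_add_le (h a - g (a, n + 1)) (g (a, n + 1) - (q ((a, n + 1), n + 1) : ℝ))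
      simpa using this
    have h4 : ((1 : ℝ) / 2) ^ n = (1 / 2) ^ (n + 1) + (1 / 2) ^ (n + 1) := by
      rw [pow_succ]; ring
    simp only
    linarith

/-- A criterion with an arbitrary computable rate. -/
lemma CReal.of_approx {h : α → ℝ} {q : α × ℕ → ℚ} (hq : CRat q) {m : α × ℕ → ℕ}
    (hm : Computable m) (e : ∀ a n, |h a - (q (a, m (a, n)) : ℝ)| ≤ (1 / 2) ^ n) : CReal h :=
  ⟨fun x => q (x.1, m x), hq.comp (Computable.fst.pair hm), fun a n => e a n⟩

lemma half_pow_le (k : ℕ) : (k : ℝ) * (1 / 2) ^ k ≤ 1 := by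
  have h : (k : ℝ) ≤ 2 ^ k := by exact_mod_cast (Nat.lt_two_pow_self (n := k)).le
  have h2 : (2 : ℝ) ^ k * (1 / 2) ^ k = 1 := by
    rw [← mul_pow]; norm_num
  have h3 : (0 : ℝ) ≤ (1 / 2) ^ k := by positivity
  nlinarith

lemma CReal.add {g h : α → ℝ} (hg : CReal g) (hh : CReal h) : CReal fun a => g a + h a := by
  obtain ⟨p, hp, hp'⟩ := hg
  obtain ⟨q, hq, hq'⟩ := hh
  refine CReal.of_approx (q := fun x => p x + q x) (hp.add hq) (m := fun x => x.2 + 1)
    (Computable.succ.comp Computable.snd) fun a n => ?_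
  have h1 := hp' a (n + 1)
  have h2 := hq' a (n + 1)
  have h4 : ((1 : ℝ) / 2) ^ n = (1 / 2) ^ (n + 1) + (1 / 2) ^ (n + 1) := by
    rw [pow_succ]; ring
  rw [h4]
  push_cast
  rw [abs_le] at h1 h2 ⊢
  constructor <;> linarith [h1.1, h1.2, h2.1, h2.2]

lemma CReal.neg {g : α → ℝ} (hg : CReal g) : CReal fun a => - g a := by
  obtain ⟨p, hp, hp'⟩ := hg
  refine ⟨fun x => - p x, hp.neg, fun a n => ?_⟩
  have h1 := hp' a n
  push_cast
  rw [abs_le] at h1 ⊢
  constructor <;> linarith [h1.1, h1.2]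

lemma CReal.sub {g h : α → ℝ} (hg : CReal g) (hh : CReal h) : CReal fun a => g a - h a :=
  (hg.add hh.neg).congr fun a => by ring

lemma CReal.mul {g h : α → ℝ} (hg : CReal g) (hh : CReal h) : CReal fun a => g a * h a := by
  obtain ⟨B, hB, hB'⟩ := hg.exists_bound
  obtain ⟨D, hD, hD'⟩ := hh.exists_bound
  obtain ⟨p, hp, hp'⟩ := hg
  obtain ⟨q, hq, hq'⟩ := hh
  refine CReal.of_approx (q := fun x => p x * q x) (hp.mul hq)
    (m := fun x => x.2 + (B x.1 + D x.1 + 1)) ?_ fun a n => ?_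
  · exact computable_nat_add Computable.snd (Computable.succ.comp
      (computable_nat_add (hB.comp Computable.fst) (hD.comp Computable.fst)))
  · simp only
    set k := B a + D a + 1 with hk
    have h1 := hp' a (n + k)
    have h2 := hq' a (n + k)
    have hpos : (0 : ℝ) ≤ (1 / 2) ^ (n + k) := by positivity
    have hle1 : ((1 : ℝ) / 2) ^ (n + k) ≤ 1 := pow_le_one₀ (by norm_num) (by norm_num)
    have h3 : |(q (a, n + k) : ℝ)| ≤ D a + 1 := by
      have h4 : |(q (a, n + k) : ℝ)| ≤ |h a| + |h a - (q (a, n + k) : ℝ)| := by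
        have := abs_sub (h a) (h a - (q (a, n + k) : ℝ))
        simpa using this
      linarith [hD' a]
    have h5 : |g a * h a - ((p (a, n + k) * q (a, n + k) : ℚ) : ℝ)| ≤
        |g a| * |h a - (q (a, n + k) : ℝ)| + |(q (a, n + k) : ℝ)| * |g a - (p (a, n + k) : ℝ)| := by
      have e : g a * h a - ((p (a, n + k) * q (a, n + k) : ℚ) : ℝ) =
          g a * (h a - (q (a, n + k) : ℝ)) + (q (a, n + k) : ℝ) * (g a - (p (a, n + k) : ℝ)) := by
        push_cast
        ring
      rw [e, ← abs_mul, ← abs_mul]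
      exact abs_add_le _ _
    have h6 : |g a| * |h a - (q (a, n + k) : ℝ)| ≤ B a * (1 / 2) ^ (n + k) :=
      mul_le_mul (hB' a) h2 (abs_nonneg _) (by positivity)
    have h7 : |(q (a, n + k) : ℝ)| * |g a - (p (a, n + k) : ℝ)| ≤ (D a + 1) * (1 / 2) ^ (n + k) :=
      mul_le_mul h3 h1 (abs_nonneg _) (by positivity)
    have h8 : (k : ℝ) * (1 / 2) ^ (n + k) ≤ (1 / 2) ^ n := by
      rw [pow_add]
      have h9 := half_pow_le k
      have h10 : (0 : ℝ) ≤ (1 / 2) ^ n := by positivity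
      nlinarith
    have h11 : (k : ℝ) = B a + D a + 1 := by
      rw [hk]; push_cast; ring
    rw [h11] at h8
    linarith

lemma CReal.cond {c : α → Bool} (hc : Computable c) {g h : α → ℝ} (hg : CReal g) (hh : CReal h) :
    CReal fun a => bif c a then g a else h a := by
  obtain ⟨p, hp, hp'⟩ := hg
  obtain ⟨q, hq, hq'⟩ := hh
  refine ⟨fun x => bif c x.1 then p x else q x, CRat.cond (hc.comp Computable.fst) hp hq,
    fun a n => ?_⟩
  beta_reduce
  cases c a
  · exact hq' a n
  · exact hp' a n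

lemma CReal.ite {c : α → Prop} [DecidablePred c] (hc : Computable fun a => decide (c a))
    {g h : α → ℝ} (hg : CReal g) (hh : CReal h) :
    CReal fun a => if c a then g a else h a :=
  (CReal.cond hc hg hh).congr fun a => by
    by_cases hca : c a <;> simp [hca]

/-- Conversion of a computable family into an algorithm with rational accuracy. -/
lemma CReal.algorithm {h : α → ℝ} (hh : CReal h) :
    ∃ F : α × Q3 → Q3, Computable F ∧ ∀ a ε, 0 < P113.ratOf ε →
      |(P113.ratOf (F (a, ε)) : ℝ) - h a| ≤ (P113.ratOf ε : ℝ) := by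
  obtain ⟨q, ⟨p, hp, hp'⟩, hq'⟩ := hh
  refine ⟨fun x => p (x.1, x.2.2.2 + 1), ?_, fun a ε hε => ?_⟩
  · exact hp.comp (Computable.fst.pair (Computable.succ.comp
      (Computable.snd.comp (Computable.snd.comp Computable.snd))))
  · simp only
    rw [hp', abs_sub_comm]
    refine (hq' a (ε.2.2 + 1)).trans ?_
    have h1 : (1 : ℚ) / ((ε.2.2 : ℚ) + 1) ≤ P113.ratOf ε := by
      unfold P113.ratOf at hε ⊢
      have h2 : (0 : ℚ) < (ε.1 : ℚ) - ε.2.1 := by
        by_contra hcon
        push Not at hcon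
        have := div_nonpos_of_nonpos_of_nonneg hcon (show (0 : ℚ) ≤ (ε.2.2 : ℚ) + 1 by positivity)
        linarith
      have h3 : ε.2.1 < ε.1 := by
        have : (ε.2.1 : ℚ) < ε.1 := by linarith
        exact_mod_cast this
      have h4 : (1 : ℚ) ≤ (ε.1 : ℚ) - ε.2.1 := by
        have : (ε.2.1 : ℚ) + 1 ≤ ε.1 := by exact_mod_cast h3
        linarith
      exact div_le_div_of_nonneg_right h4 (by positivity)
    have h5 : ((1 : ℝ) / ((ε.2.2 : ℝ) + 1)) ≤ (P113.ratOf ε : ℝ) := by
      have := (Rat.cast_le (K := ℝ)).2 h1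
      push_cast at this
      exact this
    refine le_trans ?_ h5
    have h6 := half_pow_le (ε.2.2 + 1)
    rw [le_div_iff₀ (by positivity)]
    push_cast at h6
    linarith

end creal

end Vale.Agent.P113
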