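import Mathlib

/-!
# P113: deterministic one-tape Turing machines
-/

namespace Vale.Agent.P113

/-- A deterministic one-tape Turing machine with finitely many states and a finite alphabet.
States and symbols are natural numbers, the symbol `0` is the blank.  `start` is the initial
state, `halting` lists the halting states, and the entry `((q, a), (q', a', right))` of `rules`
says: in state `q` reading `a`, write `a'`, go to state `q'` and move the head one cell to the
right if `right = true` and one cell to the left if `right = false`.  The first entry for the pair
`(q, a)` applies. -/
structure Machine where
  start : ℕ
  halting : List ℕ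
  rules : List ((ℕ × ℕ) × (ℕ × ℕ × Bool))

/-- A configuration: the state, the part of the two-sided tape to the left of the head (nearest
cell first), the scanned symbol, and the part of the tape to the right of the head.  All cells
beyond the two lists are blank. -/
structure Config where
  state : ℕ
  left : List ℕ
  head : ℕ
  right : List ℕ

/-- One step: if the state is halting or no rule applies, nothing changes. -/
def Machine.step (M : Machine) (c : Config) : Config :=
  if c.state ∈ M.halting then c
  else match M.rules.find? (fun r => r.1 = (c.state, c.head)) with
    | none => c
    | some (_, (q, a, true)) => ⟨q, a :: c.left, c.right.headD 0, c.right.tail⟩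
    | some (_, (q, a, false)) => ⟨q, c.left.tail, c.left.headD 0, a :: c.right⟩

/-- The initial configuration on the word `w`: otherwise blank tape, head at the first cell. -/
def Machine.init (M : Machine) (w : List ℕ) : Config := ⟨M.start, [], w.headD 0, w.tail⟩

/-- The configuration after `n` steps on input `w`. -/
def Machine.run (M : Machine) (w : List ℕ) (n : ℕ) : Config := M.step^[n] (M.init w)

/-- `M` is in a halting state after `n` steps on input `w`. -/
def Machine.HaltsAt (M : Machine) (w : List ℕ) (n : ℕ) : Prop := (M.run w n).state ∈ M.halting

/-- `M` halts on `w`. -/
def Machine.Halts (M : Machine) (w : List ℕ) : Prop := ∃ n, M.HaltsAt w n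

/-- Machines are coded by the triples of their fields. -/
def Machine.equiv : Machine ≃ ℕ × List ℕ × List ((ℕ × ℕ) × (ℕ × ℕ × Bool)) where
  toFun M := (M.start, M.halting, M.rules)
  invFun x := ⟨x.1, x.2.1, x.2.2⟩
  left_inv _ := rfl
  right_inv _ := rfl

instance : Primcodable Machine := Primcodable.ofEquiv _ Machine.equiv

end Vale.Agent.P113
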