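import Mathlib
import Vale.Agent.P113.Machine

/-!
# P113: simulation of machines is primitive recursive
-/

namespace Vale.Agent.P113

abbrev RawM : Type := ℕ × List ℕ × List ((ℕ × ℕ) × (ℕ × ℕ × Bool))

abbrev RawC : Type := ℕ × List ℕ × ℕ × List ℕ

def rawOfM (M : Machine) : RawM := (M.start, M.halting, M.rules)

def cOfRaw (c : RawC) : Config := ⟨c.1, c.2.1, c.2.2.1, c.2.2.2⟩

def rawFind (M : RawM) (c : RawC) : Option ((ℕ × ℕ) × (ℕ × ℕ × Bool)) :=
  M.2.2[M.2.2.findIdx (fun r => decide (r.1 = (c.1, c.2.2.1)))]?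

def rawMove (c : RawC) (r : (ℕ × ℕ) × (ℕ × ℕ × Bool)) : RawC :=
  cond r.2.2.2
      (r.2.1, r.2.2.1 :: c.2.1, c.2.2.2.headI, c.2.2.2.tail)
      (r.2.1, c.2.1.tail, c.2.1.headI, r.2.2.1 :: c.2.2.2)

def rawHalt (M : RawM) (c : RawC) : Bool :=
  decide (M.2.1.findIdx (fun q => decide (q = c.1)) < M.2.1.length)

def rawStep (M : RawM) (c : RawC) : RawC :=
  cond (rawHalt M c) c (Option.casesOn (rawFind M c) c (fun r => rawMove c r))

theorem rawHalt_iff (M : RawM) (c : RawC) : rawHalt M c = true ↔ c.1 ∈ M.2.1 := by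
  unfold rawHalt
  rw [decide_eq_true_iff, List.findIdx_lt_length]
  simp

theorem headI_eq_headD (l : List ℕ) : l.headI = l.headD 0 := by
  cases l <;> rfl

theorem cOfRaw_rawStep (M : Machine) (c : RawC) :
    cOfRaw (rawStep (rawOfM M) c) = M.step (cOfRaw c) := by
  have hh := rawHalt_iff (rawOfM M) c
  by_cases h : c.1 ∈ M.halting
  · have h1 : rawHalt (rawOfM M) c = true := hh.2 h
    have h2 : (cOfRaw c).state ∈ M.halting := h
    rw [rawStep, Machine.step, h1, if_pos h2]
    rfl
  · have h1 : rawHalt (rawOfM M) c = false := by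
      rw [← Bool.not_eq_true, hh]; exact h
    have h2 : ¬ (cOfRaw c).state ∈ M.halting := h
    rw [rawStep, Machine.step, h1, if_neg h2]
    have h3 : rawFind (rawOfM M) c =
        M.rules.find? (fun r => r.1 = ((cOfRaw c).state, (cOfRaw c).head)) := by
      rw [List.find?_eq_getElem?_findIdx]; rfl
    rw [h3]
    have key : ∀ F : Option ((ℕ × ℕ) × (ℕ × ℕ × Bool)),
        cOfRaw (cond false c (Option.casesOn F c (fun r => rawMove c r))) =
        (match F with
          | none => cOfRaw c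
          | some (_, (q, a, true)) =>
            ⟨q, a :: (cOfRaw c).left, (cOfRaw c).right.headD 0, (cOfRaw c).right.tail⟩
          | some (_, (q, a, false)) =>
            ⟨q, (cOfRaw c).left.tail, (cOfRaw c).left.headD 0, a :: (cOfRaw c).right⟩) := by
      intro F
      rcases F with _ | ⟨x, q', a', b⟩
      · rfl
      · cases b
        · simp [cOfRaw, rawMove, headI_eq_headD]
        · simp [cOfRaw, rawMove, headI_eq_headD]
    exact key _

def rawInit (M : RawM) (w : List ℕ) : RawC := (M.1, [], w.headI, w.tail)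

def rawRun (M : RawM) (w : List ℕ) (n : ℕ) : RawC := (rawStep M)^[n] (rawInit M w)

theorem cOfRaw_rawRun (M : Machine) (w : List ℕ) (n : ℕ) :
    cOfRaw (rawRun (rawOfM M) w n) = M.run w n := by
  unfold rawRun Machine.run
  have h0 : cOfRaw (rawInit (rawOfM M) w) = M.init w := by
    simp [cOfRaw, rawInit, rawOfM, Machine.init, headI_eq_headD]
  induction n with
  | zero => exact h0
  | succ n ih => rw [Function.iterate_succ_apply', Function.iterate_succ_apply', cOfRaw_rawStep, ih]

/-- the boolean version of `HaltsAt` -/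
def haltsAtB (p : Machine × List ℕ) (n : ℕ) : Bool :=
  rawHalt (rawOfM p.1) (rawRun (rawOfM p.1) p.2 n)

theorem haltsAtB_iff (M : Machine) (w : List ℕ) (n : ℕ) :
    haltsAtB (M, w) n = true ↔ M.HaltsAt w n := by
  unfold haltsAtB Machine.HaltsAt
  rw [rawHalt_iff, ← cOfRaw_rawRun]
  rfl

theorem prim_rawOfM : Primrec rawOfM := Primrec.of_equiv (e := Machine.equiv)

theorem prim_rawFind : Primrec₂ rawFind := by
  have hl : Primrec fun p : RawM × RawC => p.1.2.2 :=
    Primrec.snd.comp (Primrec.snd.comp Primrec.fst)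
  have hp : Primrec₂ fun (p : RawM × RawC) (r : (ℕ × ℕ) × (ℕ × ℕ × Bool)) =>
      decide (r.1 = (p.2.1, p.2.2.2.1)) := by
    have h1 : Primrec fun x : (RawM × RawC) × ((ℕ × ℕ) × (ℕ × ℕ × Bool)) => x.2.1 :=
      Primrec.fst.comp Primrec.snd
    have h2 : Primrec fun x : (RawM × RawC) × ((ℕ × ℕ) × (ℕ × ℕ × Bool)) =>
        (x.1.2.1, x.1.2.2.2.1) :=
      (Primrec.fst.comp (Primrec.snd.comp Primrec.fst)).pair
        (Primrec.fst.comp (Primrec.snd.comp (Primrec.snd.comp (Primrec.snd.comp Primrec.fst))))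
    exact (Primrec.eq.comp h1 h2).decide
  exact Primrec.list_getElem?.comp hl (Primrec.list_findIdx hl hp)

theorem prim_rawHalt : Primrec₂ rawHalt := by
  have hl : Primrec fun p : RawM × RawC => p.1.2.1 :=
    Primrec.fst.comp (Primrec.snd.comp Primrec.fst)
  have hp : Primrec₂ fun (p : RawM × RawC) (q : ℕ) => decide (q = p.2.1) := by
    have h1 : Primrec fun x : (RawM × RawC) × ℕ => x.2 := Primrec.snd
    have h2 : Primrec fun x : (RawM × RawC) × ℕ => x.1.2.1 :=
      Primrec.fst.comp (Primrec.snd.comp Primrec.fst)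
    exact (Primrec.eq.comp h1 h2).decide
  exact (Primrec.nat_lt.comp (Primrec.list_findIdx hl hp) (Primrec.list_length.comp hl)).decide

theorem prim_rawMove : Primrec₂ rawMove := by
  have hb : Primrec fun x : RawC × ((ℕ × ℕ) × (ℕ × ℕ × Bool)) => x.2.2.2.2 :=
    Primrec.snd.comp (Primrec.snd.comp (Primrec.snd.comp Primrec.snd))
  have hq : Primrec fun x : RawC × ((ℕ × ℕ) × (ℕ × ℕ × Bool)) => x.2.2.1 :=
    Primrec.fst.comp (Primrec.snd.comp Primrec.snd)
  have ha : Primrec fun x : RawC × ((ℕ × ℕ) × (ℕ × ℕ × Bool)) => x.2.2.2.1 :=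
    Primrec.fst.comp (Primrec.snd.comp (Primrec.snd.comp Primrec.snd))
  have hl : Primrec fun x : RawC × ((ℕ × ℕ) × (ℕ × ℕ × Bool)) => x.1.2.1 :=
    Primrec.fst.comp (Primrec.snd.comp Primrec.fst)
  have hr : Primrec fun x : RawC × ((ℕ × ℕ) × (ℕ × ℕ × Bool)) => x.1.2.2.2 :=
    Primrec.snd.comp (Primrec.snd.comp (Primrec.snd.comp Primrec.fst))
  exact Primrec.cond hb
    (hq.pair ((Primrec.list_cons.comp ha hl).pair
      ((Primrec.list_headI.comp hr).pair (Primrec.list_tail.comp hr))))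
    (hq.pair ((Primrec.list_tail.comp hl).pair
      ((Primrec.list_headI.comp hl).pair (Primrec.list_cons.comp ha hr))))

theorem prim_rawStep : Primrec₂ rawStep := by
  have h1 : Primrec₂ fun (p : RawM × RawC) (r : (ℕ × ℕ) × (ℕ × ℕ × Bool)) =>
      rawMove p.2 r :=
    prim_rawMove.comp (Primrec.snd.comp Primrec.fst) Primrec.snd
  exact Primrec.cond prim_rawHalt Primrec.snd
    (Primrec.option_casesOn prim_rawFind Primrec.snd h1)

theorem prim_haltsAtB : Primrec₂ haltsAtB := by
  have hM : Primrec fun x : (Machine × List ℕ) × ℕ => rawOfM x.1.1 :=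
    prim_rawOfM.comp (Primrec.fst.comp Primrec.fst)
  have hw : Primrec fun x : (Machine × List ℕ) × ℕ => x.1.2 :=
    Primrec.snd.comp Primrec.fst
  have hinit : Primrec fun x : (Machine × List ℕ) × ℕ => rawInit (rawOfM x.1.1) x.1.2 :=
    (Primrec.fst.comp hM).pair ((Primrec.const []).pair
      ((Primrec.list_headI.comp hw).pair (Primrec.list_tail.comp hw)))
  have hrun : Primrec fun x : (Machine × List ℕ) × ℕ => rawRun (rawOfM x.1.1) x.1.2 x.2 := by
    refine Primrec.nat_iterate (f := fun x : (Machine × List ℕ) × ℕ => x.2)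
      (h := fun x c => rawStep (rawOfM x.1.1) c) Primrec.snd hinit ?_
    exact prim_rawStep.comp (hM.comp Primrec.fst) Primrec.snd
  exact prim_rawHalt.comp hM hrun

end Vale.Agent.P113
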