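import Mathlib
import Vale.Agent.P113.CompApprox

/-!
# P113: the s-m-n step
-/

namespace Vale.Agent.P113

open Encodable

/-- A computable function of two arguments yields a computable map from first arguments to
programs computing the second-argument sections. -/
theorem exists_compiler_of_computable {α β γ : Type*} [Primcodable α] [Primcodable β]
    [Primcodable γ] (F : α → β → γ) (hF : Computable₂ F) :
    ∃ comp : α → Nat.Partrec.Code, Computable comp ∧
      ∀ a b, (comp a).eval (encode b) = Part.some (encode (F a b)) := by
  have h1 : Computable fun p : α × β => F p.1 p.2 := hF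
  have h2 : Nat.Partrec fun n => Part.bind (decode (α := α × β) n) fun a =>
      ((fun p : α × β => F p.1 p.2 : α × β →. γ) a).map encode := h1
  obtain ⟨c, hc⟩ := Nat.Partrec.Code.exists_code.1 h2
  refine ⟨fun a => Nat.Partrec.Code.curry c (encode a), ?_, ?_⟩
  · exact (Nat.Partrec.Code.primrec₂_curry.comp (Primrec.const c) Primrec.encode).to_comp
  · intro a b
    rw [Nat.Partrec.Code.eval_curry, hc]
    have : Nat.pair (encode a) (encode b) = encode (a, b) := rfl
    rw [this]
    simp [encodek]

end Vale.Agent.P113
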