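import Mathlib
import Vale.Agent.P113.Smn
import Vale.Agent.P113.MachinePrim

/-!
# P113: the force compiler for the spatially constant force `c(M,w) * g(t) * e_1`
-/

namespace Vale.Agent.P113

open Encodable

/-- input of a program: multi-index `(k, l1, l2, l3)` (time, space), rational point
`(t, x1, x2, x3)`, accuracy `n`. -/
abbrev ForceQuery : Type := (ℕ × ℕ × ℕ × ℕ) × (Q3 × Q3 × Q3 × Q3) × ℕ

/-- the real number `2^{-H}` if `M` halts on `w` after exactly `H` steps and `0` otherwise -/
noncomputable def haltNumber (M : Machine) (w : List ℕ) : ℝ := haltReal (fun n => M.HaltsAt w n)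

theorem haltNumber_pos_iff (M : Machine) (w : List ℕ) : 0 < haltNumber M w ↔ M.Halts w :=
  haltReal_pos_iff _

theorem haltNumber_nonneg (M : Machine) (w : List ℕ) : 0 ≤ haltNumber M w := haltReal_nonneg _

theorem haltNumber_le_one (M : Machine) (w : List ℕ) : haltNumber M w ≤ 1 := haltReal_le_one _

/-- the answer of the program -/
def forceAnswer (p : Machine × List ℕ) (i : ForceQuery) : Q3 × Q3 × Q3 :=
  (if i.1.2 = (0, 0, 0) then forceApprox (haltsAtB p) i.1.1 i.2.1.1 i.2.2 else (0, 0, 0),
    (0, 0, 0), (0, 0, 0))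

theorem prim_forceAnswer : Primrec₂ forceAnswer := by
  have hp : Primrec fun x : (Machine × List ℕ) × ForceQuery => x.1 := Primrec.fst
  have hk : Primrec fun x : (Machine × List ℕ) × ForceQuery => x.2.1.1 :=
    Primrec.fst.comp (Primrec.fst.comp Primrec.snd)
  have hl : Primrec fun x : (Machine × List ℕ) × ForceQuery => x.2.1.2 :=
    Primrec.snd.comp (Primrec.fst.comp Primrec.snd)
  have hq : Primrec fun x : (Machine × List ℕ) × ForceQuery => x.2.2.1.1 :=
    Primrec.fst.comp (Primrec.fst.comp (Primrec.snd.comp Primrec.snd))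
  have hn : Primrec fun x : (Machine × List ℕ) × ForceQuery => x.2.2.2 :=
    Primrec.snd.comp (Primrec.snd.comp Primrec.snd)
  have hh : Primrec₂ fun (x : (Machine × List ℕ) × ForceQuery) (n : ℕ) => haltsAtB x.1 n :=
    prim_haltsAtB.comp (hp.comp Primrec.fst) Primrec.snd
  exact (Primrec.ite (Primrec.eq.comp hl (Primrec.const _))
    (prim_forceApprox hh hk hq hn) (Primrec.const _)).pair (Primrec.const _)

theorem forceAnswer_spec (M : Machine) (w : List ℕ) (i : ForceQuery) :
    |Q3.val (forceAnswer (M, w) i).1 -
      (if i.1.2 = (0, 0, 0) then haltNumber M w * prof i.1.1 (Q3.val i.2.1.1) else 0)|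
      ≤ 1 / ((i.2.2 : ℝ) + 1) ∧
    Q3.val (forceAnswer (M, w) i).2.1 = 0 ∧ Q3.val (forceAnswer (M, w) i).2.2 = 0 := by
  refine ⟨?_, val_zero, val_zero⟩
  unfold forceAnswer
  split_ifs with h
  · have := forceApprox_spec (haltsAtB (M, w)) i.1.1 i.2.1.1 i.2.2
    have e : haltReal (fun n => haltsAtB (M, w) n = true) = haltNumber M w := by
      unfold haltNumber
      congr 1
      funext n
      exact propext (haltsAtB_iff M w n)
    rw [e] at this
    exact this
  · simp only [val_zero, sub_zero, abs_zero]
    positivity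

/-- **The force compiler.**  There is a computable map sending `(M, w)` to a program which, on every
query (multi-index, rational point, accuracy), halts and outputs a rational vector approximating
the corresponding mixed derivative of `(t, x) ↦ haltNumber M w * prof 0 t * e_1`. -/
theorem exists_force_compiler :
    ∃ comp : Machine × List ℕ → Nat.Partrec.Code, Computable comp ∧
      ∀ (M : Machine) (w : List ℕ) (i : ForceQuery), ∃ out : Q3 × Q3 × Q3,
        (comp (M, w)).eval (encode i) = Part.some (encode out) ∧
        |Q3.val out.1 -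
          (if i.1.2 = (0, 0, 0) then haltNumber M w * prof i.1.1 (Q3.val i.2.1.1) else 0)|
          ≤ 1 / ((i.2.2 : ℝ) + 1) ∧
        Q3.val out.2.1 = 0 ∧ Q3.val out.2.2 = 0 := by
  obtain ⟨comp, hc, h⟩ := exists_compiler_of_computable forceAnswer prim_forceAnswer.to_comp
  exact ⟨comp, hc, fun M w i => ⟨forceAnswer (M, w) i, h (M, w) i, forceAnswer_spec M w i⟩⟩

end Vale.Agent.P113
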