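import Mathlib

/-!
# P113: definitions

Forced Navier–Stokes flows from rest on the flat torus `T³ = (ℝ/ℤ)³`, Turing machines, effective
forces and force compilers.
-/

open MeasureTheory Set
open scoped ContDiff

namespace Vale.Agent.P113

/-! ### The torus and fields on `[0,∞) × T³` -/

/-- The flat torus `T³ = (ℝ/ℤ)³`. -/
abbrev Torus : Type := Fin 3 → AddCircle (1 : ℝ)

/-- `ℝ³`, written in coordinates. -/
abbrev Vec : Type := Fin 3 → ℝ

/-- The covering map `ℝ³ → T³`. -/
def proj (x : Vec) : Torus := fun i => (x i : AddCircle (1 : ℝ))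

/-- The element `s e_j` of the group `T³`. -/
def shift (j : Fin 3) (s : ℝ) : Torus := Pi.single j (s : AddCircle (1 : ℝ))

/-- `d` is the spatial derivative `∂_j g` at the point `X` of `T³`. -/
def HasSpatialDeriv (g : Torus → ℝ) (j : Fin 3) (d : ℝ) (X : Torus) : Prop :=
  HasDerivAt (fun s : ℝ => g (X + shift j s)) d 0

/-- The function `f` on `[0,∞) × T³` is smooth (up to and including `t = 0`). -/
def IsSmooth {F : Type} [NormedAddCommGroup F] [NormedSpace ℝ F] (f : ℝ → Torus → F) : Prop :=
  ContDiffOn ℝ ∞ (fun q : ℝ × Vec => f q.1 (proj q.2)) (Ici (0 : ℝ) ×ˢ univ)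

/-- The function `g` is continuous on `[0,T] × T³`. -/
def ContOn {F : Type} [TopologicalSpace F] (T : ℝ) (g : ℝ → Torus → F) : Prop :=
  ContinuousOn (fun q : ℝ × Torus => g q.1 q.2) (Icc 0 T ×ˢ univ)

/-- `(u, p)` is a classical solution on `[0,T] × T³` of
`∂ₜu + (u·∇)u = -∇p + ν Δu + f`, `div u = 0`, `u(0,·) = 0`.
Here `ut`, `du j`, `ddu j k`, `dp j` are `∂ₜu`, `∂_j u`, `∂_k ∂_j u`, `∂_j p`; they exist at every
point of `[0,T] × T³` and are continuous on `[0,T] × T³`, and `p` has spatial mean zero. -/
def IsClassicalSolution (ν : ℝ) (f : ℝ → Torus → Vec) (T : ℝ)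
    (u : ℝ → Torus → Vec) (p : ℝ → Torus → ℝ) : Prop :=
  ∃ (ut : ℝ → Torus → Vec) (du : Fin 3 → ℝ → Torus → Vec)
    (ddu : Fin 3 → Fin 3 → ℝ → Torus → Vec) (dp : Fin 3 → ℝ → Torus → ℝ),
    ContOn T u ∧ ContOn T ut ∧ (∀ j, ContOn T (du j)) ∧ (∀ j k, ContOn T (ddu j k)) ∧
    ContOn T p ∧ (∀ j, ContOn T (dp j)) ∧
    (∀ t ∈ Icc 0 T, ∀ X,
      (∀ i, HasDerivWithinAt (fun s => u s X i) (ut t X i) (Icc 0 T) t) ∧
      (∀ i j, HasSpatialDeriv (fun Y => u t Y i) j (du j t X i) X) ∧
      (∀ i j k, HasSpatialDeriv (fun Y => du j t Y i) k (ddu j k t X i) X) ∧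
      (∀ j, HasSpatialDeriv (p t) j (dp j t X) X) ∧
      (∀ i, ut t X i + ∑ j, u t X j * du j t X i
        = -dp i t X + ν * ∑ j, ddu j j t X i + f t X i) ∧
      ∑ j, du j t X j = 0) ∧
    (∀ X, u 0 X = 0) ∧
    (∀ t ∈ Icc 0 T, ∫ X, p t X = 0)

/-- The path `t ↦ proj (Y t)` on `T³`, given by its lift `Y : [0,∞) → ℝ³`, is the trajectory of
the point `a` under the velocity field `u`. -/
def IsTrajectory (u : ℝ → Torus → Vec) (a : Torus) (Y : ℝ → Vec) : Prop :=
  proj (Y 0) = a ∧ ∀ t, 0 ≤ t → HasDerivWithinAt Y (u t (proj (Y t))) (Ici 0) t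

/-! ### Turing machines -/

/-- A deterministic one-tape Turing machine. Its alphabet is `{0, …, symbols}`, with blank `0`;
its states are `0, …, states`; some of them are halting.  In the state `q`, reading the symbol
`a`, with `next q a = (q', a', m)`, a machine that has not halted writes `a'`, changes its state
to `q'` and moves its head by `m - 1` cells (left for `m = 0`, not at all for `m = 1`, right for
`m = 2`). -/
structure Machine where
  symbols : ℕ
  states : ℕ
  start : Fin (states + 1)
  halting : Fin (states + 1) → Bool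
  next : Fin (states + 1) → Fin (symbols + 1) → Fin (states + 1) × Fin (symbols + 1) × Fin 3

/-- An input: a finite word over the alphabet of the machine. -/
abbrev Machine.Word (M : Machine) : Type := List (Fin (M.symbols + 1))

/-- A configuration: state, head position and the contents of the two-sided tape. -/
structure Config (M : Machine) where
  state : Fin (M.states + 1)
  head : ℤ
  tape : ℤ → Fin (M.symbols + 1)

/-- One step of the machine (nothing changes once a halting state is reached). -/
def Machine.step (M : Machine) (c : Config M) : Config M :=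
  if M.halting c.state = true then c
  else
    { state := (M.next c.state (c.tape c.head)).1
      head := c.head + (((M.next c.state (c.tape c.head)).2.2 : ℕ) : ℤ) - 1
      tape := Function.update c.tape c.head (M.next c.state (c.tape c.head)).2.1 }

/-- The initial configuration: the word `w` on an otherwise blank tape, head at its first cell. -/
def Machine.init (M : Machine) (w : M.Word) : Config M :=
  { state := M.start
    head := 0
    tape := fun i => if 0 ≤ i then w.getD i.toNat 0 else 0 }

/-- `M` reaches a halting state on the input `w` after finitely many steps, possibly none. -/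
def Machine.HaltsOn (M : Machine) (w : M.Word) : Prop :=
  ∃ n : ℕ, M.halting ((M.step^[n] (M.init w)).state) = true

/-- The type of finite descriptions of machines. -/
abbrev Descr : Type := ℕ × ℕ × ℕ × List ℕ × List (List (ℕ × ℕ × ℕ))

/-- The finite description of a machine: numbers of symbols and states, initial state, list of
halting flags, transition table (one row for each state, one entry for each symbol). -/
def Machine.descr (M : Machine) : Descr :=
  (M.symbols, M.states, (M.start : ℕ),
    (List.finRange (M.states + 1)).map (fun q => if M.halting q = true then 1 else 0),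
    (List.finRange (M.states + 1)).map (fun q => (List.finRange (M.symbols + 1)).map
      (fun a => (((M.next q a).1 : ℕ), ((M.next q a).2.1 : ℕ), ((M.next q a).2.2 : ℕ)))))

/-! ### Effective forces and force compilers -/

/-- The rational number `(a - b) / (d + 1)` written as the triple `(a, b, d)`. -/
def ratOf (q : ℕ × ℕ × ℕ) : ℚ := ((q.1 : ℚ) - (q.2.1 : ℚ)) / ((q.2.2 : ℚ) + 1)

/-- `x` is a computable real number: an algorithm produces rational approximations of `x` of any
prescribed accuracy. -/
def IsComputableReal (x : ℝ) : Prop :=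
  ∃ q : ℕ → ℕ × ℕ × ℕ, Computable q ∧ ∀ n, |x - (ratOf (q n) : ℝ)| ≤ (1 / 2) ^ n

/-- The mixed derivative `∂ₜ^k ∂₁^a ∂₂^b ∂₃^c f_i` of `f : [0,∞) × T³ → ℝ³` at `(t, (x, y, z))`
(one-sided in time at `t = 0`). -/
noncomputable def mixedDeriv (f : ℝ → Torus → Vec) (i : Fin 3) (k a b c : ℕ)
    (t x y z : ℝ) : ℝ :=
  iteratedDerivWithin k (fun t' => iteratedDeriv a (fun x' => iteratedDeriv b (fun y' =>
    iteratedDeriv c (fun z' => f t' (proj ![x', y', z']) i) z) y) x) (Ici 0) t

/-- The program `P` returns each mixed derivative of `f` at each rational point of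
`[0,∞) × T³` to any prescribed rational accuracy. -/
def Computes (P : Nat.Partrec.Code) (f : ℝ → Torus → Vec) : Prop :=
  ∀ (i : Fin 3) (k a b c : ℕ) (t x y z ε : ℕ × ℕ × ℕ), 0 ≤ ratOf t → 0 < ratOf ε →
    ∃ r : ℕ × ℕ × ℕ,
      Encodable.encode r ∈
        P.eval (Encodable.encode ((i : ℕ), (k, a, b, c), (t, x, y, z), ε)) ∧
      |(ratOf r : ℝ) - mixedDeriv f i k a b c (ratOf t) (ratOf x) (ratOf y) (ratOf z)|
        ≤ (ratOf ε : ℝ)

/-- A family of forces `f M w : [0,∞) × T³ → ℝ³`, one for every machine and every input. -/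
abbrev ForceFamily : Type := (M : Machine) → M.Word → ℝ → Torus → Vec

/-- `comp` is a force compiler, with forces `f M w`: it is an algorithm which halts on every pair
`(M, w)` and outputs a program for the smooth force `f M w`, and for some `T₀ ≥ 0` the restriction
of `f M w` to `t ≥ T₀` is periodic in time and depends on `M` only. -/
structure IsForceCompiler (comp : Descr × List ℕ → Nat.Partrec.Code) (f : ForceFamily) :
    Prop where
  computable : Computable comp
  smooth : ∀ M w, IsSmooth (f M w)
  effective : ∀ M (w : M.Word), Computes (comp (M.descr, w.map Fin.val)) (f M w)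
  eventually_periodic : ∃ T₀ : ℝ, 0 ≤ T₀ ∧ ∀ M, ∃ g : ℝ → Torus → Vec,
    (∃ P : ℝ, 0 < P ∧ ∀ t X, g (t + P) X = g t X) ∧
    ∀ w t X, T₀ ≤ t → f M w t X = g t X

end Vale.Agent.P113
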