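import Vale.Agent.P113.Flow

open MeasureTheory Set Filter Topology
open scoped ContDiff

namespace Vale.Agent.P113

/-- The velocity field. -/
noncomputable def vel (M : Machine) (w : M.Word) (t : ℝ) (_ : Torus) : Vec :=
  ![tau M w * Ad 0 t, 0, 0]

/-- The force. -/
noncomputable def force : ForceFamily := fun M w t _ => ![tau M w * Ad 1 t, 0, 0]

lemma smooth_aux (c : ℝ) (n : ℕ) : IsSmooth (F := Vec) (fun t _ => ![c * Ad n t, 0, 0]) := by
  unfold IsSmooth
  apply ContDiff.contDiffOn
  rw [contDiff_pi]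
  intro i
  fin_cases i
  · exact contDiff_const.mul ((Ad_contDiff n).comp contDiff_fst)
  · exact contDiff_const
  · exact contDiff_const

lemma force_smooth (M : Machine) (w : M.Word) : IsSmooth (force M w) := smooth_aux _ 1
lemma vel_smooth (M : Machine) (w : M.Word) : IsSmooth (vel M w) := smooth_aux _ 0

lemma mixedDeriv_force (M : Machine) (w : M.Word) (i : Fin 3) (k a b c : ℕ) (t x y z : ℝ)
    (ht : 0 ≤ t) : mixedDeriv (force M w) i k a b c t x y z =
      if (i : ℕ) = 0 ∧ a = 0 ∧ b = 0 ∧ c = 0 then tau M w * Ad (k + 1) t else 0 := by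
  unfold mixedDeriv
  have h0 : ∀ (n : ℕ) (r s : ℝ), iteratedDeriv n (fun _ : ℝ => r) s = if n = 0 then r else 0 :=
    fun n r s => iteratedDeriv_const
  have hz : ∀ (g : ℝ → ℝ) (a b c : ℕ) (x y z : ℝ) (t' : ℝ),
      iteratedDeriv a (fun _ : ℝ => iteratedDeriv b (fun _ : ℝ =>
        iteratedDeriv c (fun _ : ℝ => g t') z) y) x =
      if a = 0 ∧ b = 0 ∧ c = 0 then g t' else 0 := by
    intro g a b c x y z t'
    simp only [h0]
    by_cases ha : a = 0 <;> by_cases hb : b = 0 <;> by_cases hc : c = 0 <;> simp [ha, hb, hc]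
  have hu : UniqueDiffOn ℝ (Ici (0 : ℝ)) := uniqueDiffOn_Ici 0
  have hconst0 : iteratedDerivWithin k (fun _ : ℝ => (0 : ℝ)) (Ici 0) t = 0 := by
    rw [iteratedDerivWithin_const]
    split_ifs <;> rfl
  have hmain : iteratedDerivWithin k (fun t' => tau M w * Ad 1 t') (Ici 0) t =
      tau M w * Ad (k + 1) t := by
    have hsm : ContDiff ℝ ∞ (fun t' => tau M w * Ad 1 t') := contDiff_const.mul (Ad_contDiff 1)
    rw [iteratedDerivWithin_eq_iteratedDeriv hu
      (hsm.contDiffAt.of_le (by exact_mod_cast le_top)) ht, iteratedDeriv_const_mul_field,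
      Ad_iteratedDeriv, add_comm]
  fin_cases i
  · simp only [force]
    have e : ∀ t' : ℝ, iteratedDeriv a (fun _ : ℝ => iteratedDeriv b (fun _ : ℝ =>
        iteratedDeriv c (fun _ : ℝ => (![tau M w * Ad 1 t', 0, 0] : Vec) 0) z) y) x =
        if a = 0 ∧ b = 0 ∧ c = 0 then tau M w * Ad 1 t' else 0 :=
      fun t' => hz (fun t' => tau M w * Ad 1 t') a b c x y z t'
    simp only [Fin.zero_eta]
    simp only [e]
    by_cases h : a = 0 ∧ b = 0 ∧ c = 0
    · simp only [if_pos h]
      rw [hmain]
      simp [h]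
    · simp only [if_neg h]
      rw [hconst0]
      simp [h]
  · simp only [force]
    have e : ∀ t' : ℝ, iteratedDeriv a (fun _ : ℝ => iteratedDeriv b (fun _ : ℝ =>
        iteratedDeriv c (fun _ : ℝ => (![tau M w * Ad 1 t', 0, 0] : Vec) 1) z) y) x = 0 := by
      intro t'
      have := hz (fun _ => 0) a b c x y z t'
      simp only [ite_self] at this
      exact this
    simp only [Fin.mk_one]
    simp only [e]
    rw [hconst0]
    simp
  · simp only [force]
    have e : ∀ t' : ℝ, iteratedDeriv a (fun _ : ℝ => iteratedDeriv b (fun _ : ℝ =>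
        iteratedDeriv c (fun _ : ℝ => (![tau M w * Ad 1 t', 0, 0] : Vec) 2) z) y) x = 0 := by
      intro t'
      have := hz (fun _ => 0) a b c x y z t'
      simp only [ite_self] at this
      exact this
    simp only [Fin.reduceFinMk]
    simp only [e]
    rw [hconst0]
    simp

/-- The value of the mixed derivatives, as a function of the finite data. -/
noncomputable def Hval (x : (Descr × List ℕ) × Inp') : ℝ :=
  if (x.2.1 = 0 ∧ x.2.2.1.2.1 = 0 ∧ x.2.2.1.2.2.1 = 0 ∧ x.2.2.1.2.2.2 = 0) then
    theta x.1 * Ad (x.2.2.1.1 + 1) (ratOf x.2.2.2.1) else 0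

lemma Hval_creal : CReal Hval := by
  unfold Hval
  have hin : Computable fun x : (Descr × List ℕ) × Inp' => x.2 := Computable.snd
  have h1 : Computable fun x : (Descr × List ℕ) × Inp' => x.2.1 := Computable.fst.comp hin
  have hm : Computable fun x : (Descr × List ℕ) × Inp' => x.2.2.1 :=
    Computable.fst.comp (Computable.snd.comp hin)
  have hk : Computable fun x : (Descr × List ℕ) × Inp' => x.2.2.1.1 := Computable.fst.comp hm
  have ha : Computable fun x : (Descr × List ℕ) × Inp' => x.2.2.1.2.1 :=
    Computable.fst.comp (Computable.snd.comp hm)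
  have hb : Computable fun x : (Descr × List ℕ) × Inp' => x.2.2.1.2.2.1 :=
    Computable.fst.comp (Computable.snd.comp (Computable.snd.comp hm))
  have hc : Computable fun x : (Descr × List ℕ) × Inp' => x.2.2.1.2.2.2 :=
    Computable.snd.comp (Computable.snd.comp (Computable.snd.comp hm))
  have hp : Computable fun x : (Descr × List ℕ) × Inp' => x.2.2.2 :=
    Computable.snd.comp (Computable.snd.comp hin)
  have ht : Computable fun x : (Descr × List ℕ) × Inp' => x.2.2.2.1 := Computable.fst.comp hp
  have hdec : Computable fun x : (Descr × List ℕ) × Inp' =>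
      decide (x.2.1 = 0 ∧ x.2.2.1.2.1 = 0 ∧ x.2.2.1.2.2.1 = 0 ∧ x.2.2.1.2.2.2 = 0) := by
    have e : (fun x : (Descr × List ℕ) × Inp' =>
        decide (x.2.1 = 0 ∧ x.2.2.1.2.1 = 0 ∧ x.2.2.1.2.2.1 = 0 ∧ x.2.2.1.2.2.2 = 0)) =
        fun x => decide (x.2.1 + x.2.2.1.2.1 + x.2.2.1.2.2.1 + x.2.2.1.2.2.2 = 0) := by
      funext x
      rw [decide_eq_decide]
      omega
    rw [e]
    have hz : Computable fun n : ℕ => decide (n = 0) :=
      ((Primrec.eq.comp Primrec.id (Primrec.const 0)).decide).to_comp
    exact hz.comp (computable_nat_add (computable_nat_add (computable_nat_add h1 ha) hb) hc)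
  exact CReal.ite hdec ((theta_creal.comp Computable.fst).mul
    (Ad_creal (Computable.succ.comp hk) (CRat.ratOf ht))) (CReal.ofRat (CRat.const 0)
      |>.congr fun _ => by simp)

lemma force_compiler : ∃ comp : Descr × List ℕ → Nat.Partrec.Code, IsForceCompiler comp force := by
  obtain ⟨comp, h1, h2⟩ := exists_compiler (f := force) Hval_creal (by
    intro M w i k a b c t x y z ht
    rw [mixedDeriv_force M w i k a b c _ _ _ _ (by exact_mod_cast ht)]
    rfl)
  refine ⟨comp, h1, force_smooth, h2, 1, zero_le_one, fun M => ⟨fun _ _ => 0,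
    ⟨1, one_pos, fun _ _ => rfl⟩, fun w t X ht => ?_⟩⟩
  simp only [force]
  rw [Ad_of_one_le 1 ht, mul_zero]
  funext i
  fin_cases i <;> rfl

lemma shift_const_deriv (r : ℝ) (j : Fin 3) (X : Torus) :
    HasSpatialDeriv (fun _ => r) j 0 X := hasDerivAt_const _ _

/-- The velocity field is a classical solution, with zero pressure, for every viscosity. -/
lemma vel_classical (ν : ℝ) (M : Machine) (w : M.Word) (T : ℝ) :
    IsClassicalSolution ν (force M w) T (vel M w) (fun _ _ => 0) := by
  refine ⟨fun t _ => ![tau M w * Ad 1 t, 0, 0], fun _ _ _ => 0, fun _ _ _ _ => 0, fun _ _ _ => 0,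
    ?_, ?_, ?_, ?_, ?_, ?_, ?_, ?_, ?_⟩
  · unfold ContOn vel
    refine Continuous.continuousOn (continuous_pi fun i => ?_)
    fin_cases i
    · exact continuous_const.mul ((Ad_differentiable 0).continuous.comp continuous_fst)
    · exact continuous_const
    · exact continuous_const
  · unfold ContOn
    refine Continuous.continuousOn (continuous_pi fun i => ?_)
    fin_cases i
    · exact continuous_const.mul ((Ad_differentiable 1).continuous.comp continuous_fst)
    · exact continuous_const
    · exact continuous_const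
  · exact fun _ => continuousOn_const
  · exact fun _ _ => continuousOn_const
  · exact continuousOn_const
  · exact fun _ => continuousOn_const
  · intro t ht X
    refine ⟨fun i => ?_, fun i j => ?_, fun i j k => ?_, fun j => ?_, fun i => ?_, ?_⟩
    · fin_cases i
      · exact ((Ad_hasDerivAt 0 t).const_mul (tau M w)).hasDerivWithinAt
      · exact hasDerivWithinAt_const _ _ _
      · exact hasDerivWithinAt_const _ _ _
    · exact shift_const_deriv _ j X
    · exact shift_const_deriv _ k X
    · exact shift_const_deriv _ j X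
    · simp [force]
    · simp
  · intro X
    funext i
    fin_cases i <;> simp [vel, Ad_zero_zero]
  · intro t _
    simp

/-- The primitive of the time profile. -/
noncomputable def disp (t : ℝ) : ℝ := ∫ s in (0 : ℝ)..t, Ad 0 s

lemma disp_hasDerivAt (t : ℝ) : HasDerivAt disp (Ad 0 t) t :=
  intervalIntegral.integral_hasDerivAt_right
    ((Ad_differentiable 0).continuous.intervalIntegrable _ _)
    ((Ad_differentiable 0).continuous.stronglyMeasurableAtFilter _ _)
    (Ad_differentiable 0).continuous.continuousAt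

lemma disp_zero : disp 0 = 0 := by simp [disp]

lemma Ad_zero_nonneg {t : ℝ} (h0 : 0 ≤ t) : 0 ≤ Ad 0 t := by
  rcases lt_or_ge t 1 with h | h
  · rw [Ad_zero_eq h]
    positivity
  · rw [Ad_of_one_le 0 h]

lemma Ad_zero_le {t : ℝ} (h0 : 0 ≤ t) : Ad 0 t ≤ 1 := by
  rcases lt_or_ge t 1 with h | h
  · rw [Ad_zero_eq h]
    have h1 : Real.exp (-(1 - t)⁻¹) ≤ 1 := by
      rw [Real.exp_le_one_iff]
      have : 0 < (1 - t)⁻¹ := inv_pos.2 (by linarith)
      linarith
    have h2 := Real.exp_pos (-(1 - t)⁻¹)
    nlinarith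
  · rw [Ad_of_one_le 0 h]
    norm_num

lemma disp_one_pos : 0 < disp 1 := by
  unfold disp
  refine intervalIntegral.intervalIntegral_pos_of_pos_on
    ((Ad_differentiable 0).continuous.intervalIntegrable _ _) (fun x hx => ?_) one_pos
  rw [Ad_zero_eq hx.2]
  have := hx.1
  positivity

lemma disp_one_le : disp 1 ≤ 1 := by
  unfold disp
  have : ∫ s in (0 : ℝ)..1, Ad 0 s ≤ ∫ _ in (0 : ℝ)..1, (1 : ℝ) := by
    refine intervalIntegral.integral_mono_on zero_le_one
      ((Ad_differentiable 0).continuous.intervalIntegrable _ _)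
      (continuous_const.intervalIntegrable _ _) fun x hx => Ad_zero_le hx.1
  simpa using this

lemma vel_trajectory (M : Machine) (w : M.Word) :
    IsTrajectory (vel M w) 0 (fun t => ![tau M w * disp t, 0, 0]) := by
  refine ⟨?_, fun t _ => ?_⟩
  · funext i
    fin_cases i <;> simp [proj, disp_zero]
  · apply HasDerivAt.hasDerivWithinAt
    rw [hasDerivAt_pi]
    intro i
    fin_cases i
    · exact (disp_hasDerivAt t).const_mul (tau M w)
    · exact hasDerivAt_const _ _
    · exact hasDerivAt_const _ _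

/-- All trajectories of the point `0` have the same displacement. -/
lemma trajectory_eq {M : Machine} {w : M.Word} {Y : ℝ → Vec} (hY : IsTrajectory (vel M w) 0 Y)
    {t : ℝ} (ht : 0 ≤ t) (i : Fin 3) :
    Y t i = Y 0 i + (![tau M w * disp t, 0, 0] : Vec) i := by
  have h1 := (vel_trajectory M w).2
  have key : ∀ x ∈ Icc 0 t, (Y x i - (![tau M w * disp x, 0, 0] : Vec) i) =
      (Y 0 i - (![tau M w * disp 0, 0, 0] : Vec) i) := by
    have hd : ∀ x ∈ Icc 0 t, HasDerivWithinAt
        (fun x => Y x i - (![tau M w * disp x, 0, 0] : Vec) i) 0 (Icc 0 t) x := by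
      intro x hx
      have h2 := (hasDerivWithinAt_pi.1 (hY.2 x hx.1)) i
      have h3 := (hasDerivWithinAt_pi.1 (h1 x hx.1)) i
      have h4 := h2.sub h3
      have h5 : vel M w x (proj (Y x)) i - vel M w x (proj ![tau M w * disp x, 0, 0]) i = 0 := by
        simp [vel]
      rw [h5] at h4
      exact h4.mono Icc_subset_Ici_self
    rcases eq_or_lt_of_le ht with rfl | ht'
    · intro x hx
      have : x = 0 := le_antisymm hx.2 hx.1
      rw [this]
    · exact constant_of_derivWithin_zero (fun x hx => (hd x hx).differentiableWithinAt)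
        (fun x hx => (hd x (Ico_subset_Icc_self hx)).derivWithin
          (uniqueDiffOn_Icc ht' x (Ico_subset_Icc_self hx)))
  have h6 := key t ⟨ht, le_refl t⟩
  have h7 : (![tau M w * disp 0, 0, 0] : Vec) i = 0 := by
    fin_cases i <;> simp [disp_zero]
  rw [h7] at h6
  linarith

lemma trajectory_iff (M : Machine) (w : M.Word) (Y : ℝ → Vec) (hY : IsTrajectory (vel M w) 0 Y) :
    (∃ t, 0 ≤ t ∧ proj (Y t) ∈ ({0}ᶜ : Set Torus)) ↔ M.HaltsOn w := by
  rw [← tau_pos_iff]
  constructor
  · rintro ⟨t, ht, hO⟩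
    rcases eq_or_lt_of_le (tau_nonneg M w) with h | h
    · exfalso
      apply hO
      have hY0 := hY.1
      rw [mem_singleton_iff, ← hY0]
      funext i
      have h1 := trajectory_eq hY ht i
      rw [← h] at h1
      have h2 : (![0 * disp t, 0, 0] : Vec) i = 0 := by
        fin_cases i <;> simp
      rw [h2, add_zero] at h1
      simp only [proj, h1]
    · exact h
  · intro h
    refine ⟨1, zero_le_one, fun hcon => ?_⟩
    rw [mem_singleton_iff] at hcon
    have h1 := congrFun hcon 0
    have h0 := congrFun hY.1 0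
    simp only [proj, Pi.zero_apply] at h1 h0
    rw [trajectory_eq hY zero_le_one 0] at h1
    simp only [Matrix.cons_val_zero] at h1
    rw [AddCircle.coe_add, h0, zero_add, AddCircle.coe_eq_zero_iff] at h1
    obtain ⟨n, hn⟩ := h1
    have hpos : 0 < tau M w * disp 1 := mul_pos h disp_one_pos
    have hlt : tau M w * disp 1 < 1 := by
      have h2 := tau_le M w
      have h3 := disp_one_le
      have h4 := disp_one_pos
      nlinarith
    rw [← hn] at hpos hlt
    simp only [zsmul_eq_mul, mul_one] at hpos hlt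
    have h5 : (0 : ℤ) < n := by exact_mod_cast hpos
    have h6 : n < (1 : ℤ) := by exact_mod_cast hlt
    omega

theorem exists_compiler_main :
    ∀ ν : ℝ, 0 < ν → IsComputableReal ν →
      ∃ (a : Torus) (O : Set Torus) (comp : Descr × List ℕ → Nat.Partrec.Code) (f : ForceFamily),
        IsOpen O ∧ IsForceCompiler comp f ∧
        ∀ (M : Machine) (w : M.Word), ∃ (u : ℝ → Torus → Vec) (p : ℝ → Torus → ℝ),
          IsSmooth u ∧ IsSmooth p ∧
          (∀ T : ℝ, 0 < T → IsClassicalSolution ν (f M w) T u p ∧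
            ∀ v q, IsClassicalSolution ν (f M w) T v q →
              ∀ t ∈ Icc 0 T, ∀ X, v t X = u t X ∧ q t X = p t X) ∧
          (∃ Y, IsTrajectory u a Y) ∧
          ∀ Y, IsTrajectory u a Y → ((∃ t, 0 ≤ t ∧ proj (Y t) ∈ O) ↔ M.HaltsOn w) := by
  intro ν hν _
  obtain ⟨comp, hcomp⟩ := force_compiler
  refine ⟨0, {0}ᶜ, comp, force, isOpen_compl_singleton, hcomp, fun M w =>
    ⟨vel M w, fun _ _ => 0, vel_smooth M w, contDiffOn_const, fun T hT =>
      ⟨vel_classical ν M w T, fun v q hv => classical_unique hν.le hT hv (vel_classical ν M w T)⟩,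
      ⟨_, vel_trajectory M w⟩, trajectory_iff M w⟩⟩

end Vale.Agent.P113
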