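import Vale.Agent.P113.Drift

open MeasureTheory Set Filter Topology
open scoped ContDiff

namespace Vale.Agent.P113

/-! ### A variant with an open set at positive distance from the starting point -/

/-- The velocity field of the variant. -/
noncomputable def vel2 (M : Machine) (w : M.Word) (t : ℝ) (_ : Torus) : Vec :=
  ![tau M w * disp t, 0, 0]

/-- The force of the variant. -/
noncomputable def force2 : ForceFamily := fun M w t _ => ![tau M w * Ad 0 t, 0, 0]

lemma disp_contDiff : ContDiff ℝ ∞ disp := by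
  rw [contDiff_infty_iff_deriv]
  refine ⟨fun t => (disp_hasDerivAt t).differentiableAt, ?_⟩
  have : deriv disp = Ad 0 := funext fun t => (disp_hasDerivAt t).deriv
  rw [this]
  exact Ad_contDiff 0

lemma force2_smooth (M : Machine) (w : M.Word) : IsSmooth (force2 M w) := smooth_aux _ 0

lemma vel2_smooth (M : Machine) (w : M.Word) : IsSmooth (vel2 M w) := by
  unfold IsSmooth
  apply ContDiff.contDiffOn
  rw [contDiff_pi]
  intro i
  fin_cases i
  · exact contDiff_const.mul (disp_contDiff.comp contDiff_fst)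
  · exact contDiff_const
  · exact contDiff_const

lemma mixedDeriv_force2 (M : Machine) (w : M.Word) (i : Fin 3) (k a b c : ℕ) (t x y z : ℝ)
    (ht : 0 ≤ t) : mixedDeriv (force2 M w) i k a b c t x y z =
      if (i : ℕ) = 0 ∧ a = 0 ∧ b = 0 ∧ c = 0 then tau M w * Ad k t else 0 := by
  unfold mixedDeriv
  have h0 : ∀ (n : ℕ) (r s : ℝ), iteratedDeriv n (fun _ : ℝ => r) s = if n = 0 then r else 0 :=
    fun n r s => iteratedDeriv_const
  have hz : ∀ (g : ℝ → ℝ) (a b c : ℕ) (x y z : ℝ) (t' : ℝ),
      iteratedDeriv a (fun _ : ℝ => iteratedDeriv b (fun _ : ℝ =>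
        iteratedDeriv c (fun _ : ℝ => g t') z) y) x =
      if a = 0 ∧ b = 0 ∧ c = 0 then g t' else 0 := by
    intro g a b c x y z t'
    simp only [h0]
    by_cases ha : a = 0 <;> by_cases hb : b = 0 <;> by_cases hc : c = 0 <;> simp [ha, hb, hc]
  have hu : UniqueDiffOn ℝ (Ici (0 : ℝ)) := uniqueDiffOn_Ici 0
  have hconst0 : iteratedDerivWithin k (fun _ : ℝ => (0 : ℝ)) (Ici 0) t = 0 := by
    rw [iteratedDerivWithin_const]
    split_ifs <;> rfl
  have hmain : iteratedDerivWithin k (fun t' => tau M w * Ad 0 t') (Ici 0) t =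
      tau M w * Ad k t := by
    have hsm : ContDiff ℝ ∞ (fun t' => tau M w * Ad 0 t') := contDiff_const.mul (Ad_contDiff 0)
    rw [iteratedDerivWithin_eq_iteratedDeriv hu
      (hsm.contDiffAt.of_le (by exact_mod_cast le_top)) ht, iteratedDeriv_const_mul_field,
      Ad_iteratedDeriv, zero_add]
  fin_cases i
  · simp only [force2]
    have e : ∀ t' : ℝ, iteratedDeriv a (fun _ : ℝ => iteratedDeriv b (fun _ : ℝ =>
        iteratedDeriv c (fun _ : ℝ => (![tau M w * Ad 0 t', 0, 0] : Vec) 0) z) y) x =
        if a = 0 ∧ b = 0 ∧ c = 0 then tau M w * Ad 0 t' else 0 :=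
      fun t' => hz (fun t' => tau M w * Ad 0 t') a b c x y z t'
    simp only [Fin.zero_eta]
    simp only [e]
    by_cases h : a = 0 ∧ b = 0 ∧ c = 0
    · simp only [if_pos h]
      rw [hmain]
      simp [h]
    · simp only [if_neg h]
      rw [hconst0]
      simp [h]
  · simp only [force2]
    have e : ∀ t' : ℝ, iteratedDeriv a (fun _ : ℝ => iteratedDeriv b (fun _ : ℝ =>
        iteratedDeriv c (fun _ : ℝ => (![tau M w * Ad 0 t', 0, 0] : Vec) 1) z) y) x = 0 := by
      intro t'
      have := hz (fun _ => 0) a b c x y z t'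
      simp only [ite_self] at this
      exact this
    simp only [Fin.mk_one]
    simp only [e]
    rw [hconst0]
    simp
  · simp only [force2]
    have e : ∀ t' : ℝ, iteratedDeriv a (fun _ : ℝ => iteratedDeriv b (fun _ : ℝ =>
        iteratedDeriv c (fun _ : ℝ => (![tau M w * Ad 0 t', 0, 0] : Vec) 2) z) y) x = 0 := by
      intro t'
      have := hz (fun _ => 0) a b c x y z t'
      simp only [ite_self] at this
      exact this
    simp only [Fin.reduceFinMk]
    simp only [e]
    rw [hconst0]
    simp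

/-- The value of the mixed derivatives, as a function of the finite data. -/
noncomputable def Hval2 (x : (Descr × List ℕ) × Inp') : ℝ :=
  if (x.2.1 = 0 ∧ x.2.2.1.2.1 = 0 ∧ x.2.2.1.2.2.1 = 0 ∧ x.2.2.1.2.2.2 = 0) then
    theta x.1 * Ad x.2.2.1.1 (ratOf x.2.2.2.1) else 0

lemma Hval2_creal : CReal Hval2 := by
  unfold Hval2
  have hin : Computable fun x : (Descr × List ℕ) × Inp' => x.2 := Computable.snd
  have h1 : Computable fun x : (Descr × List ℕ) × Inp' => x.2.1 := Computable.fst.comp hin
  have hm : Computable fun x : (Descr × List ℕ) × Inp' => x.2.2.1 :=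
    Computable.fst.comp (Computable.snd.comp hin)
  have hk : Computable fun x : (Descr × List ℕ) × Inp' => x.2.2.1.1 := Computable.fst.comp hm
  have ha : Computable fun x : (Descr × List ℕ) × Inp' => x.2.2.1.2.1 :=
    Computable.fst.comp (Computable.snd.comp hm)
  have hb : Computable fun x : (Descr × List ℕ) × Inp' => x.2.2.1.2.2.1 :=
    Computable.fst.comp (Computable.snd.comp (Computable.snd.comp hm))
  have hc : Computable fun x : (Descr × List ℕ) × Inp' => x.2.2.1.2.2.2 :=
    Computable.snd.comp (Computable.snd.comp (Computable.snd.comp hm))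
  have hp : Computable fun x : (Descr × List ℕ) × Inp' => x.2.2.2 :=
    Computable.snd.comp (Computable.snd.comp hin)
  have ht : Computable fun x : (Descr × List ℕ) × Inp' => x.2.2.2.1 := Computable.fst.comp hp
  have hdec : Computable fun x : (Descr × List ℕ) × Inp' =>
      decide (x.2.1 = 0 ∧ x.2.2.1.2.1 = 0 ∧ x.2.2.1.2.2.1 = 0 ∧ x.2.2.1.2.2.2 = 0) := by
    have e : (fun x : (Descr × List ℕ) × Inp' =>
        decide (x.2.1 = 0 ∧ x.2.2.1.2.1 = 0 ∧ x.2.2.1.2.2.1 = 0 ∧ x.2.2.1.2.2.2 = 0)) =
        fun x => decide (x.2.1 + x.2.2.1.2.1 + x.2.2.1.2.2.1 + x.2.2.1.2.2.2 = 0) := by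
      funext x
      rw [decide_eq_decide]
      omega
    rw [e]
    have hz : Computable fun n : ℕ => decide (n = 0) :=
      ((Primrec.eq.comp Primrec.id (Primrec.const 0)).decide).to_comp
    exact hz.comp (computable_nat_add (computable_nat_add (computable_nat_add h1 ha) hb) hc)
  exact CReal.ite hdec ((theta_creal.comp Computable.fst).mul
    (Ad_creal hk (CRat.ratOf ht))) (CReal.ofRat (CRat.const 0)
      |>.congr fun _ => by simp)

lemma force2_compiler :
    ∃ comp : Descr × List ℕ → Nat.Partrec.Code, IsForceCompiler comp force2 := by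
  obtain ⟨comp, h1, h2⟩ := exists_compiler (f := force2) Hval2_creal (by
    intro M w i k a b c t x y z ht
    rw [mixedDeriv_force2 M w i k a b c _ _ _ _ (by exact_mod_cast ht)]
    rfl)
  refine ⟨comp, h1, force2_smooth, h2, 1, zero_le_one, fun M => ⟨fun _ _ => 0,
    ⟨1, one_pos, fun _ _ => rfl⟩, fun w t X ht => ?_⟩⟩
  simp only [force2]
  rw [Ad_of_one_le 0 ht, mul_zero]
  funext i
  fin_cases i <;> rfl

lemma vel2_classical (ν : ℝ) (M : Machine) (w : M.Word) (T : ℝ) :
    IsClassicalSolution ν (force2 M w) T (vel2 M w) (fun _ _ => 0) := by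
  refine ⟨fun t _ => ![tau M w * Ad 0 t, 0, 0], fun _ _ _ => 0, fun _ _ _ _ => 0, fun _ _ _ => 0,
    ?_, ?_, ?_, ?_, ?_, ?_, ?_, ?_, ?_⟩
  · unfold ContOn vel2
    refine Continuous.continuousOn (continuous_pi fun i => ?_)
    fin_cases i
    · exact continuous_const.mul (disp_contDiff.continuous.comp continuous_fst)
    · exact continuous_const
    · exact continuous_const
  · unfold ContOn
    refine Continuous.continuousOn (continuous_pi fun i => ?_)
    fin_cases i
    · exact continuous_const.mul ((Ad_differentiable 0).continuous.comp continuous_fst)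
    · exact continuous_const
    · exact continuous_const
  · exact fun _ => continuousOn_const
  · exact fun _ _ => continuousOn_const
  · exact continuousOn_const
  · exact fun _ => continuousOn_const
  · intro t ht X
    refine ⟨fun i => ?_, fun i j => ?_, fun i j k => ?_, fun j => ?_, fun i => ?_, ?_⟩
    · fin_cases i
      · exact ((disp_hasDerivAt t).const_mul (tau M w)).hasDerivWithinAt
      · exact hasDerivWithinAt_const _ _ _
      · exact hasDerivWithinAt_const _ _ _
    · exact shift_const_deriv _ j X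
    · exact shift_const_deriv _ k X
    · exact shift_const_deriv _ j X
    · simp [force2]
    · simp
  · intro X
    funext i
    fin_cases i <;> simp [vel2, disp_zero]
  · intro t _
    simp

/-- The primitive of `disp`. -/
noncomputable def disp2 (t : ℝ) : ℝ := ∫ s in (0 : ℝ)..t, disp s

lemma disp2_hasDerivAt (t : ℝ) : HasDerivAt disp2 (disp t) t :=
  intervalIntegral.integral_hasDerivAt_right
    (disp_contDiff.continuous.intervalIntegrable _ _)
    (disp_contDiff.continuous.stronglyMeasurableAtFilter _ _)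
    disp_contDiff.continuous.continuousAt

lemma disp2_zero : disp2 0 = 0 := by simp [disp2]

lemma disp_const {t : ℝ} (ht : 1 ≤ t) : disp t = disp 1 := by
  unfold disp
  rw [← intervalIntegral.integral_add_adjacent_intervals (b := 1)
    ((Ad_differentiable 0).continuous.intervalIntegrable _ _)
    ((Ad_differentiable 0).continuous.intervalIntegrable _ _)]
  have : ∫ s in (1 : ℝ)..t, Ad 0 s = 0 := by
    rw [intervalIntegral.integral_congr (g := fun _ => (0 : ℝ))]
    · simp
    · intro s hs
      rw [uIcc_of_le ht] at hs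
      exact Ad_of_one_le 0 hs.1
  rw [this, add_zero]

lemma disp_nonneg {t : ℝ} (ht : 0 ≤ t) : 0 ≤ disp t := by
  unfold disp
  exact intervalIntegral.integral_nonneg ht fun s hs => Ad_zero_nonneg hs.1

lemma disp_le {t : ℝ} (h0 : 0 ≤ t) (h1 : t ≤ 1) : disp t ≤ 1 := by
  unfold disp
  have : ∫ s in (0 : ℝ)..t, Ad 0 s ≤ ∫ _ in (0 : ℝ)..t, (1 : ℝ) := by
    refine intervalIntegral.integral_mono_on h0
      ((Ad_differentiable 0).continuous.intervalIntegrable _ _)
      (continuous_const.intervalIntegrable _ _) fun x hx => Ad_zero_le hx.1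
  refine this.trans ?_
  simpa using h1

lemma disp2_one_le : disp2 1 ≤ 1 := by
  unfold disp2
  have : ∫ s in (0 : ℝ)..1, disp s ≤ ∫ _ in (0 : ℝ)..1, (1 : ℝ) := by
    refine intervalIntegral.integral_mono_on zero_le_one
      (disp_contDiff.continuous.intervalIntegrable _ _)
      (continuous_const.intervalIntegrable _ _) fun x hx => disp_le hx.1 hx.2
  simpa using this

lemma disp2_eq {t : ℝ} (ht : 1 ≤ t) : disp2 t = disp2 1 + (t - 1) * disp 1 := by
  unfold disp2
  rw [← intervalIntegral.integral_add_adjacent_intervals (b := 1)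
    (disp_contDiff.continuous.intervalIntegrable _ _)
    (disp_contDiff.continuous.intervalIntegrable _ _)]
  have : ∫ s in (1 : ℝ)..t, disp s = (t - 1) * disp 1 := by
    rw [intervalIntegral.integral_congr (g := fun _ => disp 1)]
    · simp
    · intro s hs
      rw [uIcc_of_le ht] at hs
      exact disp_const hs.1
  rw [this]

lemma vel2_trajectory (M : Machine) (w : M.Word) :
    IsTrajectory (vel2 M w) 0 (fun t => ![tau M w * disp2 t, 0, 0]) := by
  refine ⟨?_, fun t _ => ?_⟩
  · funext i
    fin_cases i <;> simp [proj, disp2_zero]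
  · apply HasDerivAt.hasDerivWithinAt
    rw [hasDerivAt_pi]
    intro i
    fin_cases i
    · exact (disp2_hasDerivAt t).const_mul (tau M w)
    · exact hasDerivAt_const _ _
    · exact hasDerivAt_const _ _

lemma trajectory2_eq {M : Machine} {w : M.Word} {Y : ℝ → Vec} (hY : IsTrajectory (vel2 M w) 0 Y)
    {t : ℝ} (ht : 0 ≤ t) (i : Fin 3) :
    Y t i = Y 0 i + (![tau M w * disp2 t, 0, 0] : Vec) i := by
  have h1 := (vel2_trajectory M w).2
  have key : ∀ x ∈ Icc 0 t, (Y x i - (![tau M w * disp2 x, 0, 0] : Vec) i) =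
      (Y 0 i - (![tau M w * disp2 0, 0, 0] : Vec) i) := by
    have hd : ∀ x ∈ Icc 0 t, HasDerivWithinAt
        (fun x => Y x i - (![tau M w * disp2 x, 0, 0] : Vec) i) 0 (Icc 0 t) x := by
      intro x hx
      have h2 := (hasDerivWithinAt_pi.1 (hY.2 x hx.1)) i
      have h3 := (hasDerivWithinAt_pi.1 (h1 x hx.1)) i
      have h4 := h2.sub h3
      have h5 : vel2 M w x (proj (Y x)) i - vel2 M w x (proj ![tau M w * disp2 x, 0, 0]) i = 0 := by
        simp [vel2]
      rw [h5] at h4
      exact h4.mono Icc_subset_Ici_self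
    rcases eq_or_lt_of_le ht with rfl | ht'
    · intro x hx
      have : x = 0 := le_antisymm hx.2 hx.1
      rw [this]
    · exact constant_of_derivWithin_zero (fun x hx => (hd x hx).differentiableWithinAt)
        (fun x hx => (hd x (Ico_subset_Icc_self hx)).derivWithin
          (uniqueDiffOn_Icc ht' x (Ico_subset_Icc_self hx)))
  have h6 := key t ⟨ht, le_refl t⟩
  have h7 : (![tau M w * disp2 0, 0, 0] : Vec) i = 0 := by
    fin_cases i <;> simp [disp2_zero]
  rw [h7] at h6
  linarith

/-- The open set of the variant. -/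
def farSet : Set Torus :=
  {X | X 0 ∈ (fun r : ℝ => (r : AddCircle (1 : ℝ))) '' Ioo (1 / 4) (3 / 4)}

lemma mem_farSet (X : Torus) : X ∈ farSet ↔
    X 0 ∈ (fun r : ℝ => (r : AddCircle (1 : ℝ))) '' Ioo (1 / 4) (3 / 4) := Iff.rfl

lemma farSet_isOpen : IsOpen farSet := by
  have h : IsOpen ((fun r : ℝ => (r : AddCircle (1 : ℝ))) '' Ioo (1 / 4) (3 / 4)) :=
    QuotientAddGroup.isOpenMap_coe _ isOpen_Ioo
  exact h.preimage (continuous_apply 0)

lemma zero_notMem_image {s : Set ℝ} (hs : s ⊆ Icc (1 / 4) (3 / 4)) :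
    (0 : AddCircle (1 : ℝ)) ∉ (fun r : ℝ => (r : AddCircle (1 : ℝ))) '' s := by
  rintro ⟨r, hr, h⟩
  have hr' := hs hr
  simp only at h
  rw [AddCircle.coe_eq_zero_iff] at h
  obtain ⟨n, hn⟩ := h
  simp only [zsmul_eq_mul, mul_one] at hn
  rw [← hn] at hr'
  have h1 : (0 : ℝ) < n := lt_of_lt_of_le (by norm_num) hr'.1
  have h2 : (n : ℝ) < 1 := lt_of_le_of_lt hr'.2 (by norm_num)
  have h3 : (0 : ℤ) < n := by exact_mod_cast h1
  have h4 : n < (1 : ℤ) := by exact_mod_cast h2
  omega

lemma zero_notMem_closure_farSet : (0 : Torus) ∉ closure farSet := by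
  intro h
  have hcl : IsClosed {X : Torus | X 0 ∈ (fun r : ℝ => (r : AddCircle (1 : ℝ))) ''
      Icc (1 / 4) (3 / 4)} := by
    refine IsClosed.preimage (continuous_apply 0) ?_
    exact (isCompact_Icc.image (AddCircle.continuous_mk' 1)).isClosed
  have hsub : farSet ⊆ {X : Torus | X 0 ∈ (fun r : ℝ => (r : AddCircle (1 : ℝ))) ''
      Icc (1 / 4) (3 / 4)} := fun X hX => image_mono Ioo_subset_Icc_self hX
  exact zero_notMem_image (subset_refl _) (hcl.closure_subset_iff.2 hsub h)

lemma trajectory2_iff (M : Machine) (w : M.Word) (Y : ℝ → Vec)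
    (hY : IsTrajectory (vel2 M w) 0 Y) :
    (∃ t, 0 ≤ t ∧ proj (Y t) ∈ farSet) ↔ M.HaltsOn w := by
  rw [← tau_pos_iff]
  have h0 : ((Y 0 0 : ℝ) : AddCircle (1 : ℝ)) = 0 := congrFun hY.1 0
  constructor
  · rintro ⟨t, ht, hO⟩
    rcases eq_or_lt_of_le (tau_nonneg M w) with h | h
    · exfalso
      have h1 := trajectory2_eq hY ht 0
      rw [← h] at h1
      simp only [zero_mul, Matrix.cons_val_zero, add_zero] at h1
      have h2 : proj (Y t) 0 = 0 := by
        simp only [proj, h1]
        exact h0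
      rw [mem_farSet, h2] at hO
      exact zero_notMem_image Ioo_subset_Icc_self hO
    · exact h
  · intro h
    have hp : 0 < tau M w * disp 1 := mul_pos h disp_one_pos
    have hle : tau M w * disp2 1 ≤ 1 / 4 := by
      have h2 := tau_le M w
      have h3 := disp2_one_le
      nlinarith
    have hq : 0 ≤ (1 / 2 - tau M w * disp2 1) / (tau M w * disp 1) :=
      div_nonneg (by linarith) hp.le
    obtain ⟨s, hs1, hs2⟩ : ∃ s : ℝ, 1 ≤ s ∧ tau M w * disp2 s = 1 / 2 := by
      refine ⟨1 + (1 / 2 - tau M w * disp2 1) / (tau M w * disp 1), by linarith, ?_⟩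
      rw [disp2_eq (t := 1 + (1 / 2 - tau M w * disp2 1) / (tau M w * disp 1)) (by linarith)]
      have hd : disp 1 ≠ 0 := disp_one_pos.ne'
      have ht : tau M w ≠ 0 := h.ne'
      field_simp
      ring
    refine ⟨s, by linarith, ?_⟩
    have h1 := trajectory2_eq hY (t := s) (by linarith) 0
    simp only [Matrix.cons_val_zero] at h1
    rw [hs2] at h1
    rw [mem_farSet]
    simp only [proj, h1]
    rw [AddCircle.coe_add, h0, zero_add]
    exact ⟨1 / 2, ⟨by norm_num, by norm_num⟩, rfl⟩

theorem exists_compiler_far :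
    ∃ (a : Torus) (O : Set Torus), IsOpen O ∧ a ∉ closure O ∧
      ∀ ν : ℝ, 0 < ν → IsComputableReal ν →
        ∃ (comp : Descr × List ℕ → Nat.Partrec.Code) (f : ForceFamily),
          IsForceCompiler comp f ∧
          ∀ (M : Machine) (w : M.Word), ∃ (u : ℝ → Torus → Vec) (p : ℝ → Torus → ℝ),
            IsSmooth u ∧ IsSmooth p ∧
            (∀ T : ℝ, 0 < T → IsClassicalSolution ν (f M w) T u p ∧
              ∀ v q, IsClassicalSolution ν (f M w) T v q →
                ∀ t ∈ Icc 0 T, ∀ X, v t X = u t X ∧ q t X = p t X) ∧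
            (∃ Y, IsTrajectory u a Y) ∧
            ∀ Y, IsTrajectory u a Y → ((∃ t, 0 ≤ t ∧ proj (Y t) ∈ O) ↔ M.HaltsOn w) := by
  obtain ⟨comp, hcomp⟩ := force2_compiler
  refine ⟨0, farSet, farSet_isOpen, zero_notMem_closure_farSet, fun ν hν _ =>
    ⟨comp, force2, hcomp, fun M w => ⟨vel2 M w, fun _ _ => 0, vel2_smooth M w, contDiffOn_const,
      fun T hT => ⟨vel2_classical ν M w T,
        fun v q hv => classical_unique hν.le hT hv (vel2_classical ν M w T)⟩,
      ⟨_, vel2_trajectory M w⟩, trajectory2_iff M w⟩⟩⟩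

end Vale.Agent.P113
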