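import Vale.Agent.P113.Calc

open MeasureTheory Set Filter Topology

namespace Vale.Agent.P113

lemma ContOn.slice {F : Type} [TopologicalSpace F] {T : ℝ} {g : ℝ → Torus → F}
    (h : ContOn T g) {t : ℝ} (ht : t ∈ Icc 0 T) : Continuous (g t) := by
  rw [← continuousOn_univ]
  exact ContinuousOn.comp (g := fun q : ℝ × Torus => g q.1 q.2) (f := fun X => (t, X)) h
    (by fun_prop) (fun X _ => ⟨ht, mem_univ _⟩)

lemma ContOn.slice_time {F : Type} [TopologicalSpace F] {T : ℝ} {g : ℝ → Torus → F}
    (h : ContOn T g) (X : Torus) : ContinuousOn (fun t => g t X) (Icc 0 T) :=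
  ContinuousOn.comp (g := fun q : ℝ × Torus => g q.1 q.2) (f := fun t : ℝ => (t, X)) h
    (by fun_prop) (fun t ht => ⟨ht, mem_univ _⟩)

lemma ContOn.comp_apply {T : ℝ} {g : ℝ → Torus → Vec}
    (h : ContOn T g) (i : Fin 3) : ContOn T (fun t X => g t X i) :=
  (continuous_apply i).comp_continuousOn h

lemma ContOn.exists_bound {T : ℝ} {g : ℝ → Torus → ℝ} (h : ContOn T g) :
    ∃ C : ℝ, 0 ≤ C ∧ ∀ t ∈ Icc 0 T, ∀ X, |g t X| ≤ C := by
  have hc : IsCompact (Icc 0 T ×ˢ (univ : Set Torus)) := isCompact_Icc.prod isCompact_univ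
  obtain ⟨C, hC⟩ := hc.exists_bound_of_continuousOn h
  refine ⟨max C 0, le_max_right _ _, fun t ht X => ?_⟩
  exact (hC (t, X) ⟨ht, mem_univ _⟩).trans (le_max_left _ _)

lemma HasSpatialDeriv.add {g h : Torus → ℝ} {j : Fin 3} {g' h' : ℝ} {X : Torus}
    (hg : HasSpatialDeriv g j g' X) (hh : HasSpatialDeriv h j h' X) :
    HasSpatialDeriv (fun Y => g Y + h Y) j (g' + h') X := by
  unfold HasSpatialDeriv at *
  exact HasDerivAt.add hg hh

lemma HasSpatialDeriv.const_mul {g : Torus → ℝ} {j : Fin 3} {g' : ℝ} {X : Torus} (c : ℝ)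
    (hg : HasSpatialDeriv g j g' X) :
    HasSpatialDeriv (fun Y => c * g Y) j (c * g') X := by
  unfold HasSpatialDeriv at *
  exact HasDerivAt.const_mul c hg

lemma quad_bound (w : Fin 3 → ℝ) (D : Fin 3 → Fin 3 → ℝ) {K : ℝ} (h : ∀ i j, |D j i| ≤ K) :
    -(2 * ∑ i, ∑ j, w i * (w j * D j i)) ≤ 6 * K * ∑ i, w i ^ 2 := by
  have bterm : ∀ a b c : ℝ, |c| ≤ K → -(2 * (a * (b * c))) ≤ K * (a ^ 2 + b ^ 2) := by
    intro a b c hc
    have h1 : |a * b| ≤ (a ^ 2 + b ^ 2) / 2 := by
      rw [abs_le]
      constructor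
      · nlinarith [sq_nonneg (a + b)]
      · nlinarith [sq_nonneg (a - b)]
    have h2 : |a * b * c| ≤ (a ^ 2 + b ^ 2) / 2 * K := by
      rw [abs_mul]
      exact mul_le_mul h1 hc (abs_nonneg _) (by positivity)
    have h3 := neg_abs_le (a * b * c)
    nlinarith
  have e1 : -(2 * ∑ i, ∑ j, w i * (w j * D j i)) = ∑ i, ∑ j, -(2 * (w i * (w j * D j i))) := by
    simp only [Finset.mul_sum, Finset.sum_neg_distrib]
  have e2 : ∑ i, ∑ j, K * (w i ^ 2 + w j ^ 2) = 6 * K * ∑ i, w i ^ 2 := by
    simp only [Fin.sum_univ_three]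
    ring
  rw [e1, ← e2]
  exact Finset.sum_le_sum fun i _ => Finset.sum_le_sum fun j _ => bterm _ _ _ (h i j)

set_option maxHeartbeats 1000000 in
/-- The energy inequality at a fixed time. -/
lemma energy_ineq {ν K : ℝ} (hν : 0 ≤ ν)
    (U V UT VT F : Torus → Vec) (DU DV : Fin 3 → Torus → Vec)
    (DDU DDV : Fin 3 → Fin 3 → Torus → Vec)
    (P Q : Torus → ℝ) (DP DQ : Fin 3 → Torus → ℝ)
    (cU : Continuous U) (cV : Continuous V) (cUT : Continuous UT) (cVT : Continuous VT)
    (cDU : ∀ j, Continuous (DU j)) (cDV : ∀ j, Continuous (DV j))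
    (cDDU : ∀ j k, Continuous (DDU j k)) (cDDV : ∀ j k, Continuous (DDV j k))
    (cP : Continuous P) (cQ : Continuous Q)
    (cDP : ∀ j, Continuous (DP j)) (cDQ : ∀ j, Continuous (DQ j))
    (hU : ∀ X i j, HasSpatialDeriv (fun Y => U Y i) j (DU j X i) X)
    (hV : ∀ X i j, HasSpatialDeriv (fun Y => V Y i) j (DV j X i) X)
    (hDU : ∀ X i j k, HasSpatialDeriv (fun Y => DU j Y i) k (DDU j k X i) X)
    (hDV : ∀ X i j k, HasSpatialDeriv (fun Y => DV j Y i) k (DDV j k X i) X)
    (hP : ∀ X j, HasSpatialDeriv P j (DP j X) X)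
    (hQ : ∀ X j, HasSpatialDeriv Q j (DQ j X) X)
    (eU : ∀ X i, UT X i + ∑ j, U X j * DU j X i = -DP i X + ν * ∑ j, DDU j j X i + F X i)
    (eV : ∀ X i, VT X i + ∑ j, V X j * DV j X i = -DQ i X + ν * ∑ j, DDV j j X i + F X i)
    (divU : ∀ X, ∑ j, DU j X j = 0) (divV : ∀ X, ∑ j, DV j X j = 0)
    (bV : ∀ X i j, |DV j X i| ≤ K) :
    ∫ X, ∑ i, 2 * (U X i - V X i) * (UT X i - VT X i)
      ≤ 6 * K * ∫ X, ∑ i, (U X i - V X i) ^ 2 := by
  have cUi : ∀ i, Continuous fun X => U X i := fun i => (continuous_apply i).comp cU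
  have cVi : ∀ i, Continuous fun X => V X i := fun i => (continuous_apply i).comp cV
  have cUTi : ∀ i, Continuous fun X => UT X i := fun i => (continuous_apply i).comp cUT
  have cVTi : ∀ i, Continuous fun X => VT X i := fun i => (continuous_apply i).comp cVT
  have cDUi : ∀ j i, Continuous fun X => DU j X i := fun j i => (continuous_apply i).comp (cDU j)
  have cDVi : ∀ j i, Continuous fun X => DV j X i := fun j i => (continuous_apply i).comp (cDV j)
  have cDDUi : ∀ j k i, Continuous fun X => DDU j k X i :=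
    fun j k i => (continuous_apply i).comp (cDDU j k)
  have cDDVi : ∀ j k i, Continuous fun X => DDV j k X i :=
    fun j k i => (continuous_apply i).comp (cDDV j k)
  -- the fluxes
  set H : Fin 3 → Torus → ℝ := fun j X =>
    (-2) * ((U X j - V X j) * (P X - Q X))
    + (2 * ν) * ((U X 0 - V X 0) * (DU j X 0 - DV j X 0) + (U X 1 - V X 1) * (DU j X 1 - DV j X 1)
        + (U X 2 - V X 2) * (DU j X 2 - DV j X 2))
    + (-1) * (U X j * ((U X 0 - V X 0) * (U X 0 - V X 0) + (U X 1 - V X 1) * (U X 1 - V X 1)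
        + (U X 2 - V X 2) * (U X 2 - V X 2))) with hH
  set H' : Fin 3 → Torus → ℝ := fun j X =>
    (-2) * ((DU j X j - DV j X j) * (P X - Q X) + (U X j - V X j) * (DP j X - DQ j X))
    + (2 * ν) * (((DU j X 0 - DV j X 0) * (DU j X 0 - DV j X 0)
          + (U X 0 - V X 0) * (DDU j j X 0 - DDV j j X 0))
        + ((DU j X 1 - DV j X 1) * (DU j X 1 - DV j X 1)
          + (U X 1 - V X 1) * (DDU j j X 1 - DDV j j X 1))
        + ((DU j X 2 - DV j X 2) * (DU j X 2 - DV j X 2)
          + (U X 2 - V X 2) * (DDU j j X 2 - DDV j j X 2)))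
    + (-1) * (DU j X j * ((U X 0 - V X 0) * (U X 0 - V X 0) + (U X 1 - V X 1) * (U X 1 - V X 1)
        + (U X 2 - V X 2) * (U X 2 - V X 2))
      + U X j * (((DU j X 0 - DV j X 0) * (U X 0 - V X 0)
          + (U X 0 - V X 0) * (DU j X 0 - DV j X 0))
        + ((DU j X 1 - DV j X 1) * (U X 1 - V X 1)
          + (U X 1 - V X 1) * (DU j X 1 - DV j X 1))
        + ((DU j X 2 - DV j X 2) * (U X 2 - V X 2)
          + (U X 2 - V X 2) * (DU j X 2 - DV j X 2)))) with hH'
  have hW : ∀ i j X, HasSpatialDeriv (fun Y => U Y i - V Y i) j (DU j X i - DV j X i) X :=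
    fun i j X => (hU X i j).sub (hV X i j)
  have hDW : ∀ i j k X, HasSpatialDeriv (fun Y => DU j Y i - DV j Y i) k
      (DDU j k X i - DDV j k X i) X := fun i j k X => (hDU X i j k).sub (hDV X i j k)
  have hPi : ∀ j X, HasSpatialDeriv (fun Y => P Y - Q Y) j (DP j X - DQ j X) X :=
    fun j X => (hP X j).sub (hQ X j)
  have dH : ∀ j X, HasSpatialDeriv (H j) j (H' j X) X := by
    intro j X
    refine HasSpatialDeriv.add (HasSpatialDeriv.add ?_ ?_) ?_
    · exact ((hW j j X).mul (hPi j X)).const_mul _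
    · exact ((((hW 0 j X).mul (hDW 0 j j X)).add ((hW 1 j X).mul (hDW 1 j j X))).add
        ((hW 2 j X).mul (hDW 2 j j X))).const_mul _
    · exact ((hU X j j).mul ((((hW 0 j X).mul (hW 0 j X)).add ((hW 1 j X).mul (hW 1 j X))).add
        ((hW 2 j X).mul (hW 2 j X)))).const_mul _
  have cH : ∀ j, Continuous (H j) := by
    intro j
    have h1 := cUi j
    have h2 := cVi j
    have h3 := cUi 0
    have h4 := cVi 0
    have h5 := cUi 1
    have h6 := cVi 1
    have h7 := cUi 2
    have h8 := cVi 2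
    have h9 := cDUi j 0
    have h10 := cDVi j 0
    have h11 := cDUi j 1
    have h12 := cDVi j 1
    have h13 := cDUi j 2
    have h14 := cDVi j 2
    simp only [hH]
    fun_prop
  have cH' : ∀ j, Continuous (H' j) := by
    intro j
    have h1 := cUi j
    have h2 := cVi j
    have h3 := cUi 0
    have h4 := cVi 0
    have h5 := cUi 1
    have h6 := cVi 1
    have h7 := cUi 2
    have h8 := cVi 2
    have h9 := cDUi j 0
    have h10 := cDVi j 0
    have h11 := cDUi j 1
    have h12 := cDVi j 1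
    have h13 := cDUi j 2
    have h14 := cDVi j 2
    have h15 := cDDUi j j 0
    have h16 := cDDVi j j 0
    have h17 := cDDUi j j 1
    have h18 := cDDVi j j 1
    have h19 := cDDUi j j 2
    have h20 := cDDVi j j 2
    have h21 := cDUi j j
    have h22 := cDVi j j
    have h23 := cDP j
    have h24 := cDQ j
    simp only [hH']
    fun_prop
  have iH : ∀ j, ∫ X, H' j X = 0 := fun j => integral_spatialDeriv (cH j) (cH' j) (dH j)
  -- the pointwise estimate
  have pt : ∀ X, ∑ i, 2 * (U X i - V X i) * (UT X i - VT X i)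
      ≤ (H' 0 X + H' 1 X + H' 2 X) + 6 * K * ∑ i, (U X i - V X i) ^ 2 := by
    intro X
    have e0 := eU X 0
    have e1 := eU X 1
    have e2 := eU X 2
    have g0 := eV X 0
    have g1 := eV X 1
    have g2 := eV X 2
    have d1 := divU X
    have d2 := divV X
    simp only [Fin.sum_univ_three] at e0 e1 e2 g0 g1 g2 d1 d2 ⊢
    -- the identity
    have ident : 2 * (U X 0 - V X 0) * (UT X 0 - VT X 0) + 2 * (U X 1 - V X 1) * (UT X 1 - VT X 1)
        + 2 * (U X 2 - V X 2) * (UT X 2 - VT X 2)
        = (H' 0 X + H' 1 X + H' 2 X)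
          - 2 * ν * ((DU 0 X 0 - DV 0 X 0) ^ 2 + (DU 0 X 1 - DV 0 X 1) ^ 2
              + (DU 0 X 2 - DV 0 X 2) ^ 2 + (DU 1 X 0 - DV 1 X 0) ^ 2 + (DU 1 X 1 - DV 1 X 1) ^ 2
              + (DU 1 X 2 - DV 1 X 2) ^ 2 + (DU 2 X 0 - DV 2 X 0) ^ 2 + (DU 2 X 1 - DV 2 X 1) ^ 2
              + (DU 2 X 2 - DV 2 X 2) ^ 2)
          - 2 * ((U X 0 - V X 0) * ((U X 0 - V X 0) * DV 0 X 0 + (U X 1 - V X 1) * DV 1 X 0
                + (U X 2 - V X 2) * DV 2 X 0)
              + (U X 1 - V X 1) * ((U X 0 - V X 0) * DV 0 X 1 + (U X 1 - V X 1) * DV 1 X 1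
                + (U X 2 - V X 2) * DV 2 X 1)
              + (U X 2 - V X 2) * ((U X 0 - V X 0) * DV 0 X 2 + (U X 1 - V X 1) * DV 1 X 2
                + (U X 2 - V X 2) * DV 2 X 2)) := by
      simp only [hH']
      linear_combination (2 * (U X 0 - V X 0)) * (e0 - g0) + (2 * (U X 1 - V X 1)) * (e1 - g1)
        + (2 * (U X 2 - V X 2)) * (e2 - g2) + (2 * (P X - Q X)) * (d1 - d2)
        + ((U X 0 - V X 0) * (U X 0 - V X 0) + (U X 1 - V X 1) * (U X 1 - V X 1)
          + (U X 2 - V X 2) * (U X 2 - V X 2)) * d1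
    rw [ident]
    have hsq : 0 ≤ 2 * ν * ((DU 0 X 0 - DV 0 X 0) ^ 2 + (DU 0 X 1 - DV 0 X 1) ^ 2
              + (DU 0 X 2 - DV 0 X 2) ^ 2 + (DU 1 X 0 - DV 1 X 0) ^ 2 + (DU 1 X 1 - DV 1 X 1) ^ 2
              + (DU 1 X 2 - DV 1 X 2) ^ 2 + (DU 2 X 0 - DV 2 X 0) ^ 2 + (DU 2 X 1 - DV 2 X 1) ^ 2
              + (DU 2 X 2 - DV 2 X 2) ^ 2) := by positivity
    have qb := quad_bound (fun i => U X i - V X i) (fun j i => DV j X i) (K := K)
      (fun i j => bV X i j)
    simp only [Fin.sum_univ_three] at qb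
    linarith only [hsq, qb]
  have cS : Continuous fun X => ∑ i, (U X i - V X i) ^ 2 := by
    have h3 := cUi 0
    have h4 := cVi 0
    have h5 := cUi 1
    have h6 := cVi 1
    have h7 := cUi 2
    have h8 := cVi 2
    simp only [Fin.sum_univ_three]
    fun_prop
  have cL : Continuous fun X => ∑ i, 2 * (U X i - V X i) * (UT X i - VT X i) := by
    have h3 := cUi 0
    have h4 := cVi 0
    have h5 := cUi 1
    have h6 := cVi 1
    have h7 := cUi 2
    have h8 := cVi 2
    have h9 := cUTi 0
    have h10 := cVTi 0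
    have h11 := cUTi 1
    have h12 := cVTi 1
    have h13 := cUTi 2
    have h14 := cVTi 2
    simp only [Fin.sum_univ_three]
    fun_prop
  calc ∫ X, ∑ i, 2 * (U X i - V X i) * (UT X i - VT X i)
      ≤ ∫ X, ((H' 0 X + H' 1 X + H' 2 X) + 6 * K * ∑ i, (U X i - V X i) ^ 2) := by
        apply integral_mono (integrable_of_continuous cL)
        · apply Integrable.add
          · exact integrable_of_continuous (((cH' 0).add (cH' 1)).add (cH' 2))
          · exact (integrable_of_continuous cS).const_mul _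
        · exact pt
    _ = 6 * K * ∫ X, ∑ i, (U X i - V X i) ^ 2 := by
        have i1 : ∫ X, (H' 0 X + H' 1 X) = 0 := by
          rw [integral_add (f := fun X => H' 0 X) (g := fun X => H' 1 X)
            (integrable_of_continuous (cH' 0)) (integrable_of_continuous (cH' 1)), iH 0, iH 1,
            add_zero]
        have i2 : ∫ X, (H' 0 X + H' 1 X + H' 2 X) = 0 := by
          rw [integral_add (f := fun X => H' 0 X + H' 1 X) (g := fun X => H' 2 X)
            (integrable_of_continuous ((cH' 0).add (cH' 1))) (integrable_of_continuous (cH' 2)),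
            i1, iH 2, add_zero]
        rw [integral_add (f := fun X => H' 0 X + H' 1 X + H' 2 X)
          (g := fun X => 6 * K * ∑ i, (U X i - V X i) ^ 2)
          (integrable_of_continuous (((cH' 0).add (cH' 1)).add (cH' 2)))
          ((integrable_of_continuous cS).const_mul _), i2, integral_const_mul, zero_add]

/-- The energy of the difference of two fields. -/
noncomputable def energy (u v : ℝ → Torus → Vec) (t : ℝ) : ℝ := ∫ X, ∑ i, (u t X i - v t X i) ^ 2

lemma spatialDeriv_unique {g : Torus → ℝ} {j : Fin 3} {d e : ℝ} {X : Torus}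
    (h1 : HasSpatialDeriv g j d X) (h2 : HasSpatialDeriv g j e X) : d = e :=
  HasDerivAt.unique h1 h2

theorem classical_unique {ν : ℝ} (hν : 0 ≤ ν) {f : ℝ → Torus → Vec} {T : ℝ} (hT : 0 < T)
    {u v : ℝ → Torus → Vec} {p q : ℝ → Torus → ℝ}
    (hu : IsClassicalSolution ν f T u p) (hv : IsClassicalSolution ν f T v q) :
    ∀ t ∈ Icc 0 T, ∀ X, u t X = v t X ∧ p t X = q t X := by
  obtain ⟨ut, du, ddu, dp, cu, cut, cdu, cddu, cp, cdp, eu, u0, pu⟩ := hu
  obtain ⟨vt, dv, ddv, dq, cv, cvt, cdv, cddv, cq, cdq, ev, v0, qu⟩ := hv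
  -- the bound on the gradient of `v`
  have hK : ∃ K : ℝ, 0 ≤ K ∧ ∀ t ∈ Icc 0 T, ∀ X i j, |dv j t X i| ≤ K := by
    have hb : ∀ ij : Fin 3 × Fin 3, ∃ C : ℝ, 0 ≤ C ∧ ∀ t ∈ Icc 0 T, ∀ X,
        |dv ij.2 t X ij.1| ≤ C := fun ij => ((cdv ij.2).comp_apply ij.1).exists_bound
    choose C hC0 hC using hb
    refine ⟨∑ ij, C ij, Finset.sum_nonneg fun ij _ => hC0 ij, fun t ht X i j => ?_⟩
    exact (hC (i, j) t ht X).trans
      (Finset.single_le_sum (fun ij _ => hC0 ij) (Finset.mem_univ (i, j)))
  obtain ⟨K, hK0, hK⟩ := hK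
  -- energy inequality
  have ineq : ∀ t ∈ Icc 0 T, ∫ X, ∑ i, 2 * (u t X i - v t X i) * (ut t X i - vt t X i)
      ≤ 6 * K * energy u v t := by
    intro t ht
    exact energy_ineq hν (u t) (v t) (ut t) (vt t) (f t) (fun j => du j t) (fun j => dv j t)
      (fun j k => ddu j k t) (fun j k => ddv j k t) (p t) (q t) (fun j => dp j t)
      (fun j => dq j t) (cu.slice ht) (cv.slice ht) (cut.slice ht) (cvt.slice ht)
      (fun j => (cdu j).slice ht) (fun j => (cdv j).slice ht) (fun j k => (cddu j k).slice ht)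
      (fun j k => (cddv j k).slice ht) (cp.slice ht) (cq.slice ht)
      (fun j => (cdp j).slice ht) (fun j => (cdq j).slice ht)
      (fun X i j => (eu t ht X).2.1 i j) (fun X i j => (ev t ht X).2.1 i j)
      (fun X i j k => (eu t ht X).2.2.1 i j k) (fun X i j k => (ev t ht X).2.2.1 i j k)
      (fun X j => (eu t ht X).2.2.2.1 j) (fun X j => (ev t ht X).2.2.2.1 j)
      (fun X i => (eu t ht X).2.2.2.2.1 i) (fun X i => (ev t ht X).2.2.2.2.1 i)
      (fun X => (eu t ht X).2.2.2.2.2) (fun X => (ev t ht X).2.2.2.2.2)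
      (fun X i j => hK t ht X i j)
  -- joint continuity of the energy density and of its time derivative
  have cW : ContOn T (fun t X => ∑ i, (u t X i - v t X i) ^ 2) := by
    unfold ContOn
    apply continuousOn_finsetSum
    intro i _
    exact ((cu.comp_apply i).sub (cv.comp_apply i)).pow 2
  have cW' : ContOn T (fun t X => ∑ i, 2 * (u t X i - v t X i) * (ut t X i - vt t X i)) := by
    unfold ContOn
    apply continuousOn_finsetSum
    intro i _
    exact ((continuousOn_const.mul ((cu.comp_apply i).sub (cv.comp_apply i))).mul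
      ((cut.comp_apply i).sub (cvt.comp_apply i)))
  obtain ⟨C, hC0, hC⟩ := cW.exists_bound
  obtain ⟨C', hC'0, hC'⟩ := cW'.exists_bound
  -- derivative of the energy in the interior
  have dE : ∀ t ∈ Ioo 0 T, HasDerivAt (energy u v)
      (∫ X, ∑ i, 2 * (u t X i - v t X i) * (ut t X i - vt t X i)) t := by
    intro t ht
    have hmem : Ioo 0 T ∈ 𝓝 t := isOpen_Ioo.mem_nhds ht
    have key := hasDerivAt_integral_of_dominated_loc_of_deriv_le
      (μ := (volume : Measure Torus)) (F := fun (s : ℝ) (X : Torus) => ∑ i, (u s X i - v s X i) ^ 2)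
      (F' := fun (s : ℝ) (X : Torus) => ∑ i, 2 * (u s X i - v s X i) * (ut s X i - vt s X i))
      (x₀ := t) (s := Ioo 0 T) (bound := fun _ => C') hmem
      (Filter.mem_of_superset hmem fun s hs =>
        (cW.slice (Ioo_subset_Icc_self hs)).aestronglyMeasurable)
      (integrable_of_continuous (cW.slice (Ioo_subset_Icc_self ht)))
      ((cW'.slice (Ioo_subset_Icc_self ht)).aestronglyMeasurable)
      (Eventually.of_forall fun X s hs => hC' s (Ioo_subset_Icc_self hs) X)
      (integrable_const C')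
      (Eventually.of_forall fun X s hs => by
        have hs' := Ioo_subset_Icc_self hs
        have hn : Icc 0 T ∈ 𝓝 s := Icc_mem_nhds hs.1 hs.2
        apply HasDerivAt.fun_sum
        intro i _
        have h1 := ((eu s hs' X).1 i).hasDerivAt hn
        have h2 := ((ev s hs' X).1 i).hasDerivAt hn
        have h3 := (h1.fun_sub h2).fun_pow 2
        refine h3.congr_deriv ?_
        simp)
    exact key.2
  -- continuity of the energy
  have cE : ContinuousOn (energy u v) (Icc 0 T) := by
    unfold energy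
    apply continuousOn_of_dominated (bound := fun _ => C)
    · exact fun t ht => (cW.slice ht).aestronglyMeasurable
    · exact fun t ht => Eventually.of_forall fun X => hC t ht X
    · exact integrable_const C
    · exact Eventually.of_forall fun X => cW.slice_time X
  have E0 : energy u v 0 = 0 := by
    unfold energy
    simp [u0, v0]
  have Enonneg : ∀ t, 0 ≤ energy u v t := fun t =>
    integral_nonneg fun X => Finset.sum_nonneg fun i _ => sq_nonneg _
  -- Gronwall
  have anti : AntitoneOn (fun t => Real.exp (-(6 * K) * t) * energy u v t) (Icc 0 T) := by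
    apply antitoneOn_of_deriv_nonpos (convex_Icc 0 T)
    · exact (Continuous.continuousOn (by fun_prop)).mul cE
    · intro t ht
      rw [interior_Icc] at ht
      have h1 : HasDerivAt (fun t => Real.exp (-(6 * K) * t)) (Real.exp (-(6 * K) * t) *
        (-(6 * K))) t := by
        have := (hasDerivAt_id t).const_mul (-(6 * K))
        simpa using this.exp
      exact (h1.mul (dE t ht)).differentiableAt.differentiableWithinAt
    · intro t ht
      rw [interior_Icc] at ht
      have h1 : HasDerivAt (fun t => Real.exp (-(6 * K) * t)) (Real.exp (-(6 * K) * t) *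
        (-(6 * K))) t := by
        have := (hasDerivAt_id t).const_mul (-(6 * K))
        simpa using this.exp
      have h2 := (h1.fun_mul (dE t ht)).deriv
      rw [h2]
      have h3 := ineq t (Ioo_subset_Icc_self ht)
      have h4 : 0 < Real.exp (-(6 * K) * t) := Real.exp_pos _
      nlinarith
  have Ezero : ∀ t ∈ Icc 0 T, energy u v t = 0 := by
    intro t ht
    have h1 := anti (left_mem_Icc.mpr hT.le) ht ht.1
    simp only [E0, mul_zero] at h1
    have h4 : 0 < Real.exp (-(6 * K) * t) := Real.exp_pos _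
    have h5 := Enonneg t
    by_contra hne
    have h6 : 0 < energy u v t := lt_of_le_of_ne h5 (Ne.symm hne)
    have := mul_pos h4 h6
    linarith
  have huv : ∀ t ∈ Icc 0 T, ∀ X, u t X = v t X := by
    intro t ht X
    have h1 := Ezero t ht
    unfold energy at h1
    have h2 : (fun X => ∑ i, (u t X i - v t X i) ^ 2) =ᵐ[volume] 0 := by
      rw [← integral_eq_zero_iff_of_nonneg]
      · exact h1
      · exact fun X => Finset.sum_nonneg fun i _ => sq_nonneg _
      · exact integrable_of_continuous (cW.slice ht)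
    have h3 := (Continuous.ae_eq_iff_eq (μ := (volume : Measure Torus)) (cW.slice ht)
      continuous_zero).1 h2
    have h4 := congrFun h3 X
    simp only [Pi.zero_apply] at h4
    have h5 := (Finset.sum_eq_zero_iff_of_nonneg (fun i _ => sq_nonneg _)).1 h4
    funext i
    have h6 := h5 i (Finset.mem_univ i)
    have h7 : u t X i - v t X i = 0 := by
      rcases sq_eq_zero_iff.1 h6 with h
      exact h
    linarith
  intro t ht X
  refine ⟨huv t ht X, ?_⟩
  -- the pressure
  have hut : ∀ X i, ut t X i = vt t X i := by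
    intro X i
    have h1 := (eu t ht X).1 i
    have h2 := (ev t ht X).1 i
    have h3 : HasDerivWithinAt (fun s => u s X i) (vt t X i) (Icc 0 T) t := by
      refine h2.congr (fun s hs => ?_) ?_
      · rw [huv s hs X]
      · rw [huv t ht X]
    exact (uniqueDiffOn_Icc hT t ht).eq_deriv _ h1 h3
  have hut0 : u t = v t := funext fun X => huv t ht X
  have hdu : ∀ X i j, du j t X i = dv j t X i := by
    intro X i j
    have h1 := (eu t ht X).2.1 i j
    have h2 := (ev t ht X).2.1 i j
    rw [hut0] at h1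
    exact spatialDeriv_unique h1 h2
  have hddu : ∀ X i j k, ddu j k t X i = ddv j k t X i := by
    intro X i j k
    have h1 := (eu t ht X).2.2.1 i j k
    have h2 := (ev t ht X).2.2.1 i j k
    have h3 : (fun Y => du j t Y i) = fun Y => dv j t Y i := funext fun Y => hdu Y i j
    rw [h3] at h1
    exact spatialDeriv_unique h1 h2
  have hdp : ∀ X j, dp j t X = dq j t X := by
    intro X j
    have h1 := (eu t ht X).2.2.2.2.1 j
    have h2 := (ev t ht X).2.2.2.2.1 j
    have h3 : ∑ k, u t X k * du k t X j = ∑ k, v t X k * dv k t X j := by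
      refine Finset.sum_congr rfl fun k _ => ?_
      rw [huv t ht X, hdu]
    have h4 : ∑ k, ddu k k t X j = ∑ k, ddv k k t X j :=
      Finset.sum_congr rfl fun k _ => hddu X j k k
    rw [hut, h3, h4] at h1
    linarith
  have hconst : ∀ Y, p t Y - q t Y = p t 0 - q t 0 := by
    refine const_of_spatialDeriv_zero (g := fun Y => p t Y - q t Y) fun Y j => ?_
    have h1 := ((eu t ht Y).2.2.2.1 j).sub ((ev t ht Y).2.2.2.1 j)
    rwa [hdp, sub_self] at h1
  have hint : ∫ Y, (p t Y - q t Y) = 0 := by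
    rw [integral_sub (integrable_of_continuous (cp.slice ht))
      (integrable_of_continuous (cq.slice ht)), pu t ht, qu t ht, sub_zero]
  simp only [hconst] at hint
  rw [integral_const] at hint
  have hvol : (volume : Measure Torus).real univ ≠ 0 := by
    have h1 : (0 : ENNReal) < (volume : Measure Torus) univ :=
      isOpen_univ.measure_pos _ univ_nonempty
    rw [Measure.real, ENNReal.toReal_ne_zero]
    exact ⟨h1.ne', measure_ne_top _ _⟩
  rcases smul_eq_zero.1 hint with h | h
  · exact absurd h hvol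
  · have := hconst X
    linarith

end Vale.Agent.P113
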