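import Vale.Agent.P113.CompExp
import Vale.Agent.P113.Unique

open MeasureTheory Set Filter Topology
open scoped ContDiff

namespace Vale.Agent.P113

/-- The halting number of `(M, w)`. -/
noncomputable def tau (M : Machine) (w : M.Word) : ℝ := theta (M.descr, w.map Fin.val)

lemma tau_nonneg (M : Machine) (w : M.Word) : 0 ≤ tau M w := theta_nonneg _
lemma tau_le (M : Machine) (w : M.Word) : tau M w ≤ 1 / 4 := theta_le _
lemma tau_pos_iff (M : Machine) (w : M.Word) : 0 < tau M w ↔ M.HaltsOn w := by
  rw [haltsOn_iff]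
  exact theta_pos_iff _

/-! ### From computable families to programs -/

/-- The inputs of the programs: component, orders of derivation, point, accuracy. -/
abbrev Inp : Type := ℕ × (ℕ × ℕ × ℕ × ℕ) × (Q3 × Q3 × Q3 × Q3) × Q3

/-- The inputs without the accuracy. -/
abbrev Inp' : Type := ℕ × (ℕ × ℕ × ℕ × ℕ) × (Q3 × Q3 × Q3 × Q3)

lemma code_of_computable {α σ : Type*} [Primcodable α] [Primcodable σ] {G : α → σ}
    (hG : Computable G) :
    ∃ c : Nat.Partrec.Code, ∀ a, c.eval (Encodable.encode a) = Part.some (Encodable.encode (G a)) := by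
  obtain ⟨c, hc⟩ := Nat.Partrec.Code.exists_code.1 hG
  refine ⟨c, fun a => ?_⟩
  rw [hc]
  simp

lemma exists_compiler {f : ForceFamily} {H : (Descr × List ℕ) × Inp' → ℝ} (hH : CReal H)
    (e : ∀ (M : Machine) (w : M.Word) (i : Fin 3) (k a b c : ℕ) (t x y z : Q3), 0 ≤ ratOf t →
      mixedDeriv (f M w) i k a b c (ratOf t) (ratOf x) (ratOf y) (ratOf z) =
        H ((M.descr, w.map Fin.val), ((i : ℕ), (k, a, b, c), (t, x, y, z)))) :
    ∃ comp : Descr × List ℕ → Nat.Partrec.Code, Computable comp ∧
      ∀ M (w : M.Word), Computes (comp (M.descr, w.map Fin.val)) (f M w) := by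
  obtain ⟨F, hF, hF'⟩ := hH.algorithm
  -- the algorithm on pairs
  have hG : Computable fun x : (Descr × List ℕ) × Inp =>
      F ((x.1, (x.2.1, x.2.2.1, x.2.2.2.1)), x.2.2.2.2) := by
    refine hF.comp (Computable.pair (Computable.pair Computable.fst (Computable.pair
      (Computable.fst.comp Computable.snd) (Computable.pair
        (Computable.fst.comp (Computable.snd.comp Computable.snd))
        (Computable.fst.comp (Computable.snd.comp (Computable.snd.comp Computable.snd))))))
      (Computable.snd.comp (Computable.snd.comp (Computable.snd.comp Computable.snd))))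
  obtain ⟨c₀, hc₀⟩ := code_of_computable hG
  refine ⟨fun x => Nat.Partrec.Code.curry c₀ (Encodable.encode x), ?_, ?_⟩
  · exact Nat.Partrec.Code.primrec₂_curry.to_comp.comp (Computable.const c₀) Computable.encode
  · intro M w i k a b c t x y z ε ht hε
    refine ⟨F (((M.descr, w.map Fin.val), ((i : ℕ), (k, a, b, c), (t, x, y, z))), ε), ?_, ?_⟩
    · rw [Nat.Partrec.Code.eval_curry]
      have h1 : Nat.pair (Encodable.encode (M.descr, w.map Fin.val))
          (Encodable.encode (((i : ℕ), (k, a, b, c), (t, x, y, z), ε) : Inp)) =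
          Encodable.encode (((M.descr, w.map Fin.val),
            ((i : ℕ), (k, a, b, c), (t, x, y, z), ε)) : (Descr × List ℕ) × Inp) := rfl
      rw [h1, hc₀]
      exact Part.mem_some _
    · rw [e M w i k a b c t x y z ht]
      exact hF' _ ε hε

end Vale.Agent.P113
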