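import Mathlib

namespace Vale.Agent.P113.Uniq

open MeasureTheory Set Finset

/-- Integral of a divergence of a periodic vector field over the unit cube vanishes. -/
theorem integral_div_eq_zero
    (F : Fin 3 → (Fin 3 → ℝ) → ℝ) (F' : Fin 3 → (Fin 3 → ℝ) → (Fin 3 → ℝ) →L[ℝ] ℝ)
    (hF : ∀ i x, HasFDerivAt (F i) (F' i x) x)
    (hper : ∀ i x, F i (x + Pi.single i 1) = F i x)
    (hc : Continuous fun x => ∑ i, F' i x (Pi.single i 1)) :
    ∫ x in Icc (0 : Fin 3 → ℝ) 1, ∑ i, F' i x (Pi.single i 1) = 0 := by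
  have h01 : (0 : Fin 3 → ℝ) ≤ 1 := zero_le_one
  have key := integral_divergence_of_hasFDerivAt_off_countable' (n := 2) (E := ℝ)
    (0 : Fin 3 → ℝ) 1 h01 F F' ∅ Set.countable_empty
    (fun i => (continuous_iff_continuousAt.2 fun x => (hF i x).continuousAt).continuousOn)
    (fun x _ i => hF i x)
    (hc.continuousOn.integrableOn_compact isCompact_Icc)
  rw [key]
  apply Finset.sum_eq_zero
  intro i _
  rw [sub_eq_zero]
  congr 1
  funext x
  have : (i.insertNth ((1 : Fin 3 → ℝ) i) x : Fin 3 → ℝ)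
      = (i.insertNth ((0 : Fin 3 → ℝ) i) x : Fin 3 → ℝ) + Pi.single i 1 := by
    funext j
    refine Fin.succAboveCases i ?_ ?_ j
    · simp
    · intro k
      simp [Fin.succAbove_ne]
  rw [this, hper]

end Vale.Agent.P113.Uniq
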