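import Vale.Agent.P113.UniqTime

namespace Vale.Agent.P113.Uniq

open MeasureTheory Set Finset

/-- Proposed definition of a classical solution on `[0,T] × 𝕋³`. -/
structure ClassicalSolution (ν T : ℝ) (f u : ℝ → (Fin 3 → ℝ) → (Fin 3 → ℝ))
    (p : ℝ → (Fin 3 → ℝ) → ℝ) : Prop where
  periodic_u : ∀ t ∈ Icc 0 T, ∀ x i, u t (x + Pi.single i 1) = u t x
  periodic_p : ∀ t ∈ Icc 0 T, ∀ x i, p t (x + Pi.single i 1) = p t x
  smooth_u : ∀ t ∈ Icc 0 T, ContDiff ℝ 2 (u t)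
  smooth_p : ∀ t ∈ Icc 0 T, ContDiff ℝ 1 (p t)
  diff_time : ∀ t ∈ Icc 0 T, ∀ x, DifferentiableWithinAt ℝ (fun s => u s x) (Icc 0 T) t
  cont_u : ContinuousOn (fun z : ℝ × (Fin 3 → ℝ) => u z.1 z.2) (Icc 0 T ×ˢ univ)
  cont_ut : ContinuousOn (fun z : ℝ × (Fin 3 → ℝ) =>
    derivWithin (fun s => u s z.2) (Icc 0 T) z.1) (Icc 0 T ×ˢ univ)
  cont_du : ContinuousOn (fun z : ℝ × (Fin 3 → ℝ) => fderiv ℝ (u z.1) z.2) (Icc 0 T ×ˢ univ)
  cont_ddu : ContinuousOn (fun z : ℝ × (Fin 3 → ℝ) => fderiv ℝ (fderiv ℝ (u z.1)) z.2)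
    (Icc 0 T ×ˢ univ)
  cont_p : ContinuousOn (fun z : ℝ × (Fin 3 → ℝ) => p z.1 z.2) (Icc 0 T ×ˢ univ)
  cont_dp : ContinuousOn (fun z : ℝ × (Fin 3 → ℝ) => fderiv ℝ (p z.1) z.2) (Icc 0 T ×ˢ univ)
  momentum : ∀ t ∈ Icc 0 T, ∀ x i,
    derivWithin (fun s => u s x) (Icc 0 T) t i
      + ∑ j, u t x j * fderiv ℝ (u t) x (Pi.single j 1) i
    = - fderiv ℝ (p t) x (Pi.single i 1)
      + ν * (∑ j, fderiv ℝ (fderiv ℝ (u t)) x (Pi.single j 1) (Pi.single j 1) i) + f t x i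
  div_free : ∀ t ∈ Icc 0 T, ∀ x, ∑ j, fderiv ℝ (u t) x (Pi.single j 1) j = 0
  init : ∀ x, u 0 x = 0
  mean_zero : ∀ t ∈ Icc 0 T, ∫ x in Icc (0 : Fin 3 → ℝ) 1, p t x = 0

theorem ClassicalSolution.unique {ν T : ℝ} (hν : 0 ≤ ν) (hT : 0 < T)
    {f u₁ u₂ : ℝ → (Fin 3 → ℝ) → (Fin 3 → ℝ)} {p₁ p₂ : ℝ → (Fin 3 → ℝ) → ℝ}
    (h₁ : ClassicalSolution ν T f u₁ p₁) (h₂ : ClassicalSolution ν T f u₂ p₂) :
    ∀ t ∈ Icc 0 T, ∀ x, u₁ t x = u₂ t x ∧ p₁ t x = p₂ t x := by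
  -- bound for the gradient of `u₂`
  have hcomp : IsCompact (Icc (0 : ℝ) T ×ˢ Icc (0 : E3) 1) := isCompact_Icc.prod isCompact_Icc
  obtain ⟨K, hK⟩ := hcomp.exists_bound_of_continuousOn
    (h₂.cont_du.mono (prod_mono_right (subset_univ (Icc (0 : E3) 1))))
  have hd1 : ∀ t ∈ Icc 0 T, ∀ x, HasFDerivAt (u₁ t) (fderiv ℝ (u₁ t) x) x := fun t ht x =>
    ((h₁.smooth_u t ht).differentiable (by norm_num) x).hasFDerivAt
  have hd2 : ∀ t ∈ Icc 0 T, ∀ x, HasFDerivAt (u₂ t) (fderiv ℝ (u₂ t) x) x := fun t ht x =>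
    ((h₂.smooth_u t ht).differentiable (by norm_num) x).hasFDerivAt
  have hdd1 : ∀ t ∈ Icc 0 T, ∀ x, HasFDerivAt (fderiv ℝ (u₁ t)) (fderiv ℝ (fderiv ℝ (u₁ t)) x) x :=
    fun t ht x => (((h₁.smooth_u t ht).fderiv_right (m := 1) (by norm_num)).differentiable
      (by norm_num) x).hasFDerivAt
  have hdd2 : ∀ t ∈ Icc 0 T, ∀ x, HasFDerivAt (fderiv ℝ (u₂ t)) (fderiv ℝ (fderiv ℝ (u₂ t)) x) x :=
    fun t ht x => (((h₂.smooth_u t ht).fderiv_right (m := 1) (by norm_num)).differentiable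
      (by norm_num) x).hasFDerivAt
  have hp1 : ∀ t ∈ Icc 0 T, ∀ x, HasFDerivAt (p₁ t) (fderiv ℝ (p₁ t) x) x := fun t ht x =>
    ((h₁.smooth_p t ht).differentiable (by norm_num) x).hasFDerivAt
  have hp2 : ∀ t ∈ Icc 0 T, ∀ x, HasFDerivAt (p₂ t) (fderiv ℝ (p₂ t) x) x := fun t ht x =>
    ((h₂.smooth_p t ht).differentiable (by norm_num) x).hasFDerivAt
  have hcc : ∀ {α : Type} [TopologicalSpace α] (g : ℝ → E3 → α),
      ContinuousOn (fun z : ℝ × E3 => g z.1 z.2) (Icc 0 T ×ˢ univ) →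
      ∀ t ∈ Icc 0 T, Continuous (g t) := by
    intro α _ g hg t ht
    have h1 : Continuous (fun x : E3 => ((t, x) : ℝ × E3)) := by fun_prop
    exact hg.comp_continuous h1 (fun x => ⟨ht, mem_univ _⟩)
  have hcs : ContinuousSub ((Fin 3 → ℝ) →L[ℝ] (Fin 3 → ℝ) →L[ℝ] Fin 3 → ℝ) := by
    let _ : NormedAddCommGroup ((Fin 3 → ℝ) →L[ℝ] (Fin 3 → ℝ) →L[ℝ] Fin 3 → ℝ) := inferInstance
    have := SeminormedAddCommGroup.toIsTopologicalAddGroup
      (E := ((Fin 3 → ℝ) →L[ℝ] (Fin 3 → ℝ) →L[ℝ] Fin 3 → ℝ))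
    infer_instance
  have hu : ∀ t ∈ Icc 0 T, ∀ x, u₁ t x - u₂ t x = 0 := by
    refine energy_time T ν K hν u₁ (fun t x => u₁ t x - u₂ t x)
      (fun t x => derivWithin (fun s => u₁ s x) (Icc 0 T) t
        - derivWithin (fun s => u₂ s x) (Icc 0 T) t)
      (fun t x => fderiv ℝ (u₁ t) x) (fun t x => fderiv ℝ (u₁ t) x - fderiv ℝ (u₂ t) x)
      (fun t x => fderiv ℝ (u₂ t) x)
      (fun t x => fderiv ℝ (fderiv ℝ (u₁ t)) x - fderiv ℝ (fderiv ℝ (u₂ t)) x)
      (fun t x => p₁ t x - p₂ t x) (fun t x => fderiv ℝ (p₁ t) x - fderiv ℝ (p₂ t) x)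
      (fun t ht x => hd1 t (Ioo_subset_Icc_self ht) x)
      (fun t ht x => (hd1 t (Ioo_subset_Icc_self ht) x).fun_sub (hd2 t (Ioo_subset_Icc_self ht) x))
      (fun t ht x => (hdd1 t (Ioo_subset_Icc_self ht) x).fun_sub (hdd2 t (Ioo_subset_Icc_self ht) x))
      (fun t ht x => (hp1 t (Ioo_subset_Icc_self ht) x).fun_sub (hp2 t (Ioo_subset_Icc_self ht) x))
      (fun t ht i x => h₁.periodic_u t (Ioo_subset_Icc_self ht) x i) ?_ ?_
      (fun t ht => hcc (fun t x => fderiv ℝ (u₁ t) x) h₁.cont_du t (Ioo_subset_Icc_self ht))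
      (fun t ht => (hcc (fun t x => fderiv ℝ (fderiv ℝ (u₁ t)) x) h₁.cont_ddu t
        (Ioo_subset_Icc_self ht)).sub (hcc (fun t x => fderiv ℝ (fderiv ℝ (u₂ t)) x) h₂.cont_ddu t
        (Ioo_subset_Icc_self ht)))
      (fun t ht => (hcc (fun t x => fderiv ℝ (p₁ t) x) h₁.cont_dp t
        (Ioo_subset_Icc_self ht)).sub (hcc (fun t x => fderiv ℝ (p₂ t) x) h₂.cont_dp t
        (Ioo_subset_Icc_self ht)))
      (fun t ht => hcc (fun t x => fderiv ℝ (u₂ t) x) h₂.cont_du t (Ioo_subset_Icc_self ht))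
      (fun t ht x => h₁.div_free t (Ioo_subset_Icc_self ht) x) ?_
      (h₁.cont_u.sub h₂.cont_u) (h₁.cont_ut.sub h₂.cont_ut) ?_ ?_ ?_ ?_
    · intro t ht i x
      simp only [e, h₁.periodic_u t ht x i, h₂.periodic_u t ht x i]
    · intro t ht i x
      simp only [e, h₁.periodic_p t (Ioo_subset_Icc_self ht) x i,
        h₂.periodic_p t (Ioo_subset_Icc_self ht) x i]
    · intro t ht x
      have a1 := h₁.div_free t (Ioo_subset_Icc_self ht) x
      have a2 := h₂.div_free t (Ioo_subset_Icc_self ht) x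
      simp only [sub_apply, Pi.sub_apply, Finset.sum_sub_distrib]
      rw [a1, a2, sub_zero]
    · intro t ht x
      have b1 := ((h₁.diff_time t (Ioo_subset_Icc_self ht) x).hasDerivWithinAt).hasDerivAt
        (Icc_mem_nhds ht.1 ht.2)
      have b2 := ((h₂.diff_time t (Ioo_subset_Icc_self ht) x).hasDerivWithinAt).hasDerivAt
        (Icc_mem_nhds ht.1 ht.2)
      exact b1.fun_sub b2
    · intro t ht x i
      have m1 := h₁.momentum t (Ioo_subset_Icc_self ht) x i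
      have m2 := h₂.momentum t (Ioo_subset_Icc_self ht) x i
      simp only [Fin.sum_univ_three, sub_apply, Pi.sub_apply, e] at *
      linear_combination m1 - m2
    · intro t ht x hx i j
      have k1 := hK (t, x) ⟨Ioo_subset_Icc_self ht, hx⟩
      have k2 : ‖fderiv ℝ (u₂ t) x (e j)‖ ≤ K := by
        calc ‖fderiv ℝ (u₂ t) x (e j)‖ ≤ ‖fderiv ℝ (u₂ t) x‖ * ‖e j‖ :=
              ContinuousLinearMap.le_opNorm _ _
          _ ≤ K * 1 := by
              have : ‖(e j : E3)‖ = 1 := by rw [Pi.norm_single]; simp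
              rw [this]
              gcongr
          _ = K := mul_one K
      exact (norm_le_pi_norm (fderiv ℝ (u₂ t) x (e j)) i).trans k2
    · intro x
      simp only [h₁.init x, h₂.init x, sub_zero]
  have hu' : ∀ t ∈ Icc 0 T, ∀ x, u₁ t x = u₂ t x := fun t ht x => sub_eq_zero.1 (hu t ht x)
  -- equality of the pressures
  have hgrad : ∀ t ∈ Ioo 0 T, ∀ x, fderiv ℝ (p₁ t) x = fderiv ℝ (p₂ t) x := by
    intro t ht x
    have ht' := Ioo_subset_Icc_self ht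
    have e1 : u₁ t = u₂ t := funext (hu' t ht')
    have e2 : derivWithin (fun s => u₁ s x) (Icc 0 T) t = derivWithin (fun s => u₂ s x) (Icc 0 T) t :=
      derivWithin_congr (fun s hs => hu' s hs x) (hu' t ht' x)
    have hi : ∀ i, fderiv ℝ (p₁ t) x (Pi.single i 1) = fderiv ℝ (p₂ t) x (Pi.single i 1) := by
      intro i
      have m1 := h₁.momentum t ht' x i
      have m2 := h₂.momentum t ht' x i
      rw [e1, e2] at m1
      linarith
    ext v
    have hv : v = ∑ i, v i • (Pi.single i (1 : ℝ) : E3) := by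
      funext k
      simp [Finset.sum_apply, Pi.single_apply]
    rw [hv]
    simp only [map_sum, map_smul, hi]
  have hpc : ∀ t ∈ Ioo 0 T, ∀ x, p₁ t x = p₂ t x := by
    intro t ht
    have ht' := Ioo_subset_Icc_self ht
    have hconst : ∀ x, p₁ t x - p₂ t x = p₁ t 0 - p₂ t 0 := by
      intro x
      apply is_const_of_fderiv_eq_zero (𝕜 := ℝ) (f := fun y => p₁ t y - p₂ t y)
      · exact ((h₁.smooth_p t ht').differentiable (by norm_num)).sub
          ((h₂.smooth_p t ht').differentiable (by norm_num))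
      · intro y
        have := ((hp1 t ht' y).fun_sub (hp2 t ht' y)).fderiv
        rw [this, hgrad t ht y, sub_self]
    have c1 : Continuous (p₁ t) := (h₁.smooth_p t ht').continuous
    have c2 : Continuous (p₂ t) := (h₂.smooth_p t ht').continuous
    have hmean : ∫ x in Icc (0 : E3) 1, (p₁ t x - p₂ t x) = 0 := by
      rw [integral_sub (c1.continuousOn.integrableOn_compact isCompact_Icc)
        (c2.continuousOn.integrableOn_compact isCompact_Icc), h₁.mean_zero t ht',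
        h₂.mean_zero t ht', sub_zero]
    simp only [hconst] at hmean
    rw [setIntegral_const] at hmean
    have hvol : (volume : Measure E3).real (Icc (0 : E3) 1) = 1 := by
      rw [Measure.real, Real.volume_Icc_pi]
      simp
    rw [hvol, one_smul] at hmean
    intro x
    have := hconst x
    rw [hmean] at this
    linarith
  intro t ht
  refine fun x => ⟨hu' t ht x, ?_⟩
  -- extend to the closed interval by continuity
  have hcx1 : ContinuousOn (fun s => p₁ s x) (Icc 0 T) := by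
    have h1 : ContinuousOn (fun s : ℝ => ((s, x) : ℝ × E3)) (Icc 0 T) := by fun_prop
    exact h₁.cont_p.comp h1 (fun s hs => ⟨hs, mem_univ _⟩)
  have hcx2 : ContinuousOn (fun s => p₂ s x) (Icc 0 T) := by
    have h1 : ContinuousOn (fun s : ℝ => ((s, x) : ℝ × E3)) (Icc 0 T) := by fun_prop
    exact h₂.cont_p.comp h1 (fun s hs => ⟨hs, mem_univ _⟩)
  have hEq : EqOn (fun s => p₁ s x) (fun s => p₂ s x) (Ioo 0 T) := fun s hs => hpc s hs x
  have := hEq.of_subset_closure hcx1 hcx2 Ioo_subset_Icc_self (by rw [closure_Ioo hT.ne])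
  exact this ht

end Vale.Agent.P113.Uniq
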