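import Vale.Agent.P113.UniqCore

namespace Vale.Agent.P113.Uniq

open MeasureTheory Set Finset

abbrev E3 := Fin 3 → ℝ

/-- basis vector -/
abbrev e (i : Fin 3) : E3 := Pi.single i 1

theorem energy_space (ν : ℝ) (a w : E3 → E3) (A W : E3 → E3 →L[ℝ] E3)
    (W2 : E3 → E3 →L[ℝ] E3 →L[ℝ] E3) (q : E3 → ℝ) (Q : E3 → E3 →L[ℝ] ℝ)
    (ha : ∀ x, HasFDerivAt a (A x) x) (hw : ∀ x, HasFDerivAt w (W x) x)
    (hW : ∀ x, HasFDerivAt W (W2 x) x) (hq : ∀ x, HasFDerivAt q (Q x) x)
    (pa : ∀ i x, a (x + e i) = a x) (pw : ∀ i x, w (x + e i) = w x)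
    (pq : ∀ i x, q (x + e i) = q x)
    (cA : Continuous A) (cW2 : Continuous W2) (cQ : Continuous Q)
    (diva : ∀ x, ∑ j, A x (e j) j = 0) (divw : ∀ x, ∑ j, W x (e j) j = 0) :
    ∫ x in Icc (0 : E3) 1, (∑ i, w x i * (- (∑ j, a x j * W x (e j) i) - Q x (e i)
        + ν * ∑ j, W2 x (e j) (e j) i))
      = - ν * ∫ x in Icc (0 : E3) 1, ∑ i, ∑ j, (W x (e j) i) ^ 2 := by
  -- periodicity of W
  have pW : ∀ i x, W (x + e i) = W x := by
    intro i x
    have h1 : HasFDerivAt (fun y => w (y + e i)) (W (x + e i)) x := by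
      have := (hw (x + e i)).comp x ((hasFDerivAt_id x).add_const (e i))
      simpa using this
    have h2 : (fun y => w (y + e i)) = w := by funext y; exact pw i y
    rw [h2] at h1
    exact h1.unique (hw x)
  have cw : Continuous w := continuous_iff_continuousAt.2 fun x => (hw x).continuousAt
  have ca : Continuous a := continuous_iff_continuousAt.2 fun x => (ha x).continuousAt
  have cq : Continuous q := continuous_iff_continuousAt.2 fun x => (hq x).continuousAt
  have cW : Continuous W := continuous_iff_continuousAt.2 fun x => (hW x).continuousAt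
  -- coordinate derivatives
  have hwi : ∀ i x, HasFDerivAt (fun y => w y i) ((ContinuousLinearMap.proj i).comp (W x)) x := by
    intro i x
    exact (ContinuousLinearMap.proj (R := ℝ) (φ := fun _ : Fin 3 => ℝ) i).hasFDerivAt.comp x (hw x)
  have hai : ∀ i x, HasFDerivAt (fun y => a y i) ((ContinuousLinearMap.proj i).comp (A x)) x := by
    intro i x
    exact (ContinuousLinearMap.proj (R := ℝ) (φ := fun _ : Fin 3 => ℝ) i).hasFDerivAt.comp x (ha x)
  have hWji : ∀ i j x, HasFDerivAt (fun y => W y (e j) i)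
      ((ContinuousLinearMap.proj i).comp ((W2 x).flip (e j))) x := by
    intro i j x
    have h := (hW x).clm_apply (hasFDerivAt_const (e j) x)
    simp only [ContinuousLinearMap.comp_zero, zero_add] at h
    exact (ContinuousLinearMap.proj (R := ℝ) (φ := fun _ : Fin 3 => ℝ) i).hasFDerivAt.comp x h
  -- the flux
  let F : Fin 3 → E3 → ℝ := fun j x =>
    a x j * ((w x 0 * w x 0 + w x 1 * w x 1 + w x 2 * w x 2) * (1/2)) + q x * w x j
      - ν * (w x 0 * W x (e j) 0 + w x 1 * W x (e j) 1 + w x 2 * W x (e j) 2)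
  let F' : Fin 3 → E3 → E3 →L[ℝ] ℝ := fun j x => fderiv ℝ (F j) x
  have hF0 := fun j x => (((hai j x).mul (((((hwi 0 x).mul (hwi 0 x)).add
    ((hwi 1 x).mul (hwi 1 x))).add ((hwi 2 x).mul (hwi 2 x))).mul_const (1/2))).add
      ((hq x).mul (hwi j x))).sub (((((hwi 0 x).mul (hWji 0 j x)).add
        ((hwi 1 x).mul (hWji 1 j x))).add ((hwi 2 x).mul (hWji 2 j x))).const_mul ν)
  have hF1 : ∀ j x, F' j x (e j) = 
      A x (e j) j * ((w x 0 * w x 0 + w x 1 * w x 1 + w x 2 * w x 2) * (1/2)) 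
      + a x j * (w x 0 * W x (e j) 0 + w x 1 * W x (e j) 1 + w x 2 * W x (e j) 2)
      + Q x (e j) * w x j + q x * W x (e j) j
      - ν * ((W x (e j) 0)^2 + (W x (e j) 1)^2 + (W x (e j) 2)^2)
      - ν * (w x 0 * W2 x (e j) (e j) 0 + w x 1 * W2 x (e j) (e j) 1
          + w x 2 * W2 x (e j) (e j) 2) := by
    intro j x
    have h := (hF0 j x).fderiv
    have h' : F' j x = _ := h
    rw [h']
    simp
    ring
  have hF : ∀ j x, HasFDerivAt (F j) (F' j x) x := fun j x =>
    (hF0 j x).differentiableAt.hasFDerivAt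
  have hsum : ∀ x, ∑ j, F' j x (e j) = 
     -(∑ i, w x i * (- (∑ j, a x j * W x (e j) i) - Q x (e i)
        + ν * ∑ j, W2 x (e j) (e j) i)) - ν * ∑ i, ∑ j, (W x (e j) i) ^ 2 := by
    intro x
    have h1 := diva x
    have h2 := divw x
    simp only [hF1, Fin.sum_univ_three] at *
    linear_combination ((w x 0 * w x 0 + w x 1 * w x 1 + w x 2 * w x 2) * (1/2)) * h1 + q x * h2
  have hc1 : Continuous fun x => (∑ i, w x i * (- (∑ j, a x j * W x (e j) i) - Q x (e i)
        + ν * ∑ j, W2 x (e j) (e j) i)) := by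
    fun_prop
  have hc2 : Continuous fun x => ∑ i, ∑ j, (W x (e j) i) ^ 2 := by
    fun_prop
  have key := integral_div_eq_zero F F' hF ?_ ?_
  · simp only [hsum] at key
    rw [integral_sub, integral_neg, integral_const_mul] at key
    · linarith
    · exact hc1.neg.continuousOn.integrableOn_compact isCompact_Icc
    · exact (continuous_const.mul hc2).continuousOn.integrableOn_compact isCompact_Icc
  · intro i x
    simp only [F]
    rw [pa, pw, pq, pW]
  · simp only [hsum]
    exact hc1.neg.sub (continuous_const.mul hc2)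

end Vale.Agent.P113.Uniq
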