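import Vale.Agent.P113.UniqSpace

namespace Vale.Agent.P113.Uniq

open MeasureTheory Set Finset

/-- A periodic function takes all its values on the unit cube. -/
theorem exists_cube_of_periodic {α : Type*} (f : E3 → α) (hf : ∀ i x, f (x + e i) = f x) (x : E3) :
    ∃ y ∈ Icc (0 : E3) 1, f x = f y := by
  have hnat : ∀ (i : Fin 3) (n : ℕ) (x : E3), f (x + (n : ℝ) • e i) = f x := by
    intro i n
    induction n with
    | zero => intro x; simp
    | succ n ih =>
      intro x
      have : x + ((n + 1 : ℕ) : ℝ) • e i = (x + (n : ℝ) • e i) + e i := by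
        push_cast
        rw [add_smul, one_smul, add_assoc]
      rw [this, hf, ih]
  have hint : ∀ (i : Fin 3) (n : ℤ) (x : E3), f (x + (n : ℝ) • e i) = f x := by
    intro i n x
    rcases Int.eq_nat_or_neg n with ⟨m, rfl | rfl⟩
    · simpa using hnat i m x
    · have := hnat i m (x + ((-(m : ℤ) : ℤ) : ℝ) • e i)
      rw [← this]
      congr 1
      push_cast
      rw [add_assoc, ← add_smul]
      simp
  refine ⟨fun i => Int.fract (x i), ⟨fun i => Int.fract_nonneg _, fun i => (Int.fract_lt_one _).le⟩, ?_⟩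
  have hx : x = (((fun i => Int.fract (x i)) + (⌊x 0⌋ : ℝ) • e 0) + (⌊x 1⌋ : ℝ) • e 1)
      + (⌊x 2⌋ : ℝ) • e 2 := by
    funext i
    fin_cases i <;> simp
  conv_lhs => rw [hx]
  rw [hint, hint, hint]

theorem energy_time (T ν K : ℝ) (hν : 0 ≤ ν)
    (a w wt : ℝ → E3 → E3) (A W B : ℝ → E3 → E3 →L[ℝ] E3)
    (W2 : ℝ → E3 → E3 →L[ℝ] E3 →L[ℝ] E3) (q : ℝ → E3 → ℝ) (Q : ℝ → E3 → E3 →L[ℝ] ℝ)
    (ha : ∀ t ∈ Ioo 0 T, ∀ x, HasFDerivAt (a t) (A t x) x)
    (hw : ∀ t ∈ Ioo 0 T, ∀ x, HasFDerivAt (w t) (W t x) x)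
    (hW : ∀ t ∈ Ioo 0 T, ∀ x, HasFDerivAt (W t) (W2 t x) x)
    (hq : ∀ t ∈ Ioo 0 T, ∀ x, HasFDerivAt (q t) (Q t x) x)
    (pa : ∀ t ∈ Ioo 0 T, ∀ i x, a t (x + e i) = a t x)
    (pw : ∀ t ∈ Icc 0 T, ∀ i x, w t (x + e i) = w t x)
    (pq : ∀ t ∈ Ioo 0 T, ∀ i x, q t (x + e i) = q t x)
    (cA : ∀ t ∈ Ioo 0 T, Continuous (A t)) (cW2 : ∀ t ∈ Ioo 0 T, Continuous (W2 t))
    (cQ : ∀ t ∈ Ioo 0 T, Continuous (Q t)) (cB : ∀ t ∈ Ioo 0 T, Continuous (B t))
    (diva : ∀ t ∈ Ioo 0 T, ∀ x, ∑ j, A t x (e j) j = 0)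
    (divw : ∀ t ∈ Ioo 0 T, ∀ x, ∑ j, W t x (e j) j = 0)
    (cw : ContinuousOn (fun z : ℝ × E3 => w z.1 z.2) (Icc 0 T ×ˢ univ))
    (cwt : ContinuousOn (fun z : ℝ × E3 => wt z.1 z.2) (Icc 0 T ×ˢ univ))
    (hwt : ∀ t ∈ Ioo 0 T, ∀ x, HasDerivAt (fun s => w s x) (wt t x) t)
    (heq : ∀ t ∈ Ioo 0 T, ∀ x i, wt t x i = - (∑ j, a t x j * W t x (e j) i)
      - (∑ j, w t x j * B t x (e j) i) - Q t x (e i) + ν * ∑ j, W2 t x (e j) (e j) i)
    (hB : ∀ t ∈ Ioo 0 T, ∀ x ∈ Icc (0 : E3) 1, ∀ i j, |B t x (e j) i| ≤ K)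
    (h0 : ∀ x, w 0 x = 0) :
    ∀ t ∈ Icc 0 T, ∀ x, w t x = 0 := by
  intro t0 ht0
  have hT : 0 ≤ T := ht0.1.trans ht0.2
  -- the energy
  let E : ℝ → ℝ := fun t => ∫ x in Icc (0 : E3) 1, ∑ i, w t x i * w t x i
  have cE : ContinuousOn E (Icc 0 T) := by
    have cg : Continuous (Function.uncurry fun (t : ℝ) (x : E3) =>
        ∑ i, w (projIcc 0 T hT t) x i * w (projIcc 0 T hT t) x i) := by
      have h1 : Continuous (fun z : ℝ × E3 => (((projIcc 0 T hT z.1 : ℝ), z.2) : ℝ × E3)) := by
        fun_prop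
      have h2 := cw.comp_continuous h1 (fun z => ⟨(projIcc 0 T hT z.1).2, mem_univ _⟩)
      have h3 : ∀ i : Fin 3, Continuous (fun z : ℝ × E3 => w (projIcc 0 T hT z.1) z.2 i) :=
        fun i => (continuous_apply i).comp h2
      simp only [Function.uncurry_def]
      exact continuous_finsetSum _ fun i _ => (h3 i).mul (h3 i)
    have h4 := continuous_parametric_integral_of_continuous (μ := volume) cg
      (isCompact_Icc (a := (0 : E3)) (b := 1))
    refine h4.continuousOn.congr fun t ht => ?_
    simp only [E, projIcc_of_mem hT ht]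
  have ccont : ∀ (g : ℝ → E3 → E3), ContinuousOn (fun z : ℝ × E3 => g z.1 z.2) (Icc 0 T ×ˢ univ) →
      ∀ t ∈ Icc 0 T, Continuous (g t) := by
    intro g hg t ht
    have h1 : Continuous (fun x : E3 => ((t, x) : ℝ × E3)) := by fun_prop
    exact hg.comp_continuous h1 (fun x => ⟨ht, mem_univ _⟩)
  have hderiv : ∀ t ∈ Ioo 0 T, HasDerivAt E (∫ x in Icc (0 : E3) 1, ∑ i, 2 * (w t x i * wt t x i)) t := by
    intro t ht
    have hcomp : IsCompact (Icc (0 : ℝ) T ×ˢ Icc (0 : E3) 1) := isCompact_Icc.prod isCompact_Icc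
    have hcc : ContinuousOn (fun z : ℝ × E3 => ∑ i, 2 * (w z.1 z.2 i * wt z.1 z.2 i))
        (Icc (0 : ℝ) T ×ˢ Icc (0 : E3) 1) := by
      apply continuousOn_finsetSum
      intro i _
      have h1 := (continuous_apply (A := fun _ : Fin 3 => ℝ) i).comp_continuousOn
        (cw.mono (prod_mono_right (subset_univ (Icc (0 : E3) 1))))
      have h2 := (continuous_apply (A := fun _ : Fin 3 => ℝ) i).comp_continuousOn
        (cwt.mono (prod_mono_right (subset_univ (Icc (0 : E3) 1))))
      exact (h1.mul h2).const_smul (2 : ℝ)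
    obtain ⟨C, hC⟩ := hcomp.exists_bound_of_continuousOn hcc
    have hcw := fun s hs => ccont w cw s hs
    have hcwt := fun s hs => ccont wt cwt s hs
    have hcw1 : ∀ s ∈ Icc 0 T, Continuous fun x => ∑ i, w s x i * w s x i := fun s hs =>
      continuous_finsetSum _ fun i _ =>
        ((continuous_apply i).comp (hcw s hs)).mul ((continuous_apply i).comp (hcw s hs))
    have hcw2 : ∀ s ∈ Icc 0 T, Continuous fun x => ∑ i, 2 * (w s x i * wt s x i) := fun s hs =>
      continuous_finsetSum _ fun i _ => continuous_const.mul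
        (((continuous_apply i).comp (hcw s hs)).mul ((continuous_apply i).comp (hcwt s hs)))
    refine (hasDerivAt_integral_of_dominated_loc_of_deriv_le (F := fun s x => ∑ i, w s x i * w s x i)
      (F' := fun s x => ∑ i, 2 * (w s x i * wt s x i)) (bound := fun _ => C)
      (Ioo_mem_nhds ht.1 ht.2) ?_ ?_ ?_ ?_ ?_ ?_).2
    · filter_upwards [Icc_mem_nhds ht.1 ht.2] with s hs
      exact (hcw1 s hs).aestronglyMeasurable
    · exact (hcw1 t (Ioo_subset_Icc_self ht)).continuousOn.integrableOn_compact isCompact_Icc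
    · exact (hcw2 t (Ioo_subset_Icc_self ht)).aestronglyMeasurable
    · refine (ae_restrict_iff' measurableSet_Icc).2 (Filter.Eventually.of_forall fun x hx s hs => ?_)
      exact hC (s, x) ⟨Ioo_subset_Icc_self hs, hx⟩
    · exact (continuous_const.continuousOn.integrableOn_compact isCompact_Icc)
    · refine Filter.Eventually.of_forall fun x s hs => ?_
      have h1 := hasDerivAt_pi.1 (hwt s hs x)
      have h2 : HasDerivAt (fun s => ∑ i, w s x i * w s x i)
          (∑ i, (wt s x i * w s x i + w s x i * wt s x i)) s :=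
        HasDerivAt.fun_sum (u := Finset.univ) fun i _ => (h1 i).mul (h1 i)
      have h3 : (∑ i, (wt s x i * w s x i + w s x i * wt s x i))
          = ∑ i, 2 * (w s x i * wt s x i) := by
        apply Finset.sum_congr rfl
        intro i _
        ring
      rw [h3] at h2
      exact h2
  have hle : ∀ t ∈ Ioo 0 T, (∫ x in Icc (0 : E3) 1, ∑ i, 2 * (w t x i * wt t x i)) ≤ 6 * K * E t := by
    intro t ht
    have ht' := Ioo_subset_Icc_self ht
    have hen := energy_space ν (a t) (w t) (A t) (W t) (W2 t) (q t) (Q t) (ha t ht) (hw t ht)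
      (hW t ht) (hq t ht) (pa t ht) (pw t ht') (pq t ht) (cA t ht) (cW2 t ht) (cQ t ht)
      (diva t ht) (divw t ht)
    have hcw := ccont w cw t ht'
    have hcwi : ∀ i, Continuous fun x => w t x i := fun i => (continuous_apply i).comp hcw
    have hca : Continuous (a t) := continuous_iff_continuousAt.2 fun x => (ha t ht x).continuousAt
    have hcW : Continuous (W t) := continuous_iff_continuousAt.2 fun x => (hW t ht x).continuousAt
    have hcB := cB t ht
    have hcW2 := cW2 t ht
    have hcQ := cQ t ht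
    have hpos : 0 ≤ ∫ x in Icc (0 : E3) 1, ∑ i, ∑ j, (W t x (e j) i) ^ 2 := by
      apply integral_nonneg
      intro x
      exact Finset.sum_nonneg fun i _ => Finset.sum_nonneg fun j _ => sq_nonneg _
    have hc1 : Continuous fun x => (∑ i, w t x i * (- (∑ j, a t x j * W t x (e j) i) - Q t x (e i)
        + ν * ∑ j, W2 t x (e j) (e j) i)) := by
      fun_prop
    have hc2 : Continuous fun x => ∑ i, w t x i * (∑ j, w t x j * B t x (e j) i) := by
      fun_prop
    have hc3 : Continuous fun x => ∑ i, w t x i * w t x i := by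
      fun_prop
    have hint1 := hc1.continuousOn.integrableOn_compact (μ := volume) (isCompact_Icc (a := (0 : E3)) (b := 1))
    have hint2 := hc2.continuousOn.integrableOn_compact (μ := volume) (isCompact_Icc (a := (0 : E3)) (b := 1))
    have hint3 := hc3.continuousOn.integrableOn_compact (μ := volume) (isCompact_Icc (a := (0 : E3)) (b := 1))
    have hsplit : (∫ x in Icc (0 : E3) 1, ∑ i, 2 * (w t x i * wt t x i))
        = 2 * ((∫ x in Icc (0 : E3) 1, (∑ i, w t x i * (- (∑ j, a t x j * W t x (e j) i)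
          - Q t x (e i) + ν * ∑ j, W2 t x (e j) (e j) i)))
          - ∫ x in Icc (0 : E3) 1, ∑ i, w t x i * (∑ j, w t x j * B t x (e j) i)) := by
      rw [← integral_sub hint1 hint2, ← integral_const_mul]
      congr 1
      funext x
      rw [← Finset.sum_sub_distrib, Finset.mul_sum]
      apply Finset.sum_congr rfl
      intro i _
      rw [heq t ht x i]
      ring
    have hB2 : - (∫ x in Icc (0 : E3) 1, ∑ i, w t x i * (∑ j, w t x j * B t x (e j) i))
        ≤ 3 * K * E t := by
      rw [← integral_neg, ← integral_const_mul]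
      apply setIntegral_mono_on hint2.neg (hint3.const_mul _) measurableSet_Icc
      intro x hx
      have hb := hB t ht x hx
      have hK : 0 ≤ K := (abs_nonneg _).trans (hb 0 0)
      have hterm : ∀ i j, - (w t x i * (w t x j * B t x (e j) i)) ≤
          K * ((w t x i * w t x i + w t x j * w t x j) / 2) := by
        intro i j
        have h1 : - (w t x i * (w t x j * B t x (e j) i)) ≤ |w t x i| * |w t x j| * K := by
          calc - (w t x i * (w t x j * B t x (e j) i))
              ≤ |w t x i * (w t x j * B t x (e j) i)| := neg_le_abs _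
            _ = |w t x i| * |w t x j| * |B t x (e j) i| := by rw [abs_mul, abs_mul, mul_assoc]
            _ ≤ |w t x i| * |w t x j| * K := by
                exact mul_le_mul_of_nonneg_left (hb i j) (by positivity)
        have h2 : |w t x i| * |w t x j| ≤ (w t x i * w t x i + w t x j * w t x j) / 2 := by
          have := two_mul_le_add_sq |w t x i| |w t x j|
          rw [sq_abs, sq_abs] at this
          nlinarith
        calc - (w t x i * (w t x j * B t x (e j) i)) ≤ |w t x i| * |w t x j| * K := h1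
          _ ≤ (w t x i * w t x i + w t x j * w t x j) / 2 * K := mul_le_mul_of_nonneg_right h2 hK
          _ = _ := by ring
      calc - (∑ i, w t x i * (∑ j, w t x j * B t x (e j) i))
          = ∑ i, ∑ j, - (w t x i * (w t x j * B t x (e j) i)) := by
            rw [← Finset.sum_neg_distrib]
            apply Finset.sum_congr rfl
            intro i _
            rw [Finset.mul_sum, ← Finset.sum_neg_distrib]
        _ ≤ ∑ i, ∑ j, K * ((w t x i * w t x i + w t x j * w t x j) / 2) :=
            Finset.sum_le_sum fun i _ => Finset.sum_le_sum fun j _ => hterm i j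
        _ = 3 * K * ∑ i, w t x i * w t x i := by
            simp only [Fin.sum_univ_three]
            ring
    rw [hsplit, hen]
    have := mul_nonneg hν hpos
    linarith
  have hE0 : E 0 = 0 := by
    simp [E, h0]
  have hEnonneg : ∀ t, 0 ≤ E t := fun t => by
    apply integral_nonneg
    intro x
    exact Finset.sum_nonneg fun i _ => mul_self_nonneg _
  have hanti : AntitoneOn (fun t => E t * Real.exp (-(6 * K) * t)) (Icc 0 T) := by
    have hd : ∀ t ∈ Ioo 0 T, HasDerivAt (fun t => E t * Real.exp (-(6 * K) * t))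
      ((∫ x in Icc (0 : E3) 1, ∑ i, 2 * (w t x i * wt t x i)) * Real.exp (-(6 * K) * t)
        + E t * (Real.exp (-(6 * K) * t) * (-(6 * K)))) t := by
      intro t ht
      have h1 := hderiv t ht
      have h2 : HasDerivAt (fun t => Real.exp (-(6 * K) * t)) (Real.exp (-(6 * K) * t) * (-(6 * K))) t := by
        have := ((hasDerivAt_id t).const_mul (-(6 * K))).exp
        simpa using this
      exact h1.mul h2
    apply antitoneOn_of_deriv_nonpos (convex_Icc 0 T)
    · exact cE.mul (by fun_prop)
    · rw [interior_Icc]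
      intro t ht
      exact (hd t ht).differentiableAt.differentiableWithinAt
    · rw [interior_Icc]
      intro t ht
      rw [(hd t ht).deriv]
      have h1 := hle t ht
      have h2 := Real.exp_pos (-(6 * K) * t)
      nlinarith [mul_le_mul_of_nonneg_right h1 h2.le]
  have hEt : E t0 = 0 := by
    have h1 := hanti (left_mem_Icc.2 hT) ht0 ht0.1
    simp only [hE0, zero_mul] at h1
    have h2 := Real.exp_pos (-(6 * K) * t0)
    have h3 := hEnonneg t0
    by_contra hne
    have h4 : 0 < E t0 := lt_of_le_of_ne h3 (Ne.symm hne)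
    have := mul_pos h4 h2
    linarith
  -- conclude
  have cwt0 : Continuous (w t0) := by
    have h1 : Continuous (fun x : E3 => ((t0, x) : ℝ × E3)) := by fun_prop
    have := cw.comp_continuous h1 (fun x => ⟨ht0, mem_univ _⟩)
    exact this
  have hz : ∀ x ∈ Icc (0 : E3) 1, ∑ i, w t0 x i * w t0 x i = 0 := by
    have hc3 : Continuous fun x => ∑ i, w t0 x i * w t0 x i :=
      continuous_finsetSum _ fun i _ =>
        ((continuous_apply i).comp cwt0).mul ((continuous_apply i).comp cwt0)
    have hint3 := hc3.continuousOn.integrableOn_compact (μ := volume)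
      (isCompact_Icc (a := (0 : E3)) (b := 1))
    have h1 := (setIntegral_eq_zero_iff_of_nonneg_ae
      (Filter.Eventually.of_forall fun x => Finset.sum_nonneg fun i _ => mul_self_nonneg _)
        hint3).1 hEt
    have h2 := Measure.eqOn_of_ae_eq h1 hc3.continuousOn continuousOn_const (by
      rw [← Set.pi_univ_Icc, interior_pi_set Set.finite_univ, closure_pi_set]
      intro x hx i _
      have := hx i (mem_univ _)
      simpa [interior_Icc, closure_Ioo (zero_ne_one (α := ℝ))] using this)
    intro x hx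
    exact h2 hx
  intro x
  obtain ⟨y, hy, hxy⟩ := exists_cube_of_periodic (w t0) (pw t0 ht0) x
  rw [hxy]
  have := hz y hy
  funext i
  have h1 := (Finset.sum_eq_zero_iff_of_nonneg (fun i _ => mul_self_nonneg (w t0 y i))).1 this i (Finset.mem_univ i)
  simpa using h1

end Vale.Agent.P113.Uniq
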